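import Vale.Agent.P011.RP.Count
import Vale.Agent.P011.RP.Final
import Vale.Agent.P011.Even.R2

/-!
Hermitian matrices of rank two are represented by an anisotropic hermitian form of rank at least
three as soon as they are positive definite at the real places where the form has enough
positive directions and have the mixed signature at the other real places.
-/

open Module Matrix
open scoped ComplexOrder

set_option linter.unusedSectionVars false

namespace Vale.Agent.P011.Three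

open Vale.Agent.P011S Vale.Agent.P011.RP
open Vale.Agent.P011.T2 (HF)

section mat

variable {ι : Type} [Fintype ι] [DecidableEq ι]

/-- Invertible hermitian matrices have many positive or many negative directions. -/
theorem exists_pos_or_neg {G : Matrix ι ι ℂ} (hG : G.IsHermitian) (hu : IsUnit G) {κ κ' : Type}
    [Fintype κ] [Fintype κ'] [DecidableEq κ] [DecidableEq κ']
    (h : Fintype.card κ + Fintype.card κ' ≤ Fintype.card ι + 1) :
    (∃ Y : Matrix κ ι ℂ, (Y * G * Yᴴ).PosDef) ∨ ∃ Y : Matrix κ' ι ℂ, (-(Y * G * Yᴴ)).PosDef := by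
  classical
  obtain ⟨S, η, hS, hSG⟩ := exists_sign_diag hG hu
  have key : ∀ (μ : Type) [Fintype μ] [DecidableEq μ] (e : μ ↪ ι),
      (S.submatrix e id) * G * (S.submatrix e id)ᴴ =
        Matrix.diagonal fun k => ((((η (e k) : ℤˣ) : ℤ) : ℝ) : ℂ) := by
    intro μ _ _ e
    have h2 : (S.submatrix e id) * G * (S.submatrix e id)ᴴ = (S * G * Sᴴ).submatrix e e := by
      ext a b
      simp [Matrix.mul_apply, Matrix.submatrix_apply]
    rw [h2, hSG]
    ext a b
    rw [Matrix.submatrix_apply, Matrix.diagonal_apply, Matrix.diagonal_apply]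
    by_cases hab : a = b
    · subst hab; simp
    · rw [if_neg hab, if_neg]
      intro h
      exact hab (e.injective h)
  have hcard : Fintype.card {i // η i = 1} + Fintype.card {i // ¬ η i = 1} = Fintype.card ι := by
    rw [Fintype.card_subtype_compl]
    have := Fintype.card_subtype_le fun i => η i = 1
    omega
  rcases le_or_gt (Fintype.card κ) (Fintype.card {i // η i = 1}) with h1 | h1
  · left
    obtain ⟨e⟩ := Function.Embedding.nonempty_of_card_le h1
    refine ⟨S.submatrix (e.trans (Function.Embedding.subtype _)) id, ?_⟩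
    rw [key]
    apply Matrix.PosDef.diagonal
    intro k
    have h2 : η ((e.trans (Function.Embedding.subtype _)) k) = 1 := (e k).2
    rw [h2]
    simp
  · right
    obtain ⟨e⟩ : Nonempty (κ' ↪ {i // ¬ η i = 1}) :=
      Function.Embedding.nonempty_of_card_le (by omega)
    refine ⟨S.submatrix (e.trans (Function.Embedding.subtype _)) id, ?_⟩
    rw [key, Matrix.diagonal_neg]
    apply Matrix.PosDef.diagonal
    intro k
    have h2 : η ((e.trans (Function.Embedding.subtype _)) k) = -1 :=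
      (Int.units_eq_one_or _).resolve_left (e k).2
    rw [h2]
    simp

/-- A positive subspace of dimension `2 n` contains a subspace of dimension `n` orthogonal to
`n` given vectors. -/
theorem exists_orth {n : ℕ} {G : Matrix ι ι ℂ} {Y : Matrix (Fin (2 * n)) ι ℂ}
    (hY : (Y * G * Yᴴ).PosDef) (C : Matrix ι (Fin n) ℂ) :
    ∃ T : Matrix (Fin n) ι ℂ, (T * G * Tᴴ).PosDef ∧ T * C = 0 := by
  let L : (Fin (2 * n) → ℂ) →ₗ[ℂ] (Fin n → ℂ) := Matrix.vecMulLinear (Y * C)
  have h1 := LinearMap.finrank_range_add_finrank_ker L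
  have h2 : finrank ℂ (LinearMap.range L) ≤ n := by
    refine (Submodule.finrank_le _).trans ?_
    rw [Module.finrank_fin_fun]
  rw [Module.finrank_fin_fun] at h1
  have h3 : n ≤ finrank ℂ (LinearMap.ker L) := by omega
  let b := Module.finBasis ℂ (LinearMap.ker L)
  let z : Fin n → Fin (2 * n) → ℂ := fun i => (b (Fin.castLE h3 i) : Fin (2 * n) → ℂ)
  have hz : LinearIndependent ℂ z := by
    have h4 : LinearIndependent ℂ fun i : Fin n => b (Fin.castLE h3 i) :=
      b.linearIndependent.comp _ (Fin.castLE_injective h3)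
    exact h4.map' (LinearMap.ker L).subtype (Submodule.ker_subtype _)
  obtain ⟨Z, hZ⟩ : ∃ Z : Matrix (Fin n) (Fin (2 * n)) ℂ, Z = Matrix.of z := ⟨_, rfl⟩
  have hZi : Function.Injective Z.vecMul := by
    rw [Matrix.vecMul_injective_iff, hZ]
    exact hz
  have hZ0 : Z * (Y * C) = 0 := by
    apply Matrix.ext_of_single_vecMul
    intro i
    rw [← Matrix.vecMul_vecMul, Matrix.vecMul_zero, Matrix.single_one_vecMul, hZ]
    have h5 := (b (Fin.castLE h3 i)).2
    rw [LinearMap.mem_ker] at h5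
    exact h5
  refine ⟨Z * Y, ?_, by rw [Matrix.mul_assoc, hZ0]⟩
  have h6 := hY.mul_mul_conjTranspose_same hZi
  have h7 : Z * Y * G * (Z * Y)ᴴ = Z * (Y * G * Yᴴ) * Zᴴ := by
    rw [Matrix.conjTranspose_mul]
    simp only [Matrix.mul_assoc]
  rw [h7]
  exact h6

end mat

section basic

variable {K D : Type} [Field K] [StarRing K] [DivisionRing D] [StarRing D] [Algebra K D]
  {n m : ℕ}

/-- The form is positive definite on a subspace of dimension `r` at the real place. -/
def PosDim (R : RData K D n) (H : Matrix (Fin m) (Fin m) D) (r : ℕ) : Prop :=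
  ∃ Y : Matrix (Fin r) (Fin m × Fin n) ℂ, (Y * R.Gam H * Yᴴ).PosDef

/-- The complex matrix of a row. -/
def U1 (R : RData K D n) (u : Fin m → D) : Matrix (Fin n) (Fin m × Fin n) ℂ :=
  Matrix.of fun p y => R.f (u y.1) p y.2

theorem U1_gram [StarModule K D] [FiniteDimensional K D] [Algebra.IsCentral K D] (R : RData K D n) (H : Matrix (Fin m) (Fin m) D) (u v : Fin m → D) :
    U1 R u * R.Gam H * (U1 R v)ᴴ = R.f (rowH H u v) * R.A := by
  ext p q
  have h := R.Um_gram (κ := Fin 2) H ![u, v] (0, p) (1, q)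
  have h1 : (R.Um ![u, v] * R.Gam H * (R.Um ![u, v])ᴴ) (0, p) (1, q) =
      (U1 R u * R.Gam H * (U1 R v)ᴴ) p q := rfl
  rw [← h1, h]
  rfl

/-- Negative elements are congruent. -/
theorem congAt_of_neg [StarModule K D] [FiniteDimensional K D] [Algebra.IsCentral K D] {R : RData K D n} {c e : D} (h1 : (-(R.f c * R.A)).PosDef)
    (h2 : (-(R.f e * R.A)).PosDef) : R.CongAt c e := by
  have h3 : R.CongAt (-c) (-e) := congAt_of_pos (by rwa [map_neg, neg_mul])
    (by rwa [map_neg, neg_mul])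
  obtain ⟨Q, hQ, h⟩ := h3
  refine ⟨Q, hQ, ?_⟩
  rw [map_neg, map_neg, neg_mul, neg_mul, Matrix.mul_neg, Matrix.neg_mul] at h
  exact neg_injective h

end basic

section main

variable {K D : Type} [Field K] [NumberField K] [StarRing K] [DivisionRing D] [StarRing D]
  [Algebra K D] [StarModule K D] [FiniteDimensional K D] [Algebra.IsCentral K D] {n m : ℕ}

/-- A row close to given complex matrices at all real places. -/
theorem exists_row {ι : Type} [Fintype ι] {R : ι → RData K D n} (hd : Dense R)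
    (T : ι → Matrix (Fin n) (Fin m × Fin n) ℂ) {δ : ι → ℝ} (hδ : ∀ i, 0 < δ i) :
    ∃ w : Fin m → D, ∀ i p y, ‖U1 (R i) w p y - T i p y‖ < δ i := by
  obtain ⟨δ0, hδ0, hδ0'⟩ : ∃ δ0 : ℝ, 0 < δ0 ∧ ∀ i, δ0 ≤ δ i := by
    rcases isEmpty_or_nonempty ι with hι | hι
    · exact ⟨1, one_pos, fun i => (hι.false i).elim⟩
    · obtain ⟨i0, hi0⟩ := Finite.exists_min δ
      exact ⟨δ i0, hδ i0, hi0⟩
  have h4 : ∀ a : Fin m, ∃ x : D, ∀ i p r, ‖(R i).f x p r - T i p (a, r)‖ < δ0 := fun a =>
    hd (fun i => Matrix.of fun p r => T i p (a, r)) δ0 hδ0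
  choose w hw using h4
  exact ⟨w, fun i p y => (hw y.1 i p y.2).trans_le (hδ0' i)⟩

/-- Positive elements are represented. -/
theorem exists_len (hn : 0 < n) (hdeg : finrank K D = n ^ 2) (hR2 : HasR2 K D n) {ι : Type}
    [Fintype ι] {R : ι → RData K D n} (hc : Complete R) (hd : Dense R) (hm : 2 ≤ m)
    {H : Matrix (Fin m) (Fin m) D} (hH : IsAnisotropicForm H)
    (hH1 : ∀ i, PosDim (R i) H n) {a : D} (ha : star a = a) (ha0 : a ≠ 0)
    (hapos : ∀ i, ((R i).f a * (R i).A).PosDef) : ∃ x : Fin m → D, rowH H x x = a := by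
  classical
  let B := rowF H hH.1
  have hB : ∀ x, B.h x x = 0 → x = 0 := by
    intro x hx
    have h1 := hH.2 (star x) (by rw [col_row, star_star]; exact hx)
    rw [← star_star x, h1, star_zero]
  choose T hT using hH1
  have h2 : ∀ i, ∃ η : ℝ, 0 < η ∧ ∀ M : Matrix (Fin n) (Fin n) ℂ, M.IsHermitian →
      (∀ a b, ‖M a b - (T i * (R i).Gam H * (T i)ᴴ) a b‖ < η) → M.PosDef := fun i =>
    posDef_near (hT i)
  choose η hη hM using h2
  have h3 : ∀ i, ∃ δ : ℝ, 0 < δ ∧ ∀ U : Matrix (Fin n) (Fin m × Fin n) ℂ,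
      (∀ a b, ‖U a b - T i a b‖ < δ) → ∀ a b, ‖(U * (R i).Gam H * Uᴴ) a b -
        (T i * (R i).Gam H * (T i)ᴴ) a b‖ < η i := fun i => near_conj _ _ (hη i)
  choose δ hδ hU using h3
  obtain ⟨w, hw⟩ := exists_row hd T hδ
  have hpos : ∀ i, ((R i).f (rowH H w w) * (R i).A).PosDef := by
    intro i
    rw [← U1_gram]
    apply hM i
    · exact Matrix.isHermitian_mul_mul_conjTranspose _ ((R i).Gam_herm hH.1)
    · exact hU i _ (hw i)
  rcases isEmpty_or_nonempty ι with hι | ⟨⟨i0⟩⟩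
  · have hm0 : 0 < m := by omega
    let x0 : Fin m → D := fun _ => 1
    have hx0 : x0 ≠ 0 := fun h => one_ne_zero (congrFun h ⟨0, hm0⟩)
    exact hR2 (Fin m → D) B hB (by rw [Module.finrank_fin_fun]; exact hm) x0 hx0 a ha ha0
      fun R' => of_family hn hdeg hc (fun i => (hι.false i).elim) R'
  · have hw0 : w ≠ 0 := by
      rintro rfl
      apply ne_zero_of_pos hn (hpos i0)
      exact B.zero_left 0
    exact hR2 (Fin m → D) B hB (by rw [Module.finrank_fin_fun]; exact hm) w hw0 a ha ha0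
      fun R' => of_family hn hdeg hc (fun i => congAt_of_pos (hpos i) (hapos i)) R'

/-- Hermitian matrices of rank two are represented if they have suitable signatures. -/
theorem exists_gram (hn : 0 < n) (hdeg : finrank K D = n ^ 2) (hR2 : HasR2 K D n) {ι : Type}
    [Fintype ι] {R : ι → RData K D n} (hc : Complete R) (hd : Dense R) (hm : 3 ≤ m)
    {H : Matrix (Fin m) (Fin m) D} (hH : IsAnisotropicForm H)
    (hH1 : ∀ i, PosDim (R i) H n) {a e b : D} (ha : star a = a) (hb : star b = b)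
    (hapos : ∀ i, ((R i).f a * (R i).A).PosDef)
    (hp : ∀ i, PosDim (R i) H (2 * n) → ((R i).f (b - star e * a⁻¹ * e) * (R i).A).PosDef)
    (hq : ∀ i, ¬ PosDim (R i) H (2 * n) →
      (-((R i).f (b - star e * a⁻¹ * e) * (R i).A)).PosDef) :
    ∃ x y : Fin m → D, rowH H x x = a ∧ rowH H x y = e ∧ rowH H y y = b := by
  classical
  obtain ⟨i0⟩ := nonempty_of_anis hn hdeg hc hR2 hm hH
  have ha0 : a ≠ 0 := ne_zero_of_pos hn (hapos i0)
  let B := rowF H hH.1
  have hB : ∀ x, B.h x x = 0 → x = 0 := by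
    intro x hx
    have h1 := hH.2 (star x) (by rw [col_row, star_star]; exact hx)
    rw [← star_star x, h1, star_zero]
  obtain ⟨x, hx⟩ := exists_len hn hdeg hR2 hc hd (by omega) hH hH1 ha ha0 hapos
  have hHu : IsUnit H := isUnit_of_anis hH
  -- the inverse of the value
  have hPu : ∀ i, ∃ P : Matrix (Fin n) (Fin n) ℂ, P.PosDef ∧ (R i).A * P = (R i).f a⁻¹ := by
    intro i
    have h1 := (hapos i).inv
    refine ⟨_, h1, ?_⟩
    have h2 : IsUnit (((R i).f a * (R i).A).det) :=
      (Matrix.isUnit_iff_isUnit_det _).mp (hapos i).isUnit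
    have h3 : (R i).f a⁻¹ * (R i).f a = 1 := by rw [← map_mul, inv_mul_cancel₀ ha0, map_one]
    calc (R i).A * ((R i).f a * (R i).A)⁻¹
        = ((R i).f a⁻¹ * (R i).f a) * (R i).A * ((R i).f a * (R i).A)⁻¹ := by rw [h3, one_mul]
      _ = (R i).f a⁻¹ * (((R i).f a * (R i).A) * ((R i).f a * (R i).A)⁻¹) := by
          simp only [mul_assoc]
      _ = _ := by rw [Matrix.mul_nonsing_inv _ h2, mul_one]
  choose P hP hPA using hPu
  obtain ⟨X, hX⟩ : ∃ X : ∀ i, Matrix (Fin n) (Fin m × Fin n) ℂ, ∀ i, X i = U1 (R i) x :=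
    ⟨_, fun _ => rfl⟩
  obtain ⟨G, hG⟩ : ∃ G : ∀ _ : ι, Matrix (Fin m × Fin n) (Fin m × Fin n) ℂ, ∀ i, G i =
      (R i).Gam H - (R i).Gam H * (X i)ᴴ * P i * (X i) * (R i).Gam H := ⟨_, fun _ => rfl⟩
  have hΓ : ∀ i, ((R i).Gam H)ᴴ = (R i).Gam H := fun i => ((R i).Gam_herm hH.1).eq
  have hGU : ∀ i (U : Matrix (Fin n) (Fin m × Fin n) ℂ), U * G i * Uᴴ =
      U * (R i).Gam H * Uᴴ - (U * (R i).Gam H * (X i)ᴴ) * P i *
        (U * (R i).Gam H * (X i)ᴴ)ᴴ := by
    intro i U
    rw [hG, Matrix.mul_sub, Matrix.sub_mul, Matrix.conjTranspose_mul, Matrix.conjTranspose_mul,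
      Matrix.conjTranspose_conjTranspose, hΓ]
    simp only [Matrix.mul_assoc]
  have hT : ∀ i, ∃ T : Matrix (Fin n) (Fin m × Fin n) ℂ,
      (PosDim (R i) H (2 * n) → (T * G i * Tᴴ).PosDef) ∧
      (¬ PosDim (R i) H (2 * n) → (-(T * G i * Tᴴ)).PosDef) := by
    intro i
    by_cases hi : PosDim (R i) H (2 * n)
    · obtain ⟨Y, hY⟩ := hi
      obtain ⟨T, hT, hT0⟩ := exists_orth hY ((R i).Gam H * (X i)ᴴ)
      refine ⟨T, fun _ => ?_, fun h => absurd ⟨Y, hY⟩ h⟩
      rw [hGU, Matrix.mul_assoc T _ (X i)ᴴ, hT0, Matrix.zero_mul, Matrix.zero_mul, sub_zero]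
      exact hT
    · obtain ⟨T, hT⟩ : ∃ T : Matrix (Fin n) (Fin m × Fin n) ℂ,
          (-(T * (R i).Gam H * Tᴴ)).PosDef := by
        refine (exists_pos_or_neg (κ := Fin (2 * n)) (κ' := Fin n) ((R i).Gam_herm hH.1)
          ((R i).Gam_unit hHu) ?_).resolve_left hi
        rw [Fintype.card_prod, Fintype.card_fin, Fintype.card_fin, Fintype.card_fin]
        nlinarith
      refine ⟨T, fun h => absurd h hi, fun _ => ?_⟩
      rw [hGU, neg_sub, sub_eq_neg_add]
      exact hT.add_posSemidef ((hP i).posSemidef.mul_mul_conjTranspose_same _)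
  choose T hTp hTn using hT
  -- radii
  have h2 : ∀ i, ∃ η : ℝ, 0 < η ∧ ∀ M : Matrix (Fin n) (Fin n) ℂ, M.IsHermitian →
      (∀ a b, ‖M a b - (T i * G i * (T i)ᴴ) a b‖ < η) →
        (PosDim (R i) H (2 * n) → M.PosDef) ∧ (¬ PosDim (R i) H (2 * n) → (-M).PosDef) := by
    intro i
    by_cases hi : PosDim (R i) H (2 * n)
    · obtain ⟨η, hη, h⟩ := posDef_near (hTp i hi)
      exact ⟨η, hη, fun M hM hM2 => ⟨fun _ => h M hM hM2, fun h' => absurd hi h'⟩⟩
    · obtain ⟨η, hη, h⟩ := posDef_near (hTn i hi)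
      refine ⟨η, hη, fun M hM hM2 => ⟨fun h' => absurd h' hi, fun _ => h (-M) hM.neg ?_⟩⟩
      intro c d
      rw [Matrix.neg_apply, Matrix.neg_apply, ← neg_sub', norm_neg]
      exact hM2 c d
  choose η hη hM using h2
  have h3 : ∀ i, ∃ δ : ℝ, 0 < δ ∧ ∀ U : Matrix (Fin n) (Fin m × Fin n) ℂ,
      (∀ a b, ‖U a b - T i a b‖ < δ) → ∀ a b, ‖(U * G i * Uᴴ) a b -
        (T i * G i * (T i)ᴴ) a b‖ < η i := fun i => near_conj _ _ (hη i)
  choose δ hδ hU using h3
  obtain ⟨w, hw⟩ := exists_row hd T hδ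
  -- the orthogonal vector
  obtain ⟨y0, hy0⟩ : ∃ y0 : Fin m → D, y0 = w - (rowH H w x * a⁻¹) • x := ⟨_, rfl⟩
  have hy0x : B.h y0 x = 0 := by
    rw [hy0]
    change B.h (w - (B.h w x * a⁻¹) • x) x = 0
    rw [B.sub_left, B.smul_left]
    change B.h w x - B.h w x * a⁻¹ * rowH H x x = 0
    rw [hx, mul_assoc, inv_mul_cancel₀ ha0, mul_one, sub_self]
  have hxy0 : B.h x y0 = 0 := by rw [← B.star_h, hy0x, star_zero]
  have hy0y0 : rowH H y0 y0 = rowH H w w - rowH H w x * a⁻¹ * rowH H x w := by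
    have h1 : B.h y0 y0 = B.h w y0 := by
      have e0 : B.h y0 y0 = B.h (w - (B.h w x * a⁻¹) • x) y0 := by
        nth_rewrite 1 [hy0]
        rfl
      rw [e0, B.sub_left, B.smul_left, hxy0, mul_zero, sub_zero]
    have h2 : B.h w y0 = B.h w w - rowH H w x * a⁻¹ * rowH H x w := by
      rw [← B.star_h, hy0]
      change star (B.h (w - (B.h w x * a⁻¹) • x) w) = _
      rw [B.sub_left, B.smul_left, star_sub, B.star_h, star_mul, star_mul, B.star_h, star_inv₀,
        B.star_h, ha, mul_assoc]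
      rfl
    exact h1.trans h2
  have hval : ∀ i, (R i).f (rowH H y0 y0) * (R i).A = U1 (R i) w * G i * (U1 (R i) w)ᴴ := by
    intro i
    rw [hGU, hX, U1_gram, U1_gram, hy0y0, map_sub, sub_mul]
    congr 1
    have h1 : ((R i).f (rowH H w x) * (R i).A)ᴴ = (R i).f (rowH H x w) * (R i).A := by
      rw [← U1_gram, ← U1_gram, Matrix.conjTranspose_mul, Matrix.conjTranspose_mul,
        Matrix.conjTranspose_conjTranspose, hΓ]
      simp only [Matrix.mul_assoc]
    rw [h1, map_mul, map_mul, ← hPA]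
    simp only [mul_assoc]
  have hGh : ∀ i, (G i).IsHermitian := by
    intro i
    have h1 : (P i)ᴴ = P i := (hP i).isHermitian.eq
    rw [Matrix.IsHermitian, hG, Matrix.conjTranspose_sub]
    simp only [Matrix.conjTranspose_mul, Matrix.conjTranspose_conjTranspose, hΓ, h1,
      Matrix.mul_assoc]
  have hsgn : ∀ i, (PosDim (R i) H (2 * n) → ((R i).f (rowH H y0 y0) * (R i).A).PosDef) ∧
      (¬ PosDim (R i) H (2 * n) → (-((R i).f (rowH H y0 y0) * (R i).A)).PosDef) := by
    intro i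
    rw [hval]
    exact hM i _ (Matrix.isHermitian_mul_mul_conjTranspose _ (hGh i)) (hU i _ (hw i))
  -- the orthogonal complement
  obtain ⟨b', hb'⟩ : ∃ b', b' = b - star e * a⁻¹ * e := ⟨_, rfl⟩
  rw [← hb'] at hp hq
  have hsb' : star b' = b' := by
    rw [hb', star_sub, hb, star_mul, star_mul, star_star, star_inv₀, ha, mul_assoc]
  have hne : ∀ {c : D} (i : ι), ((PosDim (R i) H (2 * n) → ((R i).f c * (R i).A).PosDef) ∧
      (¬ PosDim (R i) H (2 * n) → (-((R i).f c * (R i).A)).PosDef)) → c ≠ 0 := by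
    rintro c i ⟨h1, h2⟩ rfl
    by_cases hi : PosDim (R i) H (2 * n)
    · exact ne_zero_of_pos hn (h1 hi) rfl
    · refine ne_zero_of_pos (R := R i) (c := 0) hn ?_ rfl
      have h3 := h2 hi
      rw [map_zero, zero_mul] at h3 ⊢
      rwa [neg_zero] at h3
  have hb'0 : b' ≠ 0 := hne i0 ⟨hp i0, hq i0⟩
  have hy0' : y0 ≠ 0 := by
    rintro h0
    apply hne i0 (hsgn i0)
    rw [h0]
    exact B.zero_left 0
  let W := LinearMap.ker (orthF B (fun _ : Fin 1 => x))
  have hW : 2 ≤ finrank D W := by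
    have h1 := finrank_orth B (fun _ : Fin 1 => x)
    rw [Module.finrank_fin_fun] at h1
    change m ≤ finrank D W + 1 at h1
    omega
  have hcong : ∀ R' : RData K D n, R'.CongAt (rowH H y0 y0) b' := fun R' =>
    of_family hn hdeg hc (fun i => by
      by_cases hi : PosDim (R i) H (2 * n)
      · exact congAt_of_pos ((hsgn i).1 hi) (hp i hi)
      · exact congAt_of_neg ((hsgn i).2 hi) (hq i hi)) R'
  obtain ⟨z, hz⟩ := hR2 W (resF B W) (fun x hx => Subtype.ext (hB x hx)) hW
    ⟨y0, (mem_orth B _ _).mpr fun _ => hy0x⟩ (fun h => hy0' (congrArg Subtype.val h)) b' hsb' hb'0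
    hcong
  have hz' : B.h (z : Fin m → D) z = b' := hz
  have hzx : B.h (z : Fin m → D) x = 0 := (mem_orth B _ _).mp z.2 0
  have hxz : B.h x z = 0 := by rw [← B.star_h, hzx, star_zero]
  have hxx : B.h x x = a := hx
  have e1 : B.h x ((star e * a⁻¹) • x + (z : Fin m → D)) = e := by
    rw [B.add_right, B.smul_right, hxz, add_zero, hxx, star_mul, star_star, star_inv₀, ha,
      ← mul_assoc, mul_inv_cancel₀ ha0, one_mul]
  refine ⟨x, (star e * a⁻¹) • x + (z : Fin m → D), hx, e1, ?_⟩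
  change B.h ((star e * a⁻¹) • x + (z : Fin m → D)) ((star e * a⁻¹) • x + (z : Fin m → D)) = b
  have e2 : B.h (z : Fin m → D) ((star e * a⁻¹) • x + (z : Fin m → D)) = b' := by
    rw [B.add_right, B.smul_right, hzx, zero_mul, zero_add, hz']
  rw [B.add_left, B.smul_left, e1, e2, hb']
  abel

end main

end Vale.Agent.P011.Three
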