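import Vale.Agent.P011.Three.Emb

/-!
Planes with an orthogonal basis of lengths `1` and `μ`, with `μ` in the fixed field.
-/

open Module Matrix
open scoped ComplexOrder

set_option linter.unusedSectionVars false

namespace Vale.Agent.P011.Three

open Vale.Agent.P011S Vale.Agent.P011.RP Vale.Agent.P011.Two.Hi Vale.Agent.P011.Even

variable {k K D : Type} [Field k] [NumberField k] [Field K] [NumberField K] [StarRing K]
  [DivisionRing D] [StarRing D] [Algebra k K] [Algebra k D] [Algebra K D] [IsScalarTower k K D]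
  [StarModule K D] [FiniteDimensional K D] [Algebra.IsCentral K D] {n m : ℕ} {d : kˣ} {s : K}

/-- The real place of `k` below a place. -/
theorem exists_phi (hS : Setting k K D d s) (R : RData K D n) :
    ∃ φ : k →+* ℝ, φ d < 0 ∧ ∀ x, R.s (algebraMap k K x) = (φ x : ℂ) := by
  have h1 : ∀ x : k, (R.s (algebraMap k K x)).im = 0 := by
    intro x
    have h2 := R.hs (algebraMap k K x)
    rw [(hS.fix _).mpr ⟨x, rfl⟩] at h2
    exact Complex.conj_eq_iff_im.mp h2.symm
  have h3 : ∀ x : k, R.s (algebraMap k K x) = ((R.s (algebraMap k K x)).re : ℂ) := fun x =>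
    Complex.ext rfl (h1 x)
  let φ : k →+* ℝ :=
    { toFun := fun x => (R.s (algebraMap k K x)).re
      map_one' := by rw [map_one, map_one, Complex.one_re]
      map_mul' := fun x y => by
        rw [map_mul, map_mul, Complex.mul_re, h1, zero_mul, sub_zero]
      map_zero' := by rw [map_zero, map_zero, Complex.zero_re]
      map_add' := fun x y => by rw [map_add, map_add, Complex.add_re] }
  refine ⟨φ, ?_, h3⟩
  have h4 : R.s s ^ 2 = (φ d : ℂ) := by
    rw [← map_pow, hS.sq, h3]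
    rfl
  have h5 : (R.s s).re = 0 := by
    have h6 := R.hs s
    rw [hS.star_s, map_neg] at h6
    have h7 := congrArg Complex.re h6
    rw [Complex.neg_re] at h7
    change -(R.s s).re = (R.s s).re at h7
    linarith
  have h8 : (φ d : ℝ) = -(R.s s).im ^ 2 := by
    have h9 := congrArg Complex.re h4
    rw [sq, Complex.mul_re, h5, Complex.ofReal_re] at h9
    rw [← h9]
    ring
  have h10 : φ d ≠ 0 := (map_ne_zero φ).mpr d.ne_zero
  have h11 : φ d ≤ 0 := by
    rw [h8]
    nlinarith [sq_nonneg (R.s s).im]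
  exact lt_of_le_of_ne h11 h10

/-- The places of a dense family are different. -/
theorem phi_inj (hn : 0 < n) (hdeg : finrank K D = n ^ 2) (hS : Setting k K D d s) {ι : Type}
    {R : ι → RData K D n} (hd : Dense R) {φ : k →+* ℝ} {i j : ι}
    (hi : ∀ x, (R i).s (algebraMap k K x) = (φ x : ℂ))
    (hj : ∀ x, (R j).s (algebraMap k K x) = (φ x : ℂ)) : i = j := by
  classical
  by_contra hij
  obtain ⟨q, hq, hq'⟩ := scalDense hn hdeg hd (fun l => if l = i then 0 else 1) (1 / 2)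
    (by norm_num)
  obtain ⟨x, rfl⟩ := (hS.fix q).mp hq
  have h1 := hq' i
  have h2 := hq' j
  rw [hi, if_pos rfl] at h1
  rw [hj, if_neg (Ne.symm hij)] at h2
  have h3 : ‖(1 : ℂ)‖ < 1 := by
    calc ‖(1 : ℂ)‖ = ‖((φ x : ℂ) - ((0 : ℝ) : ℂ)) - ((φ x : ℂ) - ((1 : ℝ) : ℂ))‖ := by
          congr 1
          push_cast
          ring
      _ ≤ ‖(φ x : ℂ) - ((0 : ℝ) : ℂ)‖ + ‖(φ x : ℂ) - ((1 : ℝ) : ℂ)‖ := norm_sub_le _ _
      _ < 1 / 2 + 1 / 2 := add_lt_add h1 h2
      _ = 1 := by norm_num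
  rw [norm_one] at h3
  exact lt_irrefl _ h3

/-- Planes of the form `⟨1⟩ + ⟨μ⟩`. -/
theorem exists_eps (hK : ∃ k : K, star k ≠ k) (hn : 0 < n) (hdeg : finrank K D = n ^ 2)
    (hS : Setting k K D d s) {ι : Type} [Fintype ι] {R : ι → RData K D n} (hc : Complete R)
    (hd : Dense R) (hA : ∀ i, (R i).A.PosDef) (hm : 3 ≤ m) {H : Matrix (Fin m) (Fin m) D}
    (hH : IsAnisotropicForm H) (hH1 : ∀ i, PosDim (R i) H n) :
    ∃ eps : (k →+* ℝ) → ℝ, (∀ φ, eps φ = 1 ∨ eps φ = -1) ∧
      ∀ μ : kˣ, (∀ φ : k →+* ℝ, φ d < 0 → 0 < eps φ * φ μ) →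
        ∃ v₁ v₂ : Fin m → D, (rowA H hH).h v₁ v₁ = 1 ∧ (rowA H hH).h v₁ v₂ = 0 ∧
          (rowA H hH).h v₂ v₂ = algebraMap k D μ := by
  classical
  obtain ⟨eps, heps⟩ : ∃ eps : (k →+* ℝ) → ℝ, ∀ φ, eps φ =
      if ∃ i, (∀ x, (R i).s (algebraMap k K x) = (φ x : ℂ)) ∧
        PosDim (R i) H (2 * n) then 1 else -1 := ⟨_, fun _ => rfl⟩
  refine ⟨eps, fun φ => ?_, fun μ hμ => ?_⟩
  · rw [heps]
    split_ifs
    · exact Or.inl rfl
    · exact Or.inr rfl
  have hsgn : ∀ i, (PosDim (R i) H (2 * n) → ((R i).f (algebraMap k D μ) * (R i).A).PosDef) ∧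
      (¬ PosDim (R i) H (2 * n) → (-((R i).f (algebraMap k D μ) * (R i).A)).PosDef) := by
    intro i
    obtain ⟨φ, hφd, hφ⟩ := exists_phi hS (R i)
    have h1 : (R i).f (algebraMap k D μ) * (R i).A = ((φ μ : ℝ) : ℂ) • (R i).A := by
      rw [IsScalarTower.algebraMap_apply k K D, (R i).hf, hφ, Matrix.scalar_apply,
        ← Matrix.smul_eq_diagonal_mul]
    have h2 := hμ φ hφd
    rw [heps] at h2
    constructor
    · intro hi
      rw [if_pos ⟨i, hφ, hi⟩, one_mul] at h2
      rw [h1]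
      exact (hA i).smul (Complex.zero_lt_real.mpr h2)
    · intro hi
      rw [if_neg] at h2
      · rw [h1, ← neg_smul, ← Complex.ofReal_neg]
        refine (hA i).smul (Complex.zero_lt_real.mpr ?_)
        linarith
      · rintro ⟨j, hj, hj'⟩
        have := phi_inj hn hdeg hS hd hφ hj
        subst this
        exact hi hj'
  have hR2 : HasR2 K D n := Vale.Agent.P011.Even.hasR2 hK hn hdeg
  have hs1 : star (algebraMap k D μ) = algebraMap k D μ := by
    rw [IsScalarTower.algebraMap_apply k K D, ← algebraMap_star_comm,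
      (hS.fix _).mpr ⟨μ, rfl⟩]
  obtain ⟨x, y, h1, h2, h3⟩ := exists_gram hn hdeg hR2 hc hd hm hH hH1 (a := 1) (e := 0)
    (b := algebraMap k D μ) (star_one D) hs1 (fun i => by rw [map_one, one_mul]; exact hA i)
    (fun i hi => by rw [mul_zero, sub_zero]; exact (hsgn i).1 hi)
    (fun i hi => by rw [mul_zero, sub_zero]; exact (hsgn i).2 hi)
  exact ⟨x, y, h1, h2, h3⟩

end Vale.Agent.P011.Three
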