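import Vale.Agent.P011.Three.Fin
import Vale.Agent.P011.ExtF.Conv
import Vale.Agent.P011.Two2.ExtE

/-!
The theorem for normalised forms, from Lemma B and the relation for symmetric elements.
-/

open Module Matrix
open scoped ComplexOrder

set_option linter.unusedSectionVars false

namespace Vale.Agent.P011.Three

open Vale.Agent.P011S Vale.Agent.P011.RP Vale.Agent.P011.Two.Hi Vale.Agent.P011.Even
open Vale.Agent.P011.Arith

/-- The cone: the hermitian part is nonzero and positive at all real places. -/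
def Xc {K D : Type} [Field K] [StarRing K] [DivisionRing D] [StarRing D] [Algebra K D] {n : ℕ}
    {ι : Type} (R : ι → RData K D n) (z : D) : Prop := z + star z ≠ 0 ∧ XX R z

/-- Lemma B. -/
def BOn {K D A : Type} [Field K] [StarRing K] [DivisionRing D] [StarRing D] [Algebra K D] {n : ℕ}
    [CommGroup A] {ι : Type} (R : ι → RData K D n) (ψ : D → A) : Prop :=
  ∀ z z' r : D, Xc R z → Xc R z' → Xc R (z * r) → Xc R (z' * r) →
    ψ (z * r) * (ψ z)⁻¹ = ψ (z' * r) * (ψ z')⁻¹

/-- The relation for symmetric elements. -/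
def SymOn {K D A : Type} [Field K] [StarRing K] [DivisionRing D] [StarRing D] [Algebra K D]
    {n : ℕ} {ι : Type} (R : ι → RData K D n) (ψ : D → A) : Prop :=
  ∀ s : D, star s = s → Xc R s → ψ s = ψ 1

variable {K D : Type} [Field K] [NumberField K] [StarRing K] [DivisionRing D] [StarRing D]
  [Algebra K D] [StarModule K D] [FiniteDimensional K D] [Algebra.IsCentral K D] {n m : ℕ}

theorem re_ne_zero {ι : Type} [Nonempty ι] {R : ι → RData K D n} (hn : 0 < n) {z : D}
    (hz : XX R z) : z + star z ≠ 0 :=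
  ne_zero_of_pos hn (hz (Classical.arbitrary ι))

/-- The theorem for normalised forms. -/
theorem top_of_B_D (hK : ∃ k : K, star k ≠ k) (hn : 2 ≤ n) (hdeg : finrank K D = n ^ 2)
    {F : Type} [Field F] [Algebra K F] (f : D →ₐ[K] Matrix (Fin n) (Fin n) F) (hm : 2 ≤ m)
    (H : Matrix (Fin m) (Fin m) D) (hH : IsAnisotropicForm H) {ι : Type} [Fintype ι]
    {R : ι → RData K D n} (hc : Complete R) (hd : Dense R) (hA : ∀ i, (R i).A.PosDef)
    (hH1 : ∀ i, PosDim (R i) H n) (N : Subgroup (SU f H)) [N.Normal] (hN : N.index ≠ 0)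
    (hB : ∀ (A : Type) [CommGroup A] (χ : (rowA H hH).isom →* A),
      (∀ g (hg : g ∈ (rowA H hH).isom), g ∈ NN f N → χ ⟨g, hg⟩ = 1) →
      BOn R (psi (rowA H hH) χ))
    (hD : ∀ (A : Type) [CommGroup A] (χ : (rowA H hH).isom →* A),
      (∀ g (hg : g ∈ (rowA H hH).isom), g ∈ NN f N → χ ⟨g, hg⟩ = 1) →
      SymOn R (psi (rowA H hH) χ)) : N = ⊤ := by
  have hn0 : 0 < n := by omega
  have hchar : CharZero D := charZero_of_injective_algebraMap (algebraMap K D).injective
  obtain ⟨e, he⟩ := exists_unit hK hn0 hdeg hc hd hm hA hH hH1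
  rcases isEmpty_or_nonempty ι with hι | hι
  · have hX : ∀ z : D, z + star z ≠ 0 → Xc R z := fun z hz => ⟨hz, fun i => (hι.false i).elim⟩
    refine top_of_F0 hK hn hdeg f hm H hH N hN he fun A _ χ hχ => ?_
    obtain ⟨F0, h1, h2, h3⟩ := Two2.exists_F0_empty (psi (rowA H hH) χ)
      (fun z z' r hz hz' hzr hzr' => hB A χ hχ z z' r (hX z hz) (hX z' hz') (hX _ hzr)
        (hX _ hzr'))
      (fun s hs hs0 => hD A χ hχ s hs (hX s (by
        rw [hs, ← two_mul]
        exact mul_ne_zero two_ne_zero hs0)))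
    have h11 : (1 : D) * star (1 : D) = 1 := by rw [star_one, mul_one]
    have hre : ∀ t : D, t * star t = 1 → 1 + t ≠ 0 → (1 + t)⁻¹ + star (1 + t)⁻¹ = 1 := by
      intro t ht ht1
      have hs : 1 + star t ≠ 0 := by
        intro h
        apply ht1
        have := congrArg star h
        rwa [star_add, star_one, star_star, star_zero] at this
      rw [star_inv₀, star_add, star_one]
      apply mul_left_cancel₀ ht1
      apply mul_right_cancel₀ hs
      have e1 : (1 + t) * ((1 + t)⁻¹ + (1 + star t)⁻¹) * (1 + star t) =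
          (1 + t) * (1 + t)⁻¹ * (1 + star t) + (1 + t) * ((1 + star t)⁻¹ * (1 + star t)) := by
        noncomm_ring
      rw [e1, mul_inv_cancel₀ ht1, inv_mul_cancel₀ hs, mul_one, one_mul]
      calc 1 + star t + (1 + t) = 1 + t + star t + 1 := by abel
        _ = 1 + t + star t + t * star t := by rw [ht]
        _ = _ := by noncomm_ring
    have h2' : (1 : D) + 1 ≠ 0 := by rw [one_add_one_eq_two]; exact two_ne_zero
    refine ⟨F0, h1, h3, fun t ht ht1 => h2 _ (by rw [hre t ht ht1]; exact one_ne_zero), ?_⟩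
    refine hD A χ hχ _ ?_ (hX _ (by rw [hre 1 h11 h2']; exact one_ne_zero))
    rw [star_inv₀, star_add, star_one]
  · have hS := hK
    obtain ⟨k0, hk0⟩ := hS
    have hθ0 : k0 - star k0 ≠ 0 := sub_ne_zero.mpr (Ne.symm hk0)
    have hθ : star (k0 - star k0) = -(k0 - star k0) := by rw [star_sub, star_star, neg_sub]
    let _ := algFK (K := K) (D := D)
    have _ : IsScalarTower (FK K) K D := IsScalarTower.of_algebraMap_eq fun _ => rfl
    have hS : Setting (FK K) K D (sqU hθ0 hθ) (k0 - star k0) := setting hθ0 hθ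
    refine top_of_kill f hS hn hdeg hm N hN he fun A _ χ hχ t ht hdet => ?_
    refine ExtF.chi_kill hK hn0 hdeg R hd hA (psi (rowA H hH) χ) (chi1 χ e he)
      (fun c z hc0 _ => psi_conj' χ z hc0) (fun z _ => psi_star' χ z)
      (fun z z' r hz hz' hzr hzr' => hB A χ hχ z z' r ⟨re_ne_zero hn0 hz, hz⟩
        ⟨re_ne_zero hn0 hz', hz'⟩ ⟨re_ne_zero hn0 hzr, hzr⟩ ⟨re_ne_zero hn0 hzr', hzr'⟩)
      (fun s t hs ht => chi1_mul χ e he hs ht) (fun s hs hs1 => psi_lin χ e he hs hs1)
      (fun s hs hsX => hD A χ hχ s hs ⟨re_ne_zero hn0 hsX, hsX⟩) f ht hdet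

end Vale.Agent.P011.Three
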