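import Vale.Agent.P011.Three.LemB

/-!
Density of the symmetric elements of the centre, from the density of the division algebra.
-/

open Module Matrix NumberField
open scoped ComplexOrder Kronecker

set_option linter.unusedSectionVars false

namespace Vale.Agent.P011.Three

open Vale.Agent.P011S Vale.Agent.P011.RP

section trace

variable {K D F : Type} [Field K] [DivisionRing D] [Algebra K D] [Field F] [Algebra K F] {p : ℕ}

/-- The trace of the left multiplication is a multiple of the reduced trace. -/
theorem trace_split (hp : 0 < p) [FiniteDimensional K D] [Algebra.IsCentral K D]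
    (hD : Module.finrank K D = p ^ 2) (f : D →ₐ[K] Matrix (Fin p) (Fin p) F) (u : D) :
    algebraMap K F (LinearMap.trace K D (LinearMap.mul K D u)) = p * (f u).trace := by
  let b : Basis (Fin p × Fin p) K D := (Module.finBasisOfFinrankEq K D hD).reindex
    ((finCongr (sq p)).trans finProdFinEquiv.symm)
  let T : Matrix (Fin p × Fin p) (Fin p × Fin p) F := Matrix.of fun rs i => f (b i) rs.1 rs.2
  have hT : IsUnit T := by
    rw [← Matrix.linearIndependent_cols_iff_isUnit]
    have h1 := SF.split_indep hp f b b.linearIndependent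
    rw [Fintype.linearIndependent_iff] at h1 ⊢
    intro g hg
    apply h1
    ext r s
    have := congrFun hg (r, s)
    simpa [Finset.sum_apply, Matrix.sum_apply, T, Matrix.col] using this
  have hM : (f u ⊗ₖ (1 : Matrix (Fin p) (Fin p) F)) * T =
      T * (Algebra.leftMulMatrix b u).map (algebraMap K F) := by
    ext ⟨r, s⟩ i
    have e1 : ((f u ⊗ₖ (1 : Matrix (Fin p) (Fin p) F)) * T) (r, s) i = (f (u * b i)) r s := by
      rw [map_mul, Matrix.mul_apply, Matrix.mul_apply, Fintype.sum_prod_type]
      refine Finset.sum_congr rfl fun q _ => ?_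
      rw [Finset.sum_eq_single s]
      · simp [T, Matrix.kroneckerMap_apply]
      · intro s' _ hs'
        simp [Matrix.kroneckerMap_apply, Ne.symm hs']
      · intro h; exact absurd (Finset.mem_univ _) h
    have e2 : u * b i = ∑ k, Algebra.leftMulMatrix b u k i • b k := by
      refine ((b.sum_repr (u * b i)).symm).trans (Finset.sum_congr rfl fun k _ => ?_)
      rw [Algebra.leftMulMatrix_eq_repr_mul]
    rw [e1, e2, map_sum, Matrix.sum_apply, Matrix.mul_apply]
    refine Finset.sum_congr rfl fun k _ => ?_
    rw [map_smul]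
    simp [T, Algebra.smul_def, mul_comm]
  obtain ⟨U, hU⟩ := hT
  obtain ⟨S, hS⟩ : ∃ S : Matrix (Fin p × Fin p) (Fin p × Fin p) F, T * S = 1 ∧ S * T = 1 :=
    ⟨_, by rw [← hU]; exact ⟨U.mul_inv, U.inv_mul⟩⟩
  have h1 : (f u ⊗ₖ (1 : Matrix (Fin p) (Fin p) F)) =
      T * (Algebra.leftMulMatrix b u).map (algebraMap K F) * S := by
    rw [← hM, Matrix.mul_assoc, hS.1, Matrix.mul_one]
  have h2 := congrArg Matrix.trace h1
  rw [Matrix.trace_mul_cycle, hS.2, Matrix.one_mul, Matrix.trace_kronecker, Matrix.trace_one,
    Fintype.card_fin] at h2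
  have h3 : LinearMap.trace K D (LinearMap.mul K D u) = (Algebra.leftMulMatrix b u).trace := by
    rw [LinearMap.trace_eq_matrix_trace K b]
    rfl
  rw [h3, mul_comm, h2, Matrix.trace, map_sum]
  rfl

end trace

section real

variable {K D : Type} [Field K] [StarRing K] [CharZero K] [DivisionRing D] [StarRing D]
  [Algebra K D] [FiniteDimensional K D] [Algebra.IsCentral K D] {n : ℕ}

theorem rdata_trace (hn : 0 < n) (hdeg : finrank K D = n ^ 2) (R : RData K D n) (x : D) :
    R.s (LinearMap.trace K D (LinearMap.mul K D x)) = n * (R.f x).trace := by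
  let _ : Algebra K ℂ := R.s.toAlgebra
  let f : D →ₐ[K] Matrix (Fin n) (Fin n) ℂ := { R.f with
    commutes' := fun k => by
      change R.f (algebraMap K D k) = _
      rw [R.hf, Matrix.algebraMap_eq_diagonal]
      rfl }
  exact trace_split hn hdeg f x

/-- Density of the symmetric elements of the centre. -/
theorem scalDense (hn : 0 < n) (hdeg : finrank K D = n ^ 2) {ι : Type} {R : ι → RData K D n}
    (hd : RP.Dense R) : ScalDense R := by
  intro t ε hε
  obtain ⟨x, hx⟩ := hd (fun i => ((t i : ℝ) : ℂ) • (1 : Matrix (Fin n) (Fin n) ℂ)) ε hε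
  obtain ⟨q, hq⟩ : ∃ q : K, q = LinearMap.trace K D (LinearMap.mul K D x) / (n * n) := ⟨_, rfl⟩
  have hn0 : (n : ℂ) ≠ 0 := by exact_mod_cast hn.ne'
  have h1 : ∀ i, ‖(R i).s q - t i‖ < ε := by
    intro i
    have e1 : (R i).s q = ((R i).f x).trace / n := by
      rw [hq, map_div₀, rdata_trace hn hdeg, map_mul, map_natCast]
      field_simp
    have e2 : (R i).s q - t i = (∑ a, ((R i).f x a a - t i)) / n := by
      rw [e1, Finset.sum_sub_distrib, Finset.sum_const, Finset.card_univ, Fintype.card_fin,
        nsmul_eq_mul, Matrix.trace]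
      field_simp
      rfl
    have h2 : ∀ a ∈ (Finset.univ : Finset (Fin n)), ‖(R i).f x a a - t i‖ < ε := by
      intro a _
      have := hx i a a
      rwa [Matrix.smul_apply, Matrix.one_apply_eq, smul_eq_mul, mul_one] at this
    rw [e2, norm_div, Complex.norm_natCast, div_lt_iff₀ (by exact_mod_cast hn)]
    have hne : Nonempty (Fin n) := ⟨⟨0, hn⟩⟩
    calc ‖∑ a, ((R i).f x a a - t i)‖ ≤ ∑ a, ‖(R i).f x a a - t i‖ := norm_sum_le _ _
      _ < ∑ _a : Fin n, ε := Finset.sum_lt_sum_of_nonempty Finset.univ_nonempty h2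
      _ = ε * n := by rw [Finset.sum_const, Finset.card_univ, Fintype.card_fin, nsmul_eq_mul,
          mul_comm]
  refine ⟨(q + star q) / 2, ?_, fun i => ?_⟩
  · rw [star_div₀, star_add, star_star, star_ofNat, add_comm]
  · have e3 : (R i).s ((q + star q) / 2) - t i =
        ((((R i).s q - t i).re : ℝ) : ℂ) := by
      rw [map_div₀, map_add, (R i).hs, map_ofNat]
      have e4 : (R i).s q + star ((R i).s q) = ((2 * ((R i).s q).re : ℝ) : ℂ) :=
        Complex.add_conj _
      rw [e4, Complex.sub_re, Complex.ofReal_re]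
      push_cast
      ring
    rw [e3, Complex.norm_real, Real.norm_eq_abs]
    exact lt_of_le_of_lt (Complex.abs_re_le_norm _) (h1 i)

end real

end Vale.Agent.P011.Three
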