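import Vale.Agent.P011.Three.Defs
import Vale.Agent.P011.Two.HigherFinal

/-!
The rotations of planes contained in a normal subgroup of finite index.
-/

open NumberField IsDedekindDomain Module

set_option linter.unusedSectionVars false

namespace Vale.Agent.P011.Three

open Vale.Agent.P011S Vale.Agent.P011.Arith Vale.Agent.P011.Even Vale.Agent.P011.MPQ
open Vale.Agent.P011.Two Vale.Agent.P011.Two.Hi
open Vale.Agent.P011.RP (rowH rowF)

section diag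

variable {D : Type} [DivisionRing D] [StarRing D] {g : D}

/-- Modulo the subgroup, every isometry of the plane is supported on the first line. -/
theorem first_of (hg0 : g ≠ 0) {N : Subgroup ((D × D) ≃ₗ[D] (D × D))}
    (hN' : N ≤ Uh g) (hN : ∀ v ∈ Uh g, ∀ x ∈ N, v * x * v⁻¹ ∈ N)
    (hT : ∀ y : D × D, hh g y y = 1 → ∃ u ∈ N, ∃ δ : D, δ ≠ 0 ∧ u e₁ = δ • y)
    (hB : ∀ t' : D, t' * g * star t' = g → ∃ t : D, ∃ u ∈ N, IsDiag t t' u) :
    ∀ w ∈ Uh g, ∃ t : Dˣ, (t : D) * star (t : D) = 1 ∧ (dgD t 1)⁻¹ * w ∈ N := by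
  -- the diagonal elements
  have nz : ∀ t : D, t * star t = 1 → t ≠ 0 := fun t ht => left_ne_zero_of_mul_eq_one ht
  have nz' : ∀ t' : D, t' * g * star t' = g → t' ≠ 0 := by
    rintro t' ht' rfl
    rw [zero_mul, zero_mul] at ht'
    exact hg0 ht'.symm
  have hline : ∀ w ∈ Uh g, ∃ n ∈ N, ∃ t t' : Dˣ, (t : D) * star (t : D) = 1 ∧
      (t' : D) * g * star (t' : D) = g ∧ w = n * dgD t t' := by
    intro w hw
    have hwi : w⁻¹ ∈ Uh g := (Uh g).inv_mem hw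
    have hy : hh g (w (1, 0)) (w (1, 0)) = 1 := by
      rw [hw]
      simp [hh]
    obtain ⟨u, hu, δ, hδ, hue⟩ := hT _ hy
    have hv : w⁻¹ * u ∈ Uh g := (Uh g).mul_mem hwi (hN' hu)
    have hve : (w⁻¹ * u) (1, 0) = (δ, 0) := by
      change w⁻¹ (u (1, 0)) = _
      have : u (1, 0) = δ • w (1, 0) := hue
      rw [this, map_smul]
      have h5 : w⁻¹ (w ((1, 0) : D × D)) = (1, 0) := w.symm_apply_apply _
      rw [h5]
      simp
    obtain ⟨h1, t', h2, h3⟩ := isDiag_of_line hv hve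
    have h4 : IsDiag ((Units.mk0 δ hδ : Dˣ) : D) ((Units.mk0 t' (nz' _ h2) : Dˣ) : D)
      (w⁻¹ * u) := h3
    have h5 := eq_dg_of_isDiag h4
    set a : Dˣ := Units.mk0 δ hδ
    set a' : Dˣ := Units.mk0 t' (nz' _ h2)
    have h6 : dgD a a' * dgD a⁻¹ a'⁻¹ = 1 := by
      rw [dgD_mul, inv_mul_cancel, inv_mul_cancel, dgD_one]
    refine ⟨u, hu, a⁻¹, a'⁻¹, inv_norm h1, ?_, ?_⟩
    · have h7 : (a' : D) * g * star (a' : D) = g := h2
      have h8 : star (a' : D) * star ((a'⁻¹ : Dˣ) : D) = 1 := by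
        rw [← star_mul, Units.inv_mul, star_one]
      calc ((a'⁻¹ : Dˣ) : D) * g * star ((a'⁻¹ : Dˣ) : D)
          = ((a'⁻¹ : Dˣ) : D) * ((a' : D) * g * star (a' : D)) * star ((a'⁻¹ : Dˣ) : D) := by
            rw [h7]
        _ = (((a'⁻¹ : Dˣ) : D) * (a' : D)) * g * (star (a' : D) * star ((a'⁻¹ : Dˣ) : D)) := by
            noncomm_ring
        _ = g := by rw [h8, Units.inv_mul, one_mul, mul_one]
    · have h7 : w * (w⁻¹ * u) = u := by group
      calc w = w * (dgD a a' * dgD a⁻¹ a'⁻¹) := by rw [h6, mul_one]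
        _ = u * dgD a⁻¹ a'⁻¹ := by rw [← mul_assoc, ← h5, h7]
  -- modulo `N`
  have hone : (1 : D) * star (1 : D) = 1 := by rw [star_one, mul_one]
  have hone' : (1 : D) * g * star (1 : D) = g := by rw [star_one, mul_one, one_mul]
  have hfirst : ∀ w ∈ Uh g, ∃ t : Dˣ, (t : D) * star (t : D) = 1 ∧ (dgD t 1)⁻¹ * w ∈ N := by
    intro w hw
    obtain ⟨n, hn, t, t', ht, ht', rfl⟩ := hline w hw
    obtain ⟨r, u, hu, hd⟩ := hB t' ht'
    have hr : r * star r = 1 := by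
      have h := isDiag_of_line (hN' hu) hd.1
      exact h.1
    have hd' : IsDiag ((Units.mk0 r (nz _ hr) : Dˣ) : D) (t' : D) u := hd
    have h5 := eq_dg_of_isDiag hd'
    set a : Dˣ := Units.mk0 r (nz _ hr)
    -- `dgD t t' = dgD (a⁻¹ t) 1 * dgD a t'`
    have ha : (a : D) * star (a : D) = 1 := hr
    have hta : ((a⁻¹ * t : Dˣ) : D) * star ((a⁻¹ * t : Dˣ) : D) = 1 := by
      rw [Units.val_mul, star_mul]
      calc ((a⁻¹ : Dˣ) : D) * t * (star (t : D) * star ((a⁻¹ : Dˣ) : D))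
          = ((a⁻¹ : Dˣ) : D) * (t * star (t : D)) * star ((a⁻¹ : Dˣ) : D) := by noncomm_ring
        _ = 1 := by rw [ht, mul_one]; exact inv_norm ha
    refine ⟨a⁻¹ * t, hta, ?_⟩
    have e1 : dgD t t' = dgD (a⁻¹ * t) 1 * u := by
      rw [h5, dgD_mul]
      congr 1
      · group
      · rw [mul_one]
    have hdm : dgD (a⁻¹ * t) 1 ∈ Uh g := dgD_mem hta (by
      change (1 : D) * g * star (1 : D) = g
      exact hone')
    rw [e1]
    have h6 := hN _ ((Uh g).inv_mem hdm) n hn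
    rw [inv_inv] at h6
    have h7 : (dgD (a⁻¹ * t) 1)⁻¹ * (n * (dgD (a⁻¹ * t) 1 * u)) =
        ((dgD (a⁻¹ * t) 1)⁻¹ * n * dgD (a⁻¹ * t) 1) * u := by group
    rw [h7]
    exact N.mul_mem h6 hu
  exact hfirst

end diag

variable {k K D : Type} [Field k] [NumberField k] [Field K] [StarRing K]
  [DivisionRing D] [StarRing D] [Algebra k K] [Algebra k D] [Algebra K D] [IsScalarTower k K D]
  {d : kˣ} {s : K}

/-- The group generated by the rotations of a plane which are contained in the given group. -/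
theorem core_two (hM : MPQStatement) (hT : TransStmt) (hG2 : MatchedStmt)
    (hS : Setting k K D d s) {n : ℕ} (hn : 2 ≤ n) (hdeg : finrank K D = n ^ 2)
    {g : D} (hg : star g = g) (han : An g) (G₀ N₀ : Subgroup ((D × D) ≃ₗ[D] (D × D)))
    (hGp : PlaneIn d s (Uh g) G₀) (hG : G₀ ≤ Uh g) (hN : N₀ ≤ G₀)
    (hNn : ∀ v ∈ G₀, ∀ x ∈ N₀, v * x * v⁻¹ ∈ N₀) (hfin : N₀.relIndex G₀ ≠ 0)
    (e : ℕ) (he0 : 0 < e) (hexp : ∀ x ∈ G₀, x ^ e ∈ N₀) :
    ∃ N : Subgroup ((D × D) ≃ₗ[D] (D × D)), N ≤ N₀ ∧ N ≤ Uh g ∧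
      (∀ v ∈ Uh g, ∀ x ∈ N, v * x * v⁻¹ ∈ N) ∧ HQ d s g e N ∧
      (∀ y : D × D, hh g y y = 1 → ∃ u ∈ N, ∃ δ : D, δ ≠ 0 ∧ u e₁ = δ • y) ∧
      (∀ t : D, t * star t = 1 → ∃ t' : D, ∃ u ∈ N, IsDiag t t' u) ∧
      (∀ w ∈ Uh g, ∃ t : Dˣ, (t : D) * star (t : D) = 1 ∧ (dgD t 1)⁻¹ * w ∈ N) := by
  have hg0 : g ≠ 0 := by
    rintro rfl
    have := han (0, 1) (by simp [hh])
    simp at this
  -- the core
  set N := coreOf (Uh g) N₀ with hNdef
  have hHQ : HQ d s g e N := hq_coreOf hM hS hg han G₀ N₀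
    (fun F _ _ _ ι b p₀ p₁ q₀ q₁ y w u hu => hGp F ι b p₀ p₁ q₀ q₁ y w u
      (planeElt_spans hg han hu) hu.nrm hu.uy hu.uw (planeElt_mem hS hg han hu)) hNn hfin e he0 hexp
  have hNU : N ≤ Uh g := (coreOf_le _ _).trans (hN.trans hG)
  -- the twisted form
  let φ : ((D × D) ≃ₗ[D] (D × D)) ≃* ((D × D) ≃ₗ[D] (D × D)) := MulAut.conj (sw D)
  have hφ : ∀ u, φ u = sw D * u * sw D := fun u => rfl
  have hφφ : ∀ u, φ (φ u) = u := by
    intro u
    ext1 x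
    rfl
  set G₀' := G₀.comap φ.toMonoidHom with hG₀'
  set N₀' := N₀.comap φ.toMonoidHom with hN₀'
  have hmG : ∀ u, u ∈ G₀' ↔ φ u ∈ G₀ := fun u => Iff.rfl
  have hmN : ∀ u, u ∈ N₀' ↔ φ u ∈ N₀ := fun u => Iff.rfl
  have hNn'' : ∀ v ∈ G₀', ∀ x ∈ N₀', v * x * v⁻¹ ∈ N₀' := by
    intro v hv x hx
    rw [hmN, map_mul, map_mul, map_inv]
    exact hNn _ hv _ hx
  have hfin' : N₀'.relIndex G₀' ≠ 0 := by
    rw [hN₀', hG₀', Subgroup.relIndex_comap, Subgroup.map_comap_eq_self_of_surjective φ.surjective]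
    exact hfin
  have hexp' : ∀ x ∈ G₀', x ^ e ∈ N₀' := by
    intro x hx
    rw [hmN, map_pow]
    exact hexp _ hx
  have hgi := star_inv_twist hg hg0
  have han' := an_twist hg hg0 han
  have hS' := setting_twist hS hg hg0
  have hHQ' : @HQ k K D _ _ _ (twistStar hg hg0) _ _ d s g⁻¹ e
      (coreOf (@Uh D _ (twistStar hg hg0) g⁻¹) N₀') := by
    refine @hq_coreOf k K D _ _ _ _ _ (twistStar hg hg0) _ _ _ _ d s hM hS' g⁻¹ hgi han'
      G₀' N₀' ?_ hNn'' hfin' e he0 hexp'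
    intro F _ _ _ ι b p₀ p₁ q₀ q₁ y w u hu
    rw [hmG]
    have hmem := @planeElt_mem k K D _ _ _ _ _ (twistStar hg hg0) _ _ _ _ d s hS' g⁻¹ hgi han'
      F _ _ _ ι b p₀ p₁ q₀ q₁ y w u hu
    have hspan := @planeElt_spans k K D _ _ _ _ _ (twistStar hg hg0) _ _ _ _ d s g⁻¹ hgi han'
      F _ _ _ ι b p₀ p₁ q₀ q₁ y w u hu
    obtain ⟨hsym, hyy, hyw, hww, hnrm, huy, huw⟩ := hu
    refine hGp F ι b p₀ p₁ q₀ q₁ (sw D y) (sw D w) (φ u) ?_ hnrm ?_ ?_ ?_
    · intro x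
      obtain ⟨a, c, h⟩ := hspan (sw D x)
      refine ⟨a, c, ?_⟩
      rw [← map_smul, ← map_smul, ← map_add, ← h, sw_sw]
    · change sw D (u (sw D (sw D y))) = _
      rw [sw_sw, huy, map_add, map_smul, map_smul]
    · change sw D (u (sw D (sw D w))) = _
      rw [sw_sw, huw, map_add, map_smul, map_smul]
    · rw [hφ]
      exact (mem_Uh_twist hg hg0 u).mp hmem
  have hA : ∀ t : D, t * star t = 1 → ∃ t' : D, ∃ u ∈ N, IsDiag t t' u := fun t ht =>
    hG2 k K D d s hS n hn hdeg g hg han e he0 N hHQ t ht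
  have hB : ∀ t' : D, t' * g * star t' = g → ∃ t : D, ∃ u ∈ N, IsDiag t t' u := by
    intro t' ht'
    obtain ⟨t, u, hu, h1, h2⟩ := @hG2 k K D _ _ _ _ _ (twistStar hg hg0) _ _ _ _ d s hS' n hn hdeg
      g⁻¹ hgi han' e he0 _ hHQ' t' (by
        change t' * (g * star t' * g⁻¹) = 1
        calc t' * (g * star t' * g⁻¹) = (t' * g * star t') * g⁻¹ := by noncomm_ring
          _ = 1 := by rw [ht', mul_inv_cancel₀ hg0])
    refine ⟨t, φ u, ?_, ?_, ?_⟩
    · intro v hv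
      have hv' : φ v ∈ @Uh D _ (twistStar hg hg0) g⁻¹ := by
        rw [mem_Uh_twist hg hg0]
        have : sw D * φ v * sw D = v := hφφ v
        rw [this]
        exact hv
      have h := hu _ hv'
      rw [hmN, map_mul, map_mul, map_inv, hφφ] at h
      exact h
    · change sw D (u (sw D (1, 0))) = _
      rw [sw_apply (1, 0)]
      change sw D (u (0, 1)) = _
      rw [h2]
      rfl
    · change sw D (u (sw D (0, 1))) = _
      rw [sw_apply (0, 1)]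
      change sw D (u (1, 0)) = _
      rw [h1]
      rfl
  have hT' : ∀ y : D × D, hh g y y = 1 → ∃ u ∈ N, ∃ δ : D, δ ≠ 0 ∧ u e₁ = δ • y := fun y hy =>
    hT k K D d s hS n hn hdeg g hg han e he0 N (coreOf_normal _ _) hHQ y hy
  exact ⟨N, coreOf_le _ _, hNU, coreOf_normal _ _, hHQ, hT', hA,
    first_of hg0 hNU (coreOf_normal _ _) hT' hB⟩

section plane

variable {Ω : Type} [Field Ω] [Algebra K Ω] {n : ℕ} (f : D →ₐ[K] Matrix (Fin n) (Fin n) Ω)
  {m : ℕ} {H : Matrix (Fin m) (Fin m) D} {hH : IsAnisotropicForm H}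

theorem hh_unit {X Y : Fin m → D} (h : Pl (rowA H hH) X Y) (hX : (rowA H hH).h X X = 1)
    (x y : D × D) : hh ((rowA H hH).h Y Y) x y =
      (rowA H hH).h (vec X Y x) (vec X Y y) := by
  rw [h_vec h, hX, mul_one]
  rfl

theorem mem_Uh_unit {X Y : Fin m → D} (h : Pl (rowA H hH) X Y) (hX : (rowA H hH).h X X = 1)
    (u : (D × D) ≃ₗ[D] (D × D)) : u ∈ Uh ((rowA H hH).h Y Y) ↔ IsoP h u := by
  constructor
  · intro hu x y
    have h1 := hu x y
    rwa [hh_unit h hX, hh_unit h hX] at h1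
  · intro hu x y
    rw [hh_unit h hX, hh_unit h hX, hu]

/-- The rotations of a plane containing a vector of length one. -/
theorem plane_core (hS : Setting k K D d s) (hn : 2 ≤ n) (hdeg : finrank K D = n ^ 2)
    (N : Subgroup (SU f H)) [N.Normal] (hN : N.index ≠ 0) {X Y : Fin m → D}
    (hP : Pl (rowA H hH) X Y) (hX : (rowA H hH).h X X = 1) :
    ∃ N₀ : Subgroup ((D × D) ≃ₗ[D] (D × D)), (∀ u ∈ N₀, ex hP u ∈ NN f N) ∧
      N₀ ≤ Uh ((rowA H hH).h Y Y) ∧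
      (∀ v ∈ Uh ((rowA H hH).h Y Y), ∀ x ∈ N₀, v * x * v⁻¹ ∈ N₀) ∧
      HQ d s ((rowA H hH).h Y Y) N.index N₀ ∧
      (∀ y : D × D, hh ((rowA H hH).h Y Y) y y = 1 → ∃ u ∈ N₀, ∃ δ : D, δ ≠ 0 ∧ u e₁ = δ • y) ∧
      (∀ t : D, t * star t = 1 → ∃ t' : D, ∃ u ∈ N₀, IsDiag t t' u) ∧
      (∀ w ∈ Uh ((rowA H hH).h Y Y), ∃ t : Dˣ, (t : D) * star (t : D) = 1 ∧
        (dgD t 1)⁻¹ * w ∈ N₀) := by
  obtain ⟨U, hU⟩ : ∃ U, U = Uh ((rowA H hH).h Y Y) := ⟨_, rfl⟩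
  have hUi : ∀ v ∈ U, ex hP v ∈ (rowA H hH).isom := by
    intro v hv
    rw [hU, mem_Uh_unit hP hX] at hv
    exact ex_mem hP hv
  obtain ⟨G₀, hG₀⟩ : ∃ G₀, G₀ = U ⊓ (GG f H).comap (ex hP) := ⟨_, rfl⟩
  obtain ⟨N₁, hN₁⟩ : ∃ N₁, N₁ = (NN f N).comap (ex hP) ⊓ G₀ := ⟨_, rfl⟩
  have han : An ((rowA H hH).h Y Y) := by
    intro x hx
    rw [hh_unit hP hX] at hx
    have h1 := (rowA H hH).anis hx
    have h2 := crd_vec hP x
    rw [h1, map_zero] at h2
    exact h2.symm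
  have hcore := core_two mpqStatement transStmt matchedStmt hS hn hdeg
    ((rowA H hH).star_h Y Y) han G₀ N₁ ?_ ?_ ?_ ?_ ?_ N.index (Nat.pos_of_ne_zero hN) ?_
  · obtain ⟨N₀, h1, h2, h3, h4, h5, h6, h7⟩ := hcore
    refine ⟨N₀, fun u hu => ?_, h2, h3, h4, h5, h6, h7⟩
    have h8 := h1 hu
    rw [hN₁] at h8
    exact h8.1
  · intro F _ _ _ ι b p₀ p₁ q₀ q₁ y w u hspan hnrm huy huw huU
    rw [← hU] at huU
    rw [hG₀]
    refine ⟨huU, ?_⟩
    apply mem_GG f (hUi u huU)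
    rw [redNorm_ex]
    obtain ⟨a1, c1, h1⟩ := hspan (1, 0)
    obtain ⟨a2, c2, h2⟩ := hspan (0, 1)
    obtain ⟨T, hTd⟩ : ∃ T : Matrix (Fin 2) (Fin 2) D, T = !![y.1, y.2; w.1, w.2] := ⟨_, rfl⟩
    have hT1 : !![a1, c1; a2, c2] * T = 1 := by
      rw [hTd]
      have e1 := congrArg Prod.fst h1
      have e2 := congrArg Prod.snd h1
      have e3 := congrArg Prod.fst h2
      have e4 := congrArg Prod.snd h2
      simp only [Prod.fst_add, Prod.snd_add, Prod.smul_fst, Prod.smul_snd, smul_eq_mul] at e1 e2 e3 e4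
      ext i j
      fin_cases i <;> fin_cases j <;>
        simp [Matrix.mul_apply, Fin.sum_univ_two, ← e1, ← e2, ← e3, ← e4]
    have hT0 : redNorm f (Fin 2) T ≠ 0 := by
      intro h0
      have h3 := congrArg (redNorm f (Fin 2)) hT1
      rw [map_mul, h0, mul_zero, map_one] at h3
      exact zero_ne_one h3
    have hTM : T * m2 u = !![ι p₀ + ι p₁ * algebraMap K D s, ι q₀ + ι q₁ * algebraMap K D s;
        -(ι b * (ι q₀ - ι q₁ * algebraMap K D s)), ι p₀ - ι p₁ * algebraMap K D s] * T := by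
      rw [u_apply u y] at huy
      rw [u_apply u w] at huw
      have e1 := congrArg Prod.fst huy
      have e2 := congrArg Prod.snd huy
      have e3 := congrArg Prod.fst huw
      have e4 := congrArg Prod.snd huw
      simp only [Prod.fst_add, Prod.snd_add, Prod.smul_fst, Prod.smul_snd, smul_eq_mul] at e1 e2 e3 e4
      rw [hTd, m2]
      ext i j
      fin_cases i <;> fin_cases j
      · simpa [Matrix.mul_apply, Fin.sum_univ_two] using e1
      · simpa [Matrix.mul_apply, Fin.sum_univ_two] using e2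
      · simpa [Matrix.mul_apply, Fin.sum_univ_two] using e3
      · simpa [Matrix.mul_apply, Fin.sum_univ_two] using e4
    have h4 := congrArg (redNorm f (Fin 2)) hTM
    rw [map_mul, map_mul, redNorm_plane f hS.sq ι b p₀ p₁ q₀ q₁ hnrm, one_mul] at h4
    exact mul_left_cancel₀ hT0 (by rw [h4, mul_one])
  · rw [hG₀, hU]
    exact inf_le_left
  · rw [hN₁]
    exact inf_le_right
  · intro v hv x hx
    rw [hN₁] at hx ⊢
    have hv2 := hv
    rw [hG₀] at hv2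
    refine ⟨?_, G₀.mul_mem (G₀.mul_mem hv hx.2) (G₀.inv_mem hv)⟩
    change ex hP (v * x * v⁻¹) ∈ NN f N
    rw [map_mul, map_mul, map_inv]
    exact NN_conj f N hv2.2 hx.1
  · rw [hN₁, Subgroup.inf_relIndex_right, Subgroup.relIndex_comap]
    intro h0
    refine NN_relIndex f N hN (Subgroup.relIndex_eq_zero_of_le_right ?_ h0)
    rw [hG₀]
    rintro _ ⟨v, hv, rfl⟩
    exact hv.2
  · intro x hx
    rw [hN₁]
    refine ⟨?_, G₀.pow_mem hx _⟩
    rw [hG₀] at hx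
    obtain ⟨g, hg, hgx⟩ := hx.2
    change ex hP (x ^ N.index) ∈ NN f N
    rw [map_pow, ← hgx, ← map_pow]
    exact ⟨_, ⟨_, Subgroup.pow_index_mem N ⟨g, hg⟩, rfl⟩, rfl⟩

end plane

end Vale.Agent.P011.Three
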