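import Vale.Agent.P011.Even.GChoice
import Vale.Agent.P011.MPQ.C2a
import Vale.Agent.P011.MPQ.Appr

/-!
# P011, rank three, block D: arithmetic

A totally positive element of a field is represented by the norm form of a quaternion algebra,
with the second component small at the places where the algebra ramifies.
-/

open NumberField IsDedekindDomain

namespace Vale.Agent.P011.Three

open Vale.Agent.P011.Arith Vale.Agent.P011.Even Vale.Agent.P011.MPQ

/-- Choice of the second coefficient: a scalar of given signs, such that at every finite place of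
the extension `F` either its negative or the given element `c` is a local norm. -/
theorem exists_mu {k : Type} [Field k] [NumberField k] (d : kˣ) (F : Type) [Field F]
    [NumberField F] [Algebra k F] (c : Fˣ) (ε : (k →+* ℝ) → ℤˣ) :
    ∃ μ : kˣ, (∀ φ : k →+* ℝ, 0 < (((ε φ : ℤˣ) : ℤ) : ℝ) * φ μ) ∧
      ∀ ω : HeightOneSpectrum (𝓞 F), -(inc k F μ) ∈ NF (inc k F d) ⊔ LS (ω.valuation F) ∨
        c ∈ NF (inc k F d) ⊔ LS (ω.valuation F) := by
  classical
  obtain ⟨S, hS⟩ : ∃ S : Set (HeightOneSpectrum (𝓞 k)), S = (fun ω => (ω.under (𝓞 k) :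
      HeightOneSpectrum (𝓞 k))) '' {ω : HeightOneSpectrum (𝓞 F) | (Sum.inl ω : Pl F) ∈
        bad (inc k F d) c} := ⟨_, rfl⟩
  have hSf : S.Finite := by
    rw [hS]
    exact ((bad_finite (inc k F d) c).preimage Sum.inl_injective.injOn).image _
  obtain ⟨μ, hμ1, hμ2⟩ := weak_approx hSf.toFinset (fun _ => (-1 : kˣ)) ε
  refine ⟨μ, hμ2, fun ω => ?_⟩
  by_cases hc : c ∈ NF (inc k F d) ⊔ LS (ω.valuation F)
  · exact Or.inr hc
  · left
    have h1 := hμ1 (ω.under (𝓞 k)) (by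
      rw [Set.Finite.mem_toFinset, hS]
      exact ⟨ω, hc, rfl⟩)
    have h2 := Arith.LS_map (F := k) (E := F) (v := ω.under (𝓞 k)) (w := ω) rfl h1
    have e : Units.map (algebraMap k F : k →* F) (μ / -1) = -(inc k F μ) := by
      rw [div_neg, div_one]
      ext
      simp [inc]
    rw [e] at h2
    exact Subgroup.mem_sup_right h2

section loc

variable {F : Type} [Field F] [NumberField F]

/-- The approximation condition at a finite place. -/
theorem fin_target (ω : HeightOneSpectrum (𝓞 F)) (a c : Fˣ)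
    (hc : c ∈ NF a ⊔ LS (ω.valuation F)) (τ : F) (hτ : τ ≠ 0) :
    ∃ (z : Fin 3 → F) (M : F) (δ : ℝ), M ≠ 0 ∧ 0 < δ ∧ ∀ u : Fin 3 → F,
      (∀ i, pabv (Sum.inl ω : PlI F) (u i - z i) < δ) →
      u 0 ^ 2 - a * u 1 ^ 2 ≠ 0 ∧
      ω.valuation F ((u 2 ^ 2 - c * (u 0 ^ 2 - a * u 1 ^ 2)⁻¹) * (a * M ^ 2)⁻¹ - 1) <
        ω.valuation F 4 ∧
      ω.valuation F (a * M ^ 2) < ω.valuation F (4 * τ * (c * (u 0 ^ 2 - a * u 1 ^ 2)⁻¹)) := by
  obtain ⟨w, hw⟩ : ∃ w, w = ω.valuation F := ⟨_, rfl⟩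
  rw [← hw] at hc ⊢
  obtain ⟨n, ⟨X, Y, hn⟩, l, hl, rfl⟩ := Subgroup.mem_sup.mp hc
  have ha0 : (a : F) ≠ 0 := a.ne_zero
  have hl0 : (l : F) ≠ 0 := l.ne_zero
  have hn0 : (n : F) ≠ 0 := n.ne_zero
  have h40 : (4 : F) ≠ 0 := by norm_num
  have h4 : w 4 ≤ 1 := val_four_le w
  have hA : ∀ x y : F, pabv (Sum.inl ω : PlI F) x < pabv (Sum.inl ω : PlI F) y ↔ w x < w y := by
    intro x y
    rw [hw]
    exact pabv_lt ω x y
  -- the small element
  obtain ⟨M, hM0, hM1, hM2⟩ : ∃ M : F, M ≠ 0 ∧ w (a * M ^ 2) < w (4 * τ * l) ∧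
      w (a * M ^ 2) < w (4 * l) := by
    obtain ⟨A, hAd⟩ : ∃ A : AbsoluteValue F ℝ, A = plAbv (Sum.inl ω) := ⟨_, rfl⟩
    have hA' : ∀ x y : F, A x < A y ↔ w x < w y := by
      intro x y
      rw [hw, hAd]
      exact plAbv_lt ω x y
    have hA0 : 0 < A (a : F) := A.pos ha0
    obtain ⟨M, hM0, hM⟩ := exists_abv_lt (Sum.inl ω : Pl F)
      (ε := min 1 (min (A (4 * τ * l) / A a) (A (4 * l) / A a))) (by
        have h1 := A.pos (mul_ne_zero (mul_ne_zero h40 hτ) hl0)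
        have h2 := A.pos (mul_ne_zero h40 hl0)
        positivity)
    rw [← hAd, lt_min_iff, lt_min_iff, lt_div_iff₀ hA0, lt_div_iff₀ hA0] at hM
    obtain ⟨h1, h2, h3⟩ := hM
    have h5 : A (a * M ^ 2) ≤ A M * A a := by
      rw [map_mul, map_pow]
      nlinarith [A.nonneg M, mul_nonneg hA0.le (A.nonneg M)]
    refine ⟨M, hM0, ?_, ?_⟩
    · rw [← hA']
      linarith
    · rw [← hA']
      linarith
  have haM : (a : F) * M ^ 2 ≠ 0 := mul_ne_zero ha0 (pow_ne_zero 2 hM0)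
  -- the square root
  have hs0 : (l : F) + a * M ^ 2 ≠ 0 := by
    intro h
    have h1 : (a : F) * M ^ 2 = -l := by linear_combination h
    rw [h1, Valuation.map_neg, map_mul] at hM2
    have h2 : w 4 * w (l : F) ≤ 1 * w (l : F) := mul_le_mul_left h4 _
    rw [one_mul] at h2
    exact absurd hM2 (not_lt.mpr h2)
  have hsl : Units.mk0 _ hs0 ∈ LS w := by
    have h1 : Units.mk0 _ hs0 * l⁻¹ ∈ LS w := by
      refine LS_of_close ?_
      have e : ((Units.mk0 _ hs0 * l⁻¹ : Fˣ) : F) - 1 = a * M ^ 2 / l := by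
        rw [Units.val_mul, Units.val_mk0, Units.val_inv_eq_inv_val]
        field_simp
        ring
      rw [e, map_div₀, div_lt_iff₀ (zero_lt_iff.mpr ((Valuation.ne_zero_iff _).mpr hl0)), ← map_mul]
      exact hM2
    have h2 := mul_mem h1 hl
    rwa [inv_mul_cancel_right] at h2
  obtain ⟨t, ht⟩ := LS_newton' hsl (γ := min (w 4) (w (4 * (a * M ^ 2)) / w (l + a * M ^ 2)))
    (lt_min (zero_lt_iff.mpr ((Valuation.ne_zero_iff _).mpr h40))
      (div_pos (zero_lt_iff.mpr ((Valuation.ne_zero_iff _).mpr (mul_ne_zero h40 haM)))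
        (zero_lt_iff.mpr ((Valuation.ne_zero_iff _).mpr hs0)))).ne'
  rw [Units.val_mk0, lt_min_iff] at ht
  obtain ⟨ht1, ht2⟩ := ht
  have ht0 : (t : F) ≠ 0 := t.ne_zero
  have hts : w ((l : F) + a * M ^ 2) = w ((t : F) ^ 2) := by
    have h1 := w.map_one_add_of_lt (lt_of_lt_of_le ht1 h4)
    rw [add_sub_cancel, map_div₀, div_eq_one_iff_eq
      ((Valuation.ne_zero_iff _).mpr (pow_ne_zero 2 ht0))] at h1
    exact h1
  have ht3 : w ((t : F) ^ 2 - (l + a * M ^ 2)) < w (4 * (a * M ^ 2)) := by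
    have e : (t : F) ^ 2 - (l + a * M ^ 2) = -(((l : F) + a * M ^ 2) / t ^ 2 - 1) * t ^ 2 := by
      field_simp
      ring
    rw [e, map_mul, Valuation.map_neg, ← hts]
    rwa [lt_div_iff₀ (zero_lt_iff.mpr ((Valuation.ne_zero_iff _).mpr hs0))] at ht2
  -- the continuous functions
  obtain ⟨z, hz⟩ : ∃ z : Fin 3 → F, z = ![X, Y, t] := ⟨_, rfl⟩
  have z0 : z 0 = X := by rw [hz]; rfl
  have z1 : z 1 = Y := by rw [hz]; rfl
  have z2 : z 2 = t := by rw [hz]; rfl
  have hden : CA (pabv (Sum.inl ω : PlI F)) z fun u => u 0 ^ 2 - a * u 1 ^ 2 :=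
    ((CA.coord 0).pow 2).sub ((CA.const (a : F)).mul ((CA.coord 1).pow 2))
  have hden0 : (fun u : Fin 3 → F => u 0 ^ 2 - a * u 1 ^ 2) z ≠ 0 := by
    change z 0 ^ 2 - a * z 1 ^ 2 ≠ 0
    rw [z0, z1, ← hn]
    exact hn0
  have hq : CA (pabv (Sum.inl ω : PlI F)) z fun u =>
      ((n * l : Fˣ) : F) * (u 0 ^ 2 - a * u 1 ^ 2)⁻¹ :=
    (CA.const ((n * l : Fˣ) : F)).mul (hden.inv hden0)
  have hf1 : CA (pabv (Sum.inl ω : PlI F)) z fun u =>
      (u 2 ^ 2 - ((n * l : Fˣ) : F) * (u 0 ^ 2 - a * u 1 ^ 2)⁻¹) * (a * M ^ 2)⁻¹ - 1 :=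
    ((((CA.coord 2).pow 2).sub hq).mul (CA.const _)).sub (CA.const 1)
  have hf2 : CA (pabv (Sum.inl ω : PlI F)) z fun u =>
      ((n * l : Fˣ) : F) * (u 0 ^ 2 - a * u 1 ^ 2)⁻¹ * (l : F)⁻¹ - 1 :=
    (hq.mul (CA.const _)).sub (CA.const 1)
  have hzq : ((n * l : Fˣ) : F) * (z 0 ^ 2 - a * z 1 ^ 2)⁻¹ = l := by
    rw [z0, z1, ← hn, Units.val_mul]
    field_simp
  obtain ⟨δ1, hδ1, h1⟩ := hf1.lt (M := pabv (Sum.inl ω : PlI F) 4) (by
    rw [hA, hzq, z2]
    have e : ((t : F) ^ 2 - l) * (a * M ^ 2)⁻¹ - 1 = (t ^ 2 - (l + a * M ^ 2)) / (a * M ^ 2) := by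
      field_simp
      ring
    rw [e, map_div₀, div_lt_iff₀ (zero_lt_iff.mpr ((Valuation.ne_zero_iff _).mpr haM)), ← map_mul]
    exact ht3)
  obtain ⟨δ2, hδ2, h2⟩ := hf2.lt (M := pabv (Sum.inl ω : PlI F) 1) (by
    rw [hA, hzq, mul_inv_cancel₀ hl0, sub_self, map_zero, map_one]
    exact zero_lt_one)
  refine ⟨z, M, min δ1 δ2, hM0, lt_min hδ1 hδ2, fun u hu => ?_⟩
  have h3 := h1 u fun i => (hu i).trans_le (min_le_left _ _)
  have h4' := h2 u fun i => (hu i).trans_le (min_le_right _ _)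
  rw [hA] at h3 h4'
  rw [map_one] at h4'
  have h5 : w (((n * l : Fˣ) : F) * (u 0 ^ 2 - a * u 1 ^ 2)⁻¹) = w l := by
    have h6 := w.map_one_add_of_lt h4'
    rw [add_sub_cancel, ← div_eq_mul_inv _ (l : F), map_div₀,
      div_eq_one_iff_eq ((Valuation.ne_zero_iff _).mpr hl0)] at h6
    exact h6
  refine ⟨?_, h3, ?_⟩
  · intro h0
    rw [h0, inv_zero, mul_zero, map_zero] at h5
    exact (Valuation.ne_zero_iff _).mpr hl0 h5.symm
  · rw [map_mul w (4 * τ), h5, ← map_mul]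
    exact hM1

/-- The approximation condition at an infinite place. -/
theorem inf_target (v : InfinitePlace F) (a c : Fˣ) :
    ∃ δ : ℝ, 0 < δ ∧ ∀ u : Fin 3 → F, (∀ i, v (u i - (![1, 0, 0] : Fin 3 → F) i) < δ) →
      u 0 ≠ 0 ∧ v (u 2 ^ 2 * (u 0 ^ 2 - a * u 1 ^ 2) * (c : F)⁻¹) < 1 := by
  obtain ⟨z, hz⟩ : ∃ z : Fin 3 → F, z = ![1, 0, 0] := ⟨_, rfl⟩
  have z0 : z 0 = 1 := by rw [hz]; rfl
  have z2 : z 2 = 0 := by rw [hz]; rfl
  have hf1 : CA v.1 z fun u => u 2 ^ 2 * (u 0 ^ 2 - a * u 1 ^ 2) * (c : F)⁻¹ :=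
    (((CA.coord 2).pow 2).mul (((CA.coord 0).pow 2).sub
      ((CA.const (a : F)).mul ((CA.coord 1).pow 2)))).mul (CA.const _)
  obtain ⟨δ1, hδ1, h1⟩ := hf1.lt (M := 1) (by
    rw [z2]
    norm_num)
  refine ⟨min δ1 1, lt_min hδ1 one_pos, fun u hu => ⟨?_, ?_⟩⟩
  · intro h
    have h2 := (hu 0).trans_le (min_le_right _ _)
    rw [h, ← hz, z0, zero_sub] at h2
    have h3 : v (-1 : F) = 1 := by
      change v.1 (-1 : F) = 1
      rw [AbsoluteValue.map_neg, AbsoluteValue.map_one]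
    rw [h3] at h2
    exact lt_irrefl _ h2
  · refine h1 u fun i => ?_
    rw [hz]
    exact (hu i).trans_le (min_le_left _ _)

/-- A norm of a quaternion algebra is the norm of an element close to the subfield at the places
where the algebra ramifies. -/
theorem exists_repr (a b c : Fˣ) (hab : Aniso a b)
    (hreal : ∀ φ : F →+* ℝ, φ a < 0 → φ b < 0 → 0 < φ c)
    (hfin : ∀ ω : HeightOneSpectrum (𝓞 F), b ∈ NF a ⊔ LS (ω.valuation F) ∨
      c ∈ NF a ⊔ LS (ω.valuation F)) (τ : F) (hτ : τ ≠ 0) :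
    ∃ x₀ x₁ y₀ y₁ : F, (c : F) = x₀ ^ 2 - a * x₁ ^ 2 - b * (y₀ ^ 2 - a * y₁ ^ 2) ∧
      ∀ ω : HeightOneSpectrum (𝓞 F), b ∉ NF a ⊔ LS (ω.valuation F) →
        ω.valuation F (b * (y₀ ^ 2 - a * y₁ ^ 2) / c) < ω.valuation F τ := by
  classical
  have ha0 : (a : F) ≠ 0 := a.ne_zero
  have hb0 : (b : F) ≠ 0 := b.ne_zero
  have hc0 : (c : F) ≠ 0 := c.ne_zero
  -- targets
  have htgt : ∀ p : PlI F, ∃ (z : Fin 3 → F) (M : F) (δ : ℝ), 0 < δ ∧
      ((∀ ω, p = Sum.inl ω → b ∉ NF a ⊔ LS (ω.valuation F) → M ≠ 0 ∧ ∀ u : Fin 3 → F,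
        (∀ i, pabv p (u i - z i) < δ) → u 0 ^ 2 - a * u 1 ^ 2 ≠ 0 ∧
        ω.valuation F ((u 2 ^ 2 - c * (u 0 ^ 2 - a * u 1 ^ 2)⁻¹) * (a * M ^ 2)⁻¹ - 1) <
          ω.valuation F 4 ∧
        ω.valuation F (a * M ^ 2) <
          ω.valuation F (4 * τ * (c * (u 0 ^ 2 - a * u 1 ^ 2)⁻¹))) ∧
      (∀ v, p = Sum.inr v → ∀ u : Fin 3 → F, (∀ i, pabv p (u i - z i) < δ) →
        u 0 ≠ 0 ∧ v (u 2 ^ 2 * (u 0 ^ 2 - a * u 1 ^ 2) * (c : F)⁻¹) < 1)) := by
    rintro (ω | v)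
    · by_cases hb : b ∈ NF a ⊔ LS (ω.valuation F)
      · refine ⟨0, 0, 1, one_pos, fun ω' h hb' => ?_, fun v h => ?_⟩
        · rw [Sum.inl.injEq] at h
          rw [← h] at hb'
          exact absurd hb hb'
        · exact absurd h (by simp)
      · obtain ⟨z, M, δ, hM, hδ, h⟩ := fin_target ω a c ((hfin ω).resolve_left hb) τ hτ
        refine ⟨z, M, δ, hδ, fun ω' h' _ => ?_, fun v h' => absurd h' (by simp)⟩
        rw [Sum.inl.injEq] at h'
        subst h'
        exact ⟨hM, h⟩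
    · obtain ⟨δ, hδ, h⟩ := inf_target v a c
      refine ⟨![1, 0, 0], 0, δ, hδ, fun ω h' => absurd h' (by simp), fun v' h' => ?_⟩
      rw [Sum.inr.injEq] at h'
      subst h'
      exact h
  choose z M δ hδ hfinT hinfT using htgt
  obtain ⟨T, hTd⟩ : ∃ T : Set (PlI F), T = (Sum.inl '' {ω : HeightOneSpectrum (𝓞 F) |
    (Sum.inl ω : Pl F) ∈ bad a b}) ∪ Set.range Sum.inr := ⟨_, rfl⟩
  have hT : T.Finite := by
    rw [hTd]
    exact (((bad_finite a b).preimage Sum.inl_injective.injOn).image _).union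
      (Set.finite_range _)
  obtain ⟨u, hu⟩ := approxV T hT z δ hδ
  have hF : ∀ ω : HeightOneSpectrum (𝓞 F), b ∉ NF a ⊔ LS (ω.valuation F) → _ := fun ω hb =>
    (hfinT (Sum.inl ω) ω rfl hb).2 u (hu _ (by rw [hTd]; exact Or.inl ⟨ω, hb, rfl⟩))
  have hI : ∀ v : InfinitePlace F, _ := fun v =>
    hinfT (Sum.inr v) v rfl u (hu _ (by rw [hTd]; exact Or.inr ⟨v, rfl⟩))
  obtain ⟨n, hn⟩ : ∃ n, n = u 0 ^ 2 - a * u 1 ^ 2 := ⟨_, rfl⟩
  obtain ⟨v₀⟩ : Nonempty (InfinitePlace F) := inferInstance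
  have hu0 : u 0 ≠ 0 := (hI v₀).1
  have hn0 : n ≠ 0 := by
    intro h
    rw [hn] at h
    exact hu0 (hab.plane h).1
  obtain ⟨c', hc'⟩ : ∃ c', c' = c * n⁻¹ := ⟨_, rfl⟩
  have hc'0 : c' ≠ 0 := by
    rw [hc']
    exact mul_ne_zero hc0 (inv_ne_zero hn0)
  have hcn : (c : F) = n * c' := by
    rw [hc']
    field_simp
  obtain ⟨e, he⟩ : ∃ e, e = u 2 ^ 2 - c' := ⟨_, rfl⟩
  by_cases he0 : e = 0
  · refine ⟨u 0 * u 2, u 1 * u 2, 0, 0, ?_, fun ω _ => ?_⟩
    · rw [hcn]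
      linear_combination n * he - n * he0 + u 2 ^ 2 * hn
    · have e1 : (b : F) * (0 ^ 2 - a * 0 ^ 2) / c = 0 := by
        ring
      rw [e1, map_zero]
      exact zero_lt_iff.mpr ((Valuation.ne_zero_iff _).mpr hτ)
  · obtain ⟨p, q, r, hpqr⟩ := exists_pure a b hab e he0 (by
      intro ω hω
      obtain ⟨-, h2, -⟩ := hF ω hω
      have hM0 : M (Sum.inl ω) ≠ 0 := (hfinT (Sum.inl ω) ω rfl hω).1
      rw [← hn, ← hc', ← he] at h2
      refine ⟨Units.mk0 (a * M (Sum.inl ω)) (mul_ne_zero ha0 hM0), ?_⟩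
      have e1 : ((a * Units.mk0 e he0 : Fˣ) : F) /
          ((Units.mk0 (a * M (Sum.inl ω)) (mul_ne_zero ha0 hM0) : Fˣ) : F) ^ 2 - 1 =
          e * (a * M (Sum.inl ω) ^ 2)⁻¹ - 1 := by
        rw [Units.val_mul, Units.val_mk0, Units.val_mk0]
        field_simp
      rw [e1]
      exact h2) (by
      intro φ hφa hφb
      have hφc := hreal φ hφa hφb
      have h2 := (hI (InfinitePlace.mk (Complex.ofRealHom.comp φ))).2
      rw [← hn] at h2
      have h3 : ∀ x : F, (InfinitePlace.mk (Complex.ofRealHom.comp φ)) x = |φ x| := by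
        intro x
        rw [InfinitePlace.apply]
        simp
      rw [h3] at h2
      have h4 : 0 < φ n := by
        rw [hn, map_sub, map_mul, map_pow, map_pow]
        have h5 : 0 < φ (u 0) ^ 2 := by
          have := (_root_.map_ne_zero φ).mpr hu0
          positivity
        nlinarith [sq_nonneg (φ (u 1))]
      have h5 := (abs_lt.mp h2).2
      rw [map_mul, map_mul, map_inv₀, ← div_eq_mul_inv, div_lt_one hφc, map_pow] at h5
      have h6 : φ c = φ n * φ c' := by rw [hcn, map_mul]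
      rw [h6] at h5
      rw [he, map_sub, map_pow, sub_neg]
      by_contra hcon
      rw [not_lt] at hcon
      nlinarith)
    refine ⟨u 0 * u 2 + a * u 1 * p, u 0 * p + u 1 * u 2, u 0 * q + a * u 1 * r,
      u 0 * r + u 1 * q, ?_, fun ω hω => ?_⟩
    · rw [hcn]
      linear_combination n * he - n * hpqr +
        (u 2 ^ 2 - a * p ^ 2 - b * (q ^ 2 - a * r ^ 2)) * hn
    · obtain ⟨-, h2, h3⟩ := hF ω hω
      have hM0 : M (Sum.inl ω) ≠ 0 := (hfinT (Sum.inl ω) ω rfl hω).1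
      rw [← hn, ← hc', ← he] at h2
      rw [← hn, ← hc'] at h3
      obtain ⟨w, hw⟩ : ∃ w, w = ω.valuation F := ⟨_, rfl⟩
      rw [← hw] at h2 h3 hω ⊢
      have h4 : w 4 ≤ 1 := val_four_le w
      have haM : (a : F) * M (Sum.inl ω) ^ 2 ≠ 0 := mul_ne_zero ha0 (pow_ne_zero 2 hM0)
      have he4 : w e = w (a * M (Sum.inl ω) ^ 2) := by
        have h6 := w.map_one_add_of_lt (lt_of_lt_of_le h2 h4)
        rw [add_sub_cancel, ← div_eq_mul_inv, map_div₀,
          div_eq_one_iff_eq ((Valuation.ne_zero_iff _).mpr haM)] at h6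
        exact h6
      -- the key inequality
      have hkey : w (4 * (b * (q ^ 2 - a * r ^ 2))) ≤ w e := by
        by_contra hcon
        rw [not_le] at hcon
        obtain ⟨N, hN⟩ : ∃ N, N = q ^ 2 - a * r ^ 2 := ⟨_, rfl⟩
        rw [← hN] at hcon
        have hN0 : N ≠ 0 := by
          rintro h
          rw [h, mul_zero, mul_zero, map_zero] at hcon
          exact absurd hcon (not_lt.mpr zero_le)
        have hbN : (b : F) * N ≠ 0 := mul_ne_zero hb0 hN0
        by_cases hp : p = 0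
        · rw [hpqr, hp] at hcon
          have e1 : (a : F) * 0 ^ 2 + b * q ^ 2 - a * b * r ^ 2 = b * N := by
            rw [hN]
            ring
          rw [e1, map_mul w 4] at hcon
          have : w 4 * w ((b : F) * N) ≤ 1 * w ((b : F) * N) := mul_le_mul_left h4 _
          rw [one_mul] at this
          exact absurd hcon (not_lt.mpr this)
        · apply hω
          have hap : -((a : F) * p ^ 2) ≠ 0 := neg_ne_zero.mpr (mul_ne_zero ha0 (pow_ne_zero 2 hp))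
          have h7 : Units.mk0 _ hap * (Units.mk0 _ hbN)⁻¹ ∈ LS w := by
            refine LS_of_close ?_
            have e1 : ((Units.mk0 _ hap * (Units.mk0 _ hbN)⁻¹ : Fˣ) : F) - 1 =
                -(e / (b * N)) := by
              rw [Units.val_mul, Units.val_inv_eq_inv_val, Units.val_mk0, Units.val_mk0, hpqr]
              field_simp
              rw [hN]
              ring
            rw [e1, Valuation.map_neg, map_div₀,
              div_lt_iff₀ (zero_lt_iff.mpr ((Valuation.ne_zero_iff _).mpr hbN)), ← map_mul]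
            exact hcon
          have h8 : Units.mk0 _ hap ∈ NF a := ⟨0, p, by rw [Units.val_mk0]; ring⟩
          have h9 : Units.mk0 _ hN0 ∈ NF a := ⟨q, r, by rw [Units.val_mk0, hN]⟩
          have e2 : b = (Units.mk0 _ hap * (Units.mk0 _ hbN)⁻¹)⁻¹ * (Units.mk0 _ hap *
              (Units.mk0 _ hN0)⁻¹) := by
            ext
            rw [Units.val_mul, Units.val_mul, Units.val_inv_eq_inv_val, Units.val_inv_eq_inv_val,
              Units.val_mul, Units.val_inv_eq_inv_val, Units.val_mk0, Units.val_mk0, Units.val_mk0]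
            field_simp
          rw [e2]
          exact mul_mem (Subgroup.mem_sup_right (inv_mem h7))
            (Subgroup.mem_sup_left (mul_mem h8 (inv_mem h9)))
      have e3 : (b : F) * ((u 0 * q + a * u 1 * r) ^ 2 - a * (u 0 * r + u 1 * q) ^ 2) / c =
          4 * (b * (q ^ 2 - a * r ^ 2)) / (4 * c') := by
        rw [hcn, hn]
        rw [hn] at hn0
        field_simp
        ring
      rw [e3, map_div₀, div_lt_iff₀ (zero_lt_iff.mpr ((Valuation.ne_zero_iff _).mpr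
        (mul_ne_zero (by norm_num) hc'0))), ← map_mul]
      refine hkey.trans_lt ?_
      rw [he4]
      have e4 : τ * (4 * c') = 4 * τ * c' := by ring
      rw [e4]
      exact h3

end loc

end Vale.Agent.P011.Three
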