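import Vale.Agent.P011.Two.HigherFinal
import Vale.Agent.P011.Three.DArith

/-!
# P011, rank three, block D: products of two reflections as plane elements
-/

open NumberField IsDedekindDomain Module Matrix

set_option linter.unusedSectionVars false

namespace Vale.Agent.P011.Three

open Vale.Agent.P011S Vale.Agent.P011.Arith Vale.Agent.P011.Even Vale.Agent.P011.MPQ
open Vale.Agent.P011.Two Vale.Agent.P011.Two.Hi

section near

variable {k K D Ω : Type} [Field k] [NumberField k] [Field K] [StarRing K]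
  [DivisionRing D] [StarRing D] [Algebra k K] [Algebra k D] [Algebra K D] [IsScalarTower k K D]
  [Field Ω] [Algebra K Ω] {d : kˣ} {s : K} {n : ℕ} (f : D →ₐ[K] Matrix (Fin n) (Fin n) Ω)
  {m : ℕ} {H : Matrix (Fin m) (Fin m) D} {hH : IsAnisotropicForm H}

/-- Elements of the quaternion groups of planes with a unit vector which are close to one lie in
each normal subgroup of finite index. -/
theorem near_mem (hM : MPQStatement) (hS : Setting k K D d s) (N : Subgroup (SU f H)) [N.Normal]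
    (hN : N.index ≠ 0) {F : Type} [Field F] [NumberField F] [Algebra k F] (ι : F →ₐ[k] D)
    (sym : ∀ x, star (ι x) = ι x) (b : Fˣ) {X Y : Fin m → D} (hP : Pl (rowA H hH) X Y)
    (hX : (rowA H hH).h X X = 1) (hY : (rowA H hH).h Y Y = ι b) {p₀ p₁ q₀ q₁ : F}
    {u : (D × D) ≃ₗ[D] (D × D)}
    (hu : PlaneElt d s (ι b) ι b p₀ p₁ q₀ q₁ ((1 : D), (0 : D)) ((0 : D), (1 : D)) u)
    (hnear : ∀ ω : HeightOneSpectrum (𝓞 F), -b ∉ NF (inc k F d) ⊔ LS (ω.valuation F) →
      ω.valuation F (2 - 2 * p₀) < ω.valuation F (4 * (N.index : F) ^ 4)) :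
    ex hP u ∈ NN f N := by
  have hg : star (ι (b : F)) = ι b := sym b
  have hhv : ∀ x y : D × D, hh (ι (b : F)) x y = (rowA H hH).h (vec X Y x) (vec X Y y) := by
    intro x y
    rw [h_vec hP, hX, hY, mul_one]
    rfl
  have han : An (ι (b : F)) := by
    intro x hx
    rw [hhv] at hx
    have h1 := (rowA H hH).anis hx
    have h2 := crd_vec hP x
    rw [h1, map_zero] at h2
    exact h2.symm
  have hiso : ∀ v : (D × D) ≃ₗ[D] (D × D), v ∈ Uh (ι (b : F)) → IsoP hP v := by
    intro v hv x y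
    rw [← hhv, ← hhv]
    exact hv x y
  obtain ⟨G₀, hG₀⟩ : ∃ G₀, G₀ = Uh (ι (b : F)) ⊓ (GG f H).comap (ex hP) := ⟨_, rfl⟩
  obtain ⟨N₀, hN₀⟩ : ∃ N₀, N₀ = (NN f N).comap (ex hP) ⊓ G₀ := ⟨_, rfl⟩
  have hexpG : ∀ x ∈ GG f H, x ^ N.index ∈ NN f N := by
    rintro _ ⟨x, hx, rfl⟩
    refine ⟨x ^ N.index, ⟨⟨x, hx⟩ ^ N.index, Subgroup.pow_index_mem N _, ?_⟩, map_pow _ _ _⟩
    rfl
  have hHQ : HQ d s (ι (b : F)) N.index (coreOf (Uh (ι (b : F))) N₀) := by
    refine hq_coreOf hM hS hg han G₀ N₀ ?_ ?_ ?_ N.index (Nat.pos_of_ne_zero hN) ?_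
    · intro F' _ _ _ ι' b' p₀ p₁ q₀ q₁ y w u hu'
      have huU := planeElt_mem hS hg han hu'
      have hspan := planeElt_spans hg han hu'
      have hnrm := hu'.nrm
      have huy := hu'.uy
      have huw := hu'.uw
      rw [hG₀]
      refine ⟨huU, ?_⟩
      apply mem_GG f (ex_mem hP (hiso u huU))
      rw [redNorm_ex]
      obtain ⟨a1, c1, h1⟩ := hspan (1, 0)
      obtain ⟨a2, c2, h2⟩ := hspan (0, 1)
      obtain ⟨T, hTd⟩ : ∃ T : Matrix (Fin 2) (Fin 2) D, T = !![y.1, y.2; w.1, w.2] := ⟨_, rfl⟩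
      have hT1 : !![a1, c1; a2, c2] * T = 1 := by
        rw [hTd]
        have e1 := congrArg Prod.fst h1
        have e2 := congrArg Prod.snd h1
        have e3 := congrArg Prod.fst h2
        have e4 := congrArg Prod.snd h2
        simp only [Prod.fst_add, Prod.snd_add, Prod.smul_fst, Prod.smul_snd, smul_eq_mul]
          at e1 e2 e3 e4
        ext i j
        fin_cases i <;> fin_cases j <;>
          simp [Matrix.mul_apply, Fin.sum_univ_two, ← e1, ← e2, ← e3, ← e4]
      have hT0 : redNorm f (Fin 2) T ≠ 0 := by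
        intro h0
        have h3 := congrArg (redNorm f (Fin 2)) hT1
        rw [map_mul, h0, mul_zero, map_one] at h3
        exact zero_ne_one h3
      have hTM : T * m2 u = !![ι' p₀ + ι' p₁ * algebraMap K D s,
          ι' q₀ + ι' q₁ * algebraMap K D s;
          -(ι' b' * (ι' q₀ - ι' q₁ * algebraMap K D s)),
          ι' p₀ - ι' p₁ * algebraMap K D s] * T := by
        rw [u_apply u y] at huy
        rw [u_apply u w] at huw
        have e1 := congrArg Prod.fst huy
        have e2 := congrArg Prod.snd huy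
        have e3 := congrArg Prod.fst huw
        have e4 := congrArg Prod.snd huw
        simp only [Prod.fst_add, Prod.snd_add, Prod.smul_fst, Prod.smul_snd, smul_eq_mul]
          at e1 e2 e3 e4
        rw [hTd, m2]
        ext i j
        fin_cases i <;> fin_cases j
        · simpa [Matrix.mul_apply, Fin.sum_univ_two] using e1
        · simpa [Matrix.mul_apply, Fin.sum_univ_two] using e2
        · simpa [Matrix.mul_apply, Fin.sum_univ_two] using e3
        · simpa [Matrix.mul_apply, Fin.sum_univ_two] using e4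
      have h4 := congrArg (redNorm f (Fin 2)) hTM
      rw [map_mul, map_mul, redNorm_plane f hS.sq ι' b' p₀ p₁ q₀ q₁ hnrm, one_mul] at h4
      exact mul_left_cancel₀ hT0 (by rw [h4, mul_one])
    · intro v hv x hx
      rw [hN₀] at hx ⊢
      have hv2 := hv
      rw [hG₀] at hv2
      refine ⟨?_, G₀.mul_mem (G₀.mul_mem hv hx.2) (G₀.inv_mem hv)⟩
      change ex hP (v * x * v⁻¹) ∈ NN f N
      rw [map_mul, map_mul, map_inv]
      exact NN_conj f N hv2.2 hx.1
    · rw [hN₀, Subgroup.inf_relIndex_right, Subgroup.relIndex_comap]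
      intro h0
      refine NN_relIndex f N hN (Subgroup.relIndex_eq_zero_of_le_right ?_ h0)
      rw [hG₀]
      rintro _ ⟨v, hv, rfl⟩
      exact hv.2
    · intro x hx
      have hx2 := hx
      rw [hG₀] at hx2
      rw [hN₀]
      refine ⟨?_, G₀.pow_mem hx _⟩
      change ex hP (x ^ N.index) ∈ NN f N
      rw [map_pow]
      exact hexpG _ hx2.2
  have h1 := coreOf_le _ _ (hHQ F ι b p₀ p₁ q₀ q₁ _ _ u hu hnear)
  rw [hN₀] at h1
  exact h1.1

end near

section refl

variable {k K D V : Type} [Field k] [NumberField k] [Field K] [StarRing K]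
  [DivisionRing D] [StarRing D] [Algebra k K] [Algebra k D] [Algebra K D] [IsScalarTower k K D]
  [AddCommGroup V] [Module D V] {d : kˣ} {s : K} {H : AForm D V} {X Y : V}

theorem vec_inj (hP : Pl H X Y) {x y : D × D} (h : vec X Y x = vec X Y y) : x = y := by
  rw [← crd_vec hP x, h, crd_vec hP y]

/-- The product of two reflections in a plane, the second one in a unit vector. -/
theorem refl_plane [CharZero D] (hS : Setting k K D d s) {F : Type} [Field F] [NumberField F]
    [Algebra k F] (ι : F →ₐ[k] D) (sym : ∀ x, star (ι x) = ι x) (b c : Fˣ) (hP : Pl H X Y)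
    (hX : H.h X X = 1) (hY : H.h Y Y = ι b) (x₀ x₁ y₀ y₁ : F)
    (hc : (c : F) = x₀ ^ 2 - inc k F d * x₁ ^ 2 - (-b : Fˣ) * (y₀ ^ 2 - inc k F d * y₁ ^ 2)) :
    ∃ v : V, H.h v v = ι c ∧ ∃ u : (D × D) ≃ₗ[D] (D × D), ex hP u = H.refl v * H.refl X ∧
      PlaneElt d s (ι b) ι b (2 * (x₀ ^ 2 - inc k F d * x₁ ^ 2) / c - 1) 0
        (2 * (x₀ * y₀ - inc k F d * (x₁ * y₁)) / c) (2 * (x₀ * y₁ - x₁ * y₀) / c)
        ((1 : D), (0 : D)) ((0 : D), (1 : D)) u := by
  have hid : ((inc k F d : Fˣ) : F) = algebraMap k F d := rfl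
  have hbv : ((-b : Fˣ) : F) = -(b : F) := rfl
  rw [hid, hbv] at hc
  have hc0 : (c : F) ≠ 0 := c.ne_zero
  have hYX : H.h Y X = 0 := hP.yx
  have hXY : H.h X Y = 0 := hP.xy
  obtain ⟨x, hx⟩ : ∃ x, x = lc ι s x₀ x₁ := ⟨_, rfl⟩
  obtain ⟨y, hy⟩ : ∃ y, y = lc ι s y₀ y₁ := ⟨_, rfl⟩
  have hsx : star x = lc ι s x₀ (-x₁) := by rw [hx, star_lc ι hS sym]
  have hsy : star y = lc ι s y₀ (-y₁) := by rw [hy, star_lc ι hS sym]
  obtain ⟨v, hv⟩ : ∃ v, v = x • X + y • Y := ⟨_, rfl⟩
  have hb : ι (b : F) = lc ι s (b : F) 0 := (lc_zero_right ι (b : F)).symm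
  have hvv : H.h v v = ι c := by
    rw [hv]
    simp only [H.add_left, H.add_right, H.smul_left, H.smul_right, hX, hY, hXY, hYX, mul_zero,
      zero_mul, add_zero, zero_add, one_mul]
    rw [hsx, hsy, hx, hy, hb, lc_mul ι hS, lc_mul ι hS, lc_mul ι hS, lc_add,
      ← lc_zero_right ι (s := s) (c : F)]
    congr 1
    · rw [hc]; ring
    · ring
  have hXv : H.h X v = star x := by
    rw [hv, H.add_right, H.smul_right, H.smul_right, hX, hXY, one_mul, zero_mul, add_zero]
  have hYv : H.h Y v = ι b * star y := by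
    rw [hv, H.add_right, H.smul_right, H.smul_right, hY, hYX, zero_mul, zero_add]
  have hcinv : (H.h v v / 2)⁻¹ = ι (2 / c) := by
    rw [hvv, inv_div, map_div₀, map_ofNat]
  have hgX : (H.refl v * H.refl X) X = lc ι s (2 * (x₀ ^ 2 - algebraMap k F d * x₁ ^ 2) / c - 1) 0 • X +
      lc ι s (2 * (x₀ * y₀ - algebraMap k F d * (x₁ * y₁)) / c) (2 * (x₀ * y₁ - x₁ * y₀) / c) • Y := by
    rw [LinearEquiv.mul_apply, H.refl_self, map_neg, H.refl_apply, hXv, hcinv, hv]
    have e1 : star x * ι (2 / c) * x =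
        lc ι s (2 * (x₀ ^ 2 - algebraMap k F d * x₁ ^ 2) / c) 0 := by
      rw [hsx, hx, ← lc_zero_right ι (s := s) (2 / c : F), lc_mul ι hS, lc_mul ι hS]
      congr 1
      · field_simp
        ring
      · field_simp
        ring
    have e2 : star x * ι (2 / c) * y = lc ι s (2 * (x₀ * y₀ - algebraMap k F d * (x₁ * y₁)) / c)
        (2 * (x₀ * y₁ - x₁ * y₀) / c) := by
      rw [hsx, hy, ← lc_zero_right ι (s := s) (2 / c : F), lc_mul ι hS, lc_mul ι hS]
      congr 1
      · field_simp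
        ring
      · field_simp
        ring
    rw [smul_add, smul_smul, smul_smul, e1, e2]
    have e3 : lc ι s (2 * (x₀ ^ 2 - algebraMap k F d * x₁ ^ 2) / c - 1) 0 =
        lc ι s (2 * (x₀ ^ 2 - algebraMap k F d * x₁ ^ 2) / c) 0 - 1 := by
      rw [lc_zero_right, lc_zero_right, map_sub, map_one]
    rw [e3, sub_smul, one_smul]
    abel
  have hgY : (H.refl v * H.refl X) Y = -(ι b * (ι (2 * (x₀ * y₀ - algebraMap k F d * (x₁ * y₁)) / c) -
      ι (2 * (x₀ * y₁ - x₁ * y₀) / c) * algebraMap K D s)) • X +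
      (ι (2 * (x₀ ^ 2 - algebraMap k F d * x₁ ^ 2) / c - 1) - ι 0 * algebraMap K D s) • Y := by
    have hfix : H.refl X Y = Y := H.refl_apply_orth hYX
    rw [LinearEquiv.mul_apply, hfix, H.refl_apply, hYv, hcinv, hv]
    have e1 : ι b * star y * ι (2 / c) * x =
        ι b * (ι (2 * (x₀ * y₀ - algebraMap k F d * (x₁ * y₁)) / c) -
          ι (2 * (x₀ * y₁ - x₁ * y₀) / c) * algebraMap K D s) := by
      have e2 : ι (2 * (x₀ * y₀ - algebraMap k F d * (x₁ * y₁)) / c) -
          ι (2 * (x₀ * y₁ - x₁ * y₀) / c) * algebraMap K D s =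
          lc ι s (2 * (x₀ * y₀ - algebraMap k F d * (x₁ * y₁)) / c)
            (-(2 * (x₀ * y₁ - x₁ * y₀) / c)) := by
        unfold lc
        rw [map_neg, neg_mul, sub_eq_add_neg]
      rw [e2, mul_assoc, mul_assoc, hsy, hx, ← lc_zero_right ι (s := s) (2 / c : F), lc_mul ι hS,
        lc_mul ι hS]
      congr 2
      · field_simp
        ring
      · field_simp
        ring
    have e2 : ι b * star y * ι (2 / c) * y =
        1 - (ι (2 * (x₀ ^ 2 - algebraMap k F d * x₁ ^ 2) / c - 1) - ι 0 * algebraMap K D s) := by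
      rw [map_zero, zero_mul, sub_zero, ← map_one ι, ← map_sub, hsy, hy, hb,
        ← lc_zero_right ι (s := s) (2 / c : F), lc_mul ι hS, lc_mul ι hS, lc_mul ι hS,
        ← lc_zero_right ι (s := s) (1 - (2 * (x₀ ^ 2 - algebraMap k F d * x₁ ^ 2) / c - 1))]
      congr 1
      · field_simp
        rw [hc]
        ring
      · field_simp
        ring
    rw [smul_add, smul_smul, smul_smul, e1, e2, sub_smul, one_smul, neg_smul]
    abel
  obtain ⟨u, -, hu⟩ := ex_surj hP (mul_mem (H.refl_mem v) (H.refl_mem X)) (by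
    intro z hz1 hz2
    have hzv : H.h z v = 0 := by
      rw [hv, H.add_right, H.smul_right, H.smul_right, hz1, hz2, zero_mul, zero_mul, add_zero]
    rw [LinearEquiv.mul_apply, H.refl_apply_orth hz1, H.refl_apply_orth hzv])
  have hex : ∀ z : D × D, vec X Y (u z) = (H.refl v * H.refl X) (vec X Y z) := by
    intro z
    rw [← hu, ex_apply, crd_vec hP, sub_self, zero_add]
  have hv1 : vec X Y ((1 : D), (0 : D)) = X := by
    rw [Hi.vec_apply, one_smul, zero_smul, add_zero]
  have hv2 : vec X Y ((0 : D), (1 : D)) = Y := by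
    rw [Hi.vec_apply, one_smul, zero_smul, zero_add]
  refine ⟨v, hvv, u, hu, sym, ?_, ?_, ?_, ?_, ?_, ?_⟩
  · simp [hh]
  · simp [hh]
  · simp [hh]
  · rw [hid]
    field_simp
    rw [hc]
    ring
  · apply vec_inj hP
    rw [hex, hv1, hgX, map_add, map_smul, map_smul, hv1, hv2, hid]
    rfl
  · apply vec_inj hP
    rw [hex, hv2, hgY, map_add, map_smul, map_smul, hv1, hv2, hid]

end refl

end Vale.Agent.P011.Three
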