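import Vale.Agent.P011.RP.Odd
import Vale.Agent.P011.RP.Eigen
import Vale.Agent.P011.Even.RealSide

/-!
# P011, rank three, block D: positivity of symmetric elements at real embeddings of subfields
-/

open NumberField Module Matrix
open scoped ComplexOrder

set_option linter.unusedSectionVars false

namespace Vale.Agent.P011.Three

open Vale.Agent.P011.Arith Vale.Agent.P011.Even Vale.Agent.P011.RP

variable {k K D : Type} [Field k] [NumberField k] [Field K] [StarRing K]
  [DivisionRing D] [StarRing D] [Algebra k K] [Algebra k D] [Algebra K D] [IsScalarTower k K D]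
  {d : kˣ} {s : K}

/-- Symmetric elements which are independent over `k` are independent over `K`. -/
theorem indep_sym (hS : Setting k K D d s) {r : ℕ} (y : Fin r → D)
    (hy : ∀ i, star (y i) = y i) (h : LinearIndependent k y) : LinearIndependent K y := by
  have hchar : CharZero K := charZero_of_injective_algebraMap (algebraMap k K).injective
  have key : ∀ g : Fin r → K, ∑ i, g i • y i = 0 → ∀ i, g i + star (g i) = 0 := by
    intro g hg
    have h1 : ∑ i, star (g i) • y i = 0 := by
      have h2 := congrArg star hg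
      rw [star_sum, star_zero] at h2
      rw [← h2]
      exact Finset.sum_congr rfl fun i _ => by rw [hS.star_smul, hy]
    have h3 : ∀ i, ∃ p : k, algebraMap k K p = g i + star (g i) := by
      intro i
      have := (hS.fix (g i + star (g i))).mp (by rw [star_add, star_star, add_comm])
      exact this
    choose p hp using h3
    have h4 : ∑ i, p i • y i = 0 := by
      have h5 : ∑ i, p i • y i = ∑ i, g i • y i + ∑ i, star (g i) • y i := by
        rw [← Finset.sum_add_distrib]
        refine Finset.sum_congr rfl fun i _ => ?_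
        rw [← add_smul, ← hp, algebraMap_smul]
      rw [h5, hg, h1, add_zero]
    intro i
    rw [← hp, Fintype.linearIndependent_iff.mp h p h4 i, map_zero]
  have hs0 : s ≠ 0 := by
    intro h0
    have := hS.sq
    rw [h0, zero_pow two_ne_zero] at this
    exact d.ne_zero ((map_eq_zero _).mp this.symm)
  rw [Fintype.linearIndependent_iff]
  intro g hg i
  have h1 := key g hg i
  have h2 := key (fun i => s * g i) (by
    have : ∑ i, (s * g i) • y i = s • ∑ i, g i • y i := by
      rw [Finset.smul_sum]
      exact Finset.sum_congr rfl fun i _ => mul_smul _ _ _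
    rw [this, hg, smul_zero]) i
  simp only [star_mul, hS.star_s] at h2
  have h3 : s * (g i - star (g i)) = 0 := by linear_combination h2
  have h4 := (mul_eq_zero.mp h3).resolve_left hs0
  have h5 : 2 * g i = 0 := by linear_combination h1 + h4
  exact (mul_eq_zero.mp h5).resolve_left two_ne_zero

/-- Real embeddings of symmetric subfields give eigenvectors. -/
theorem exists_eigen_sym (hS : Setting k K D d s) {n : ℕ} (hn : 0 < n) (R : RData K D n)
    {F : Type} [Field F] [NumberField F] [Algebra k F] (ι : F →ₐ[k] D)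
    (sym : ∀ x, star (ι x) = ι x) (φ : F →+* ℝ)
    (hφ : ∀ x : k, R.s (algebraMap k K x) = ((φ (algebraMap k F x) : ℝ) : ℂ)) (c : F) :
    ∃ v : Fin n → ℂ, v ≠ 0 ∧ R.f (ι c) *ᵥ v = ((φ c : ℝ) : ℂ) • v := by
  classical
  have _ := hS.fin
  have _ := hS.cen
  have hfinK : FiniteDimensional k K := Module.finite_of_finrank_pos (by rw [hS.rank]; norm_num)
  have hfinD : FiniteDimensional k D := FiniteDimensional.trans k K D
  have hfin : FiniteDimensional k F :=
    FiniteDimensional.of_injective ι.toLinearMap ι.toRingHom.injective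
  have hint : IsIntegral k c := Algebra.IsIntegral.isIntegral c
  obtain ⟨M, hM⟩ : ∃ M, M = R.f (ι c) := ⟨_, rfl⟩
  obtain ⟨i, hi⟩ : ∃ i : k →+* ℂ, i = R.s.comp (algebraMap k K) := ⟨_, rfl⟩
  have hi' : i = (Complex.ofRealHom.comp φ).comp (algebraMap k F) := by
    rw [hi]
    ext x
    exact hφ x
  let g : Polynomial ℂ := (minpoly k c).map i
  have hgm : g.Monic := (minpoly.monic hint).map _
  have hg0 : g ≠ 0 := hgm.ne_zero
  have hroot : g.IsRoot ((φ c : ℝ) : ℂ) := by
    rw [Polynomial.IsRoot, Polynomial.eval_map, hi']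
    have h1 := Polynomial.hom_eval₂ (minpoly k c) (algebraMap k F) (Complex.ofRealHom.comp φ) c
    have h2 : (minpoly k c).eval₂ (algebraMap k F) c = 0 := minpoly.aeval k c
    rw [h2, map_zero] at h1
    exact h1.symm
  obtain ⟨q, hq⟩ := Polynomial.dvd_iff_isRoot.mpr hroot
  have hq0 : q ≠ 0 := by
    intro h0
    rw [h0, mul_zero] at hq
    exact hg0 hq
  obtain ⟨r, hr⟩ : ∃ r, r = (minpoly k c).natDegree := ⟨_, rfl⟩
  have hqd : q.natDegree < r := by
    have h1 := congrArg Polynomial.natDegree hq
    rw [Polynomial.natDegree_mul (Polynomial.X_sub_C_ne_zero _) hq0,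
      Polynomial.natDegree_X_sub_C, (minpoly.monic hint).natDegree_map, ← hr] at h1
    omega
  have hpow : ∀ j : ℕ, M ^ j = R.f (ι (c ^ j)) := by
    intro j
    rw [hM, map_pow, map_pow]
  have hRk : ∀ (x : k) (y : D), R.f (x • y) = i x • R.f y := by
    intro x y
    rw [← algebraMap_smul K x y, R.smul, hi]
    rfl
  have hgF : Polynomial.aeval M g = 0 := by
    rw [Polynomial.aeval_eq_sum_range]
    have h1 : ∀ j ∈ Finset.range (g.natDegree + 1), g.coeff j • M ^ j =
        R.f (ι ((minpoly k c).coeff j • c ^ j)) := by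
      intro j _
      rw [hpow, map_smul, hRk, Polynomial.coeff_map]
    rw [Finset.sum_congr rfl h1, ← map_sum, ← map_sum]
    have h2 : g.natDegree = (minpoly k c).natDegree :=
      (minpoly.monic hint).natDegree_map _
    rw [h2, ← Polynomial.aeval_eq_sum_range, minpoly.aeval, map_zero, map_zero]
  have hli : LinearIndependent K fun j : Fin r => ι (c ^ (j : ℕ)) := by
    refine indep_sym hS _ (fun j => sym _) ?_
    have h1 : LinearIndependent k fun j : Fin (minpoly k c).natDegree => c ^ (j : ℕ) :=
      linearIndependent_pow c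
    rw [← hr] at h1
    exact h1.map' ι.toLinearMap (LinearMap.ker_eq_bot.mpr ι.toRingHom.injective)
  have hqF : Polynomial.aeval M q ≠ 0 := by
    intro h0
    rw [Polynomial.aeval_eq_sum_range' hqd, ← Fin.sum_univ_eq_sum_range
      (fun i => q.coeff i • M ^ i)] at h0
    have h2 := Fintype.linearIndependent_iff.mp (R.indep hn _ hli) (fun i => q.coeff i) (by
      rw [← h0]
      exact Finset.sum_congr rfl fun i _ => by rw [hpow])
    apply hq0
    ext j
    rw [Polynomial.coeff_zero]
    by_cases hj : j < r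
    · exact h2 ⟨j, hj⟩
    · exact Polynomial.coeff_eq_zero_of_natDegree_lt (by omega)
  obtain ⟨v0, hv0⟩ : ∃ v0 : Fin n → ℂ, (Polynomial.aeval M q) *ᵥ v0 ≠ 0 := by
    by_contra hcon
    push Not at hcon
    apply hqF
    apply Matrix.ext_of_mulVec_single
    intro j
    rw [hcon, Matrix.zero_mulVec]
  refine ⟨_, hv0, ?_⟩
  have h1 : (M - Matrix.scalar (Fin n) ((φ c : ℝ) : ℂ)) * Polynomial.aeval M q = 0 := by
    rw [← hgF, hq, map_mul, map_sub, Polynomial.aeval_X, Polynomial.aeval_C,
      Matrix.algebraMap_eq_diagonal]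
    rfl
  have h2 := congrArg (fun X => X *ᵥ v0) h1
  simp only [Matrix.zero_mulVec] at h2
  rw [← Matrix.mulVec_mulVec, Matrix.sub_mulVec, sub_eq_zero] at h2
  rw [← hM, h2, Matrix.scalar_apply]
  ext j
  rw [Matrix.mulVec_diagonal, Pi.smul_apply, smul_eq_mul]

/-- A positive symmetric element is positive at the real embeddings of symmetric subfields. -/
theorem pos_of_posDef (hS : Setting k K D d s) {n : ℕ} (hn : 0 < n) (R : RData K D n)
    (hA : R.A.PosDef) {F : Type} [Field F] [NumberField F] [Algebra k F] (ι : F →ₐ[k] D)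
    (sym : ∀ x, star (ι x) = ι x) (φ : F →+* ℝ)
    (hφ : ∀ x : k, R.s (algebraMap k K x) = ((φ (algebraMap k F x) : ℝ) : ℂ)) {c : F}
    (hc : (R.f (ι c) * R.A).PosDef) : 0 < φ c := by
  obtain ⟨v, hv0, hv⟩ := exists_eigen_sym hS hn R ι sym φ hφ c
  obtain ⟨Q, hQ⟩ := R.unit
  obtain ⟨w, hw⟩ : ∃ w, w = ((Q⁻¹ : (Matrix (Fin n) (Fin n) ℂ)ˣ) : Matrix (Fin n) (Fin n) ℂ) *ᵥ v :=
    ⟨_, rfl⟩
  have hAw : R.A *ᵥ w = v := by
    rw [hw, ← hQ, Matrix.mulVec_mulVec, Units.mul_inv, Matrix.one_mulVec]
  have hw0 : w ≠ 0 := by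
    intro h0
    rw [h0, Matrix.mulVec_zero] at hAw
    exact hv0 hAw.symm
  have h1 := (Complex.lt_def.mp (hc.dotProduct_mulVec_pos hw0)).1
  have h2 := (Complex.lt_def.mp (hA.dotProduct_mulVec_pos hw0)).1
  rw [← Matrix.mulVec_mulVec, hAw, hv, dotProduct_smul, smul_eq_mul, Complex.re_ofReal_mul,
    Complex.zero_re] at h1
  rw [hAw, Complex.zero_re] at h2
  exact pos_of_mul_pos_of_pos_right' h1 h2
where
  pos_of_mul_pos_of_pos_right' {a b : ℝ} (h : 0 < a * b) (hb : 0 < b) : 0 < a := by
    by_contra hcon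
    rw [not_lt] at hcon
    nlinarith

/-- The data at the real places of the fixed field. -/
theorem exists_place (hS : Setting k K D d s) {n : ℕ} {ι' : Type} {R : ι' → RData K D n}
    (hR : Complete R) {F : Type} [Field F] [Algebra k F] (φ : F →+* ℝ)
    (hφ : φ (algebraMap k F d) < 0) :
    ∃ i, ∀ x : k, (R i).s (algebraMap k K x) = ((φ (algebraMap k F x) : ℝ) : ℂ) := by
  have hchar : CharZero K := charZero_of_injective_algebraMap (algebraMap k K).injective
  have hfinK : FiniteDimensional k K := Module.finite_of_finrank_pos (by rw [hS.rank]; norm_num)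
  obtain ⟨ψ, hψ1, hψ2⟩ := exists_psi (quadL hS) (φ := φ.comp (algebraMap k F)) hφ
  obtain ⟨i, hi⟩ := hR ψ hψ2
  refine ⟨i, fun x => ?_⟩
  rcases hi with h | h
  · rw [h, hψ1]
    rfl
  · rw [h, hψ1]
    change star (((φ (algebraMap k F x) : ℝ) : ℂ)) = _
    exact Complex.conj_ofReal _

end Vale.Agent.P011.Three
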