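import Vale.Agent.P011.Bdl.B2

/-!
The classes of quasi-reflections of an anisotropic hermitian form in an abelian quotient of the
isometry group, as a function of the Wall parameter.
-/

namespace Vale.Agent.P011.Three

open Vale.Agent.P011S

variable {D V A : Type*} [DivisionRing D] [StarRing D] [AddCommGroup V] [Module D V]
  [CommGroup A] {H : AForm D V}

/-- Change of the vector of a quasi-reflection by a scalar. -/
theorem qr_smul {c : D} (hc : c ≠ 0) (y : V) (s : D) (hs : s + star s = H.h y y)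
    (hs' : c * s * star c + star (c * s * star c) = H.h (c • y) (c • y)) :
    H.qr (c • y) (c * s * star c) hs' = H.qr y s hs := by
  ext v
  have hc' : star c ≠ 0 := star_ne_zero.mpr hc
  rw [H.qr_apply, H.qr_apply, H.smul_right, smul_smul]
  congr 2
  rw [mul_inv_rev, mul_inv_rev, mul_assoc (H.h v y), mul_inv_cancel_left₀ hc',
    mul_assoc (H.h v y), mul_assoc, inv_mul_cancel₀ hc, mul_one]

theorem smul_cond {c : D} {y : V} {s : D} (hs : s + star s = H.h y y) :
    c * s * star c + star (c * s * star c) = H.h (c • y) (c • y) := by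
  rw [H.smul_left, H.smul_right, ← hs, star_mul, star_mul, star_star]
  noncomm_ring

/-- The inverse of a quasi-reflection. -/
theorem qr_star (y : V) (s : D) (hs : s + star s = H.h y y)
    (hs' : star s + star (star s) = H.h y y) : H.qr y (star s) hs' = (H.qr y s hs)⁻¹ := by
  ext v
  rfl

/-- The vector orthogonal to the sum in the sense of the Wall form. -/
theorem cpl_cond {y₁ y₂ : V} {z₁ z₂ t : D} (h₁ : z₁ + star z₁ = H.h y₁ y₁)
    (h₂ : z₂ + star z₂ = H.h y₂ y₂) (ht : t = z₁ + H.h y₁ y₂ + z₂) (ht0 : t ≠ 0) :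
    z₂ * t⁻¹ * z₁ + star (z₂ * t⁻¹ * z₁) =
      H.h (y₂ - (z₂ * t⁻¹) • (y₁ + y₂)) (y₂ - (z₂ * t⁻¹) • (y₁ + y₂)) := by
  have hb : H.h y₁ y₂ = t - z₁ - z₂ := by rw [ht]; abel
  have hb' : H.h y₂ y₁ = star t - star z₁ - star z₂ := by
    rw [← H.star_h, hb, star_sub, star_sub]
  have hts : star t ≠ 0 := star_ne_zero.mpr ht0
  simp only [H.sub_left, H.sub_right, H.smul_left, H.smul_right, H.add_left, H.add_right,
    ← h₁, ← h₂, hb, hb', star_mul, star_inv₀]
  obtain ⟨u, hu⟩ : ∃ u, u = t⁻¹ := ⟨_, rfl⟩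
  obtain ⟨u', hu'⟩ : ∃ u', u' = (star t)⁻¹ := ⟨_, rfl⟩
  have e1 : u * t = 1 := by rw [hu, inv_mul_cancel₀ ht0]
  have e2 : star t * u' = 1 := by rw [hu', mul_inv_cancel₀ hts]
  rw [← hu, ← hu']
  have e3 : z₂ * u * t = z₂ := by rw [mul_assoc, e1, mul_one]
  have e4 : star t * (u' * star z₂) = star z₂ := by rw [← mul_assoc, e2, one_mul]
  obtain ⟨P, hP⟩ : ∃ P, P = z₂ * u := ⟨_, rfl⟩
  obtain ⟨Q, hQ⟩ : ∃ Q, Q = u' * star z₂ := ⟨_, rfl⟩
  rw [← hP, ← hQ]
  rw [← hP] at e3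
  rw [← hQ] at e4
  have e5 : star z₁ * (u' * star z₂) = star z₁ * Q := by rw [hQ]
  have e6 : z₂ + star z₂ + (star t - star z₁ - star z₂) = z₂ + star t - star z₁ := by abel
  calc P * z₁ + star z₁ * Q
      = z₂ + star z₂ - (z₂ + star t - star z₁) * Q - P * (z₂ + star z₂ + (t - z₁ - z₂))
        + P * (t + star t) * Q + (z₂ * Q + star t * Q - P * star t * Q - P * t * Q - z₂)
        + (P * t + P * star z₂ - star z₂) := by noncomm_ring
    _ = z₂ + star z₂ - (z₂ + star t - star z₁) * Q - P * (z₂ + star z₂ + (t - z₁ - z₂))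
        + P * (t + star t) * Q := by
        rw [mul_assoc P (star t) Q, e4, e3]
        abel
    _ = _ := by noncomm_ring

/-- The product of two quasi-reflections, with another flag of the Wall form. -/
theorem qr_mul_qr {y₁ y₂ : V} {z₁ z₂ t : D} (h₁ : z₁ + star z₁ = H.h y₁ y₁)
    (h₂ : z₂ + star z₂ = H.h y₂ y₂) (ht : t = z₁ + H.h y₁ y₂ + z₂) (hz₁ : z₁ ≠ 0) (hz₂ : z₂ ≠ 0)
    (ht0 : t ≠ 0) (hs : t + star t = H.h (y₁ + y₂) (y₁ + y₂)) :
    H.qr y₂ z₂ h₂ * H.qr y₁ z₁ h₁ =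
      H.qr (y₂ - (z₂ * t⁻¹) • (y₁ + y₂)) (z₂ * t⁻¹ * z₁) (cpl_cond h₁ h₂ ht ht0) *
        H.qr (y₁ + y₂) t hs := by
  ext v
  have hb : H.h y₁ y₂ = t - z₁ - z₂ := by rw [ht]; abel
  have hts : star t ≠ 0 := star_ne_zero.mpr ht0
  obtain ⟨α, hα⟩ : ∃ α, α = H.h v y₁ := ⟨_, rfl⟩
  obtain ⟨β, hβ⟩ : ∃ β, β = H.h v y₂ := ⟨_, rfl⟩
  obtain ⟨u, hu⟩ : ∃ u, u = t⁻¹ := ⟨_, rfl⟩
  obtain ⟨p, hp⟩ : ∃ p, p = z₁⁻¹ := ⟨_, rfl⟩
  obtain ⟨q, hq⟩ : ∃ q, q = z₂⁻¹ := ⟨_, rfl⟩
  have e1 : u * t = 1 := by rw [hu, inv_mul_cancel₀ ht0]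
  have e1' : t * u = 1 := by rw [hu, mul_inv_cancel₀ ht0]
  have e2 : p * z₁ = 1 := by rw [hp, inv_mul_cancel₀ hz₁]
  have e2' : z₁ * p = 1 := by rw [hp, mul_inv_cancel₀ hz₁]
  have e3 : q * z₂ = 1 := by rw [hq, inv_mul_cancel₀ hz₂]
  have e3' : z₂ * q = 1 := by rw [hq, mul_inv_cancel₀ hz₂]
  -- the first product
  have l1 : (H.qr y₂ z₂ h₂ * H.qr y₁ z₁ h₁) v =
      v - (α * p) • y₁ - ((β - α * p * (t - z₁ - z₂)) * q) • y₂ := by
    rw [LinearEquiv.mul_apply, H.qr_apply, H.qr_apply, H.sub_left, H.smul_left, hb, ← hα, ← hβ,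
      ← hp, ← hq]
  -- the second product
  obtain ⟨w', hw'⟩ : ∃ w', w' = y₂ - (z₂ * u) • (y₁ + y₂) := ⟨_, rfl⟩
  have f1 : H.h v (y₁ + y₂) = α + β := by rw [H.add_right, hα, hβ]
  have f2 : H.h v w' = β - (α + β) * star (z₂ * u) := by
    rw [hw', H.sub_right, H.smul_right, f1, hβ]
  have f3 : H.h (y₁ + y₂) w' = t - z₁ + star z₂ - (t + star t) * star (z₂ * u) := by
    rw [hw', H.sub_right, H.smul_right, ← hs, H.add_left, hb, ← h₂]
    congr 1
    abel
  have f4 : star t * star (z₂ * u) = star z₂ := by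
    rw [← star_mul, mul_assoc, e1, mul_one]
  have f5 : H.h (v - ((α + β) * u) • (y₁ + y₂)) w' = -α + (α + β) * u * z₁ := by
    rw [H.sub_left, H.smul_left, f2, f3]
    calc β - (α + β) * star (z₂ * u) -
          (α + β) * u * (t - z₁ + star z₂ - (t + star t) * star (z₂ * u))
        = β - (α + β) * star (z₂ * u) - (α + β) * (u * t) + (α + β) * u * z₁
          - (α + β) * u * star z₂ + (α + β) * (u * t) * star (z₂ * u)
          + (α + β) * u * (star t * star (z₂ * u)) := by noncomm_ring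
      _ = _ := by rw [e1, f4]; noncomm_ring
  have f6 : (z₂ * t⁻¹ * z₁)⁻¹ = p * t * q := by
    rw [mul_inv_rev, mul_inv_rev, inv_inv, hp, hq, mul_assoc]
  have l2 : (H.qr (y₂ - (z₂ * t⁻¹) • (y₁ + y₂)) (z₂ * t⁻¹ * z₁) (cpl_cond h₁ h₂ ht ht0) *
        H.qr (y₁ + y₂) t hs) v =
      v - ((α + β) * u) • (y₁ + y₂) - ((-α + (α + β) * u * z₁) * (p * t * q)) • w' := by
    rw [LinearEquiv.mul_apply, H.qr_apply, H.qr_apply, f1, f6, ← hu, ← hw', f5]
  rw [l1, l2]
  have g1 : (-α + (α + β) * u * z₁) * (p * t * q) = (α + β) * q - α * p * t * q := by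
    calc (-α + (α + β) * u * z₁) * (p * t * q)
        = -(α * p * t * q) + (α + β) * u * (z₁ * p) * t * q := by noncomm_ring
      _ = -(α * p * t * q) + (α + β) * (u * t) * q := by rw [e2']; noncomm_ring
      _ = _ := by rw [e1]; noncomm_ring
  have g2 : ((α + β) * q - α * p * t * q) * (z₂ * u) = (α + β) * u - α * p := by
    calc ((α + β) * q - α * p * t * q) * (z₂ * u)
        = (α + β) * (q * z₂) * u - α * p * t * (q * z₂) * u := by noncomm_ring
      _ = (α + β) * u - α * p * (t * u) := by rw [e3]; noncomm_ring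
      _ = _ := by rw [e1', mul_one]
  have g3 : (β - α * p * (t - z₁ - z₂)) * q = (β + α) * q - α * p * t * q + α * p := by
    calc (β - α * p * (t - z₁ - z₂)) * q
        = β * q - α * p * t * q + α * (p * z₁) * q + α * p * (z₂ * q) := by noncomm_ring
      _ = _ := by rw [e2, e3']; noncomm_ring
  rw [g1, g3, hw', smul_sub, smul_smul, g2, add_comm β α]
  simp only [smul_add, sub_smul, add_smul]
  abel

section psi

variable (H) (χ : H.isom →* A)

/-- The class of the quasi-reflections with the Wall parameter `z`. -/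
noncomputable def psi (z : D) : A := by
  classical
  exact if h : ∃ y : V, z + star z = H.h y y then
    χ ⟨H.qr h.choose z h.choose_spec, H.qr_mem _ _ _⟩ else 1

variable {H} {χ}

/-- The class does not depend on the vector. -/
theorem psi_eq {z : D} {y : V} (h : z + star z = H.h y y) :
    psi H χ z = χ ⟨H.qr y z h, H.qr_mem _ _ _⟩ := by
  have hex : ∃ y : V, z + star z = H.h y y := ⟨y, h⟩
  rw [psi, dif_pos hex]
  obtain ⟨g, hg, hgy, -⟩ := AForm.witt_one (H := H) (x := y) (x' := hex.choose)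
    (by rw [← h, ← hex.choose_spec])
  have h' : z + star z = H.h (g y) (g y) := by rw [H.isom_apply hg, h]
  have e1 := H.qr_conj hg y z h h'
  have e2 : (⟨H.qr (g y) z h', H.qr_mem _ _ _⟩ : H.isom) =
      ⟨g, hg⟩ * ⟨H.qr y z h, H.qr_mem _ _ _⟩ * (⟨g, hg⟩ : H.isom)⁻¹ :=
    Subtype.ext e1.symm
  have e3 : (⟨H.qr hex.choose z hex.choose_spec, H.qr_mem _ _ _⟩ : H.isom) =
      ⟨H.qr (g y) z h', H.qr_mem _ _ _⟩ := by
    apply Subtype.ext
    simp only [hgy]
  rw [e3, e2, map_mul, map_mul, map_inv, mul_comm (χ ⟨g, hg⟩), mul_inv_cancel_right]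

/-- The class of the adjoint parameter. -/
theorem psi_star {z : D} {y : V} (h : z + star z = H.h y y) :
    psi H χ (star z) = (psi H χ z)⁻¹ := by
  have h' : star z + star (star z) = H.h y y := by rw [star_star, add_comm, h]
  rw [psi_eq h, psi_eq h', ← map_inv]
  congr 1
  exact Subtype.ext (qr_star y z h h')

/-- The class of a congruent parameter. -/
theorem psi_conj {c z : D} (hc : c ≠ 0) {y : V} (h : z + star z = H.h y y) :
    psi H χ (c * z * star c) = psi H χ z := by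
  rw [psi_eq h, psi_eq (smul_cond h)]
  congr 1
  exact Subtype.ext (qr_smul hc y z h (smul_cond h))

/-- The class of the inverse parameter. -/
theorem psi_inv {z : D} (hz : z ≠ 0) {y : V} (h : z + star z = H.h y y) :
    psi H χ z⁻¹ = (psi H χ z)⁻¹ := by
  have h' : star z + star (star z) = H.h y y := by rw [star_star, add_comm, h]
  rw [← psi_star h, ← psi_conj (inv_ne_zero hz) h', star_inv₀,
    mul_assoc, mul_inv_cancel₀ (star_ne_zero.mpr hz), mul_one]

/-- The class of a parameter on a fixed line is multiplicative. -/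
theorem psi_line {y : V} {z z' w : D} (h : z + star z = H.h y y) (h' : z' + star z' = H.h y y)
    (hw : w + star w = H.h y y)
    (e : z⁻¹ + z'⁻¹ - z'⁻¹ * H.h y y * z⁻¹ = w⁻¹) :
    psi H χ z * psi H χ z' = psi H χ w := by
  rw [psi_eq h, psi_eq h', psi_eq hw, ← map_mul]
  congr 1
  apply Subtype.ext
  change H.qr y z h * H.qr y z' h' = H.qr y w hw
  ext v
  rw [LinearEquiv.mul_apply, H.qr_apply, H.qr_apply, H.qr_apply, H.sub_left, H.smul_left,
    sub_sub, ← add_smul, ← e]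
  congr 2
  noncomm_ring

/-- **The block relation.** -/
theorem psi_block {y₁ y₂ : V} {z₁ z₂ t : D} (h₁ : z₁ + star z₁ = H.h y₁ y₁)
    (h₂ : z₂ + star z₂ = H.h y₂ y₂) (ht : t = z₁ + H.h y₁ y₂ + z₂) (hz₁ : z₁ ≠ 0) (hz₂ : z₂ ≠ 0)
    (ht0 : t ≠ 0) : psi H χ z₁ * psi H χ z₂ = psi H χ t * psi H χ (z₂ * t⁻¹ * z₁) := by
  have hs : t + star t = H.h (y₁ + y₂) (y₁ + y₂) := by
    rw [H.add_left, H.add_right, H.add_right, ← h₁, ← h₂, ht, ← H.star_h y₁ y₂, star_add,
      star_add]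
    abel
  rw [psi_eq h₁, psi_eq h₂, psi_eq hs, psi_eq (cpl_cond h₁ h₂ ht ht0), mul_comm, ← map_mul,
    mul_comm (χ ⟨H.qr (y₁ + y₂) t hs, _⟩), ← map_mul]
  congr 1
  exact Subtype.ext (qr_mul_qr h₁ h₂ ht hz₁ hz₂ ht0 hs)

/-- **The relation (A).** The class of a pair of vectors `y`, `w` of lengths `z + star z` and
`z * r + star (z * r)`. -/
theorem psi_rel {y w : V} {z r z₂ : D} (hy : z + star z = H.h y y)
    (hw : z * r + star (z * r) = H.h w w) (he : H.h y w = star z + z * r - z₂)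
    (hz : z ≠ 0) (hr : r ≠ 0) (hz₂ : z₂ ≠ 0) :
    psi H χ z * psi H χ z₂ = psi H χ (z * r) * psi H χ (star r * z₂) := by
  have hb : H.h y (w - y) = z * r - z - z₂ := by
    rw [H.sub_right, he, ← hy]
    abel
  have hb' : H.h (w - y) y = star r * star z - star z - star z₂ := by
    rw [← H.star_h, hb, star_sub, star_sub, star_mul]
  have h₂ : z₂ + star z₂ = H.h (w - y) (w - y) := by
    have h3 : H.h (w - y) w = H.h (w - y) y + H.h (w - y) (w - y) := by
      rw [H.sub_right]; abel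
    have h4 : H.h (w - y) w = H.h w w - H.h y w := H.sub_left w y w
    have h5 : H.h (w - y) (w - y) = H.h w w - H.h y w - H.h (w - y) y := by
      rw [← h4, h3]; abel
    rw [h5, hb', he, ← hw, star_mul]
    abel
  have hzr : z * r ≠ 0 := mul_ne_zero hz hr
  have h6 := psi_block (χ := χ) (t := z * r) hy h₂ (by rw [hb]; abel) hz hz₂ hzr
  rw [h6]
  congr 1
  have h7 := cpl_cond (t := z * r) hy h₂ (by rw [hb]; abel) hzr
  have e1 : z₂ * (z * r)⁻¹ * z = z₂ * r⁻¹ := by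
    rw [mul_inv_rev, mul_assoc, mul_assoc, inv_mul_cancel₀ hz, mul_one]
  rw [e1] at h7 ⊢
  rw [← psi_conj (star_ne_zero.mpr hr) h7, star_star, mul_assoc, mul_assoc, inv_mul_cancel₀ hr,
    mul_one]

end psi

end Vale.Agent.P011.Three
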