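import Vale.Agent.P011.Three.Sig
import Vale.Agent.P011.Three.Psi
import Vale.Agent.P011.Two.HigherB

/-!
The values of a character of the isometry group at the quasi-reflections.
-/

open Module Matrix
open scoped ComplexOrder

set_option linter.unusedSectionVars false

namespace Vale.Agent.P011.Three

open Vale.Agent.P011S Vale.Agent.P011.RP

/-- The elements whose hermitian part is positive at all real places. -/
def InX {K D : Type} [Field K] [StarRing K] [DivisionRing D] [StarRing D] [Algebra K D] {n : ℕ}
    {ι : Type} (R : ι → RData K D n) (z : D) : Prop :=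
  ∀ i, ((R i).f (z + star z) * (R i).A).PosDef

section psi

variable {D V : Type} [DivisionRing D] [StarRing D] [AddCommGroup V] [Module D V]
  {H : AForm D V} {A : Type} [CommGroup A] (χ : H.isom →* A)

theorem psi_of_not {z : D} (h : ¬ ∃ y : V, z + star z = H.h y y) : psi H χ z = 1 := by
  rw [psi, dif_neg h]

theorem psi_conj' (z : D) {c : D} (hc : c ≠ 0) : psi H χ (c * z * star c) = psi H χ z := by
  have hc' : star c ≠ 0 := star_ne_zero.mpr hc
  have e : ∀ c z : D, c * z * star c + star (c * z * star c) = c * (z + star z) * star c := by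
    intro c z
    rw [star_mul, star_mul, star_star]
    noncomm_ring
  by_cases h : ∃ y : V, z + star z = H.h y y
  · obtain ⟨y, hy⟩ := h
    have hy' : c * z * star c + star (c * z * star c) = H.h (c • y) (c • y) := by
      rw [e, hy, H.smul_left, H.smul_right, mul_assoc]
    rw [psi_eq hy, psi_eq hy']
    congr 1
    apply Subtype.ext
    ext v
    rw [H.qr_apply, H.qr_apply, H.smul_right, smul_smul]
    congr 2
    rw [_root_.mul_inv_rev, _root_.mul_inv_rev]
    calc H.h v y * star c * ((star c)⁻¹ * (z⁻¹ * c⁻¹)) * c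
        = H.h v y * (star c * (star c)⁻¹) * z⁻¹ * (c⁻¹ * c) := by simp only [mul_assoc]
      _ = _ := by rw [mul_inv_cancel₀ hc', inv_mul_cancel₀ hc, mul_one, mul_one]
  · rw [psi_of_not χ h, psi_of_not]
    rintro ⟨y, hy⟩
    apply h
    refine ⟨c⁻¹ • y, ?_⟩
    rw [H.smul_left, H.smul_right, ← hy, e]
    rw [star_inv₀]
    calc z + star z = (c⁻¹ * c) * (z + star z) * (star c * (star c)⁻¹) := by
          rw [mul_inv_cancel₀ hc', inv_mul_cancel₀ hc, mul_one, one_mul]
      _ = _ := by simp only [mul_assoc]

theorem psi_star' (z : D) : psi H χ (star z) = (psi H χ z)⁻¹ := by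
  by_cases h : ∃ y : V, z + star z = H.h y y
  · obtain ⟨y, hy⟩ := h
    have hy' : star z + star (star z) = H.h y y := by rw [star_star, add_comm, hy]
    rw [psi_eq hy, psi_eq hy', ← map_inv]
    congr 1
    apply Subtype.ext
    apply LinearEquiv.ext
    intro v
    rfl
  · rw [psi_of_not χ h, psi_of_not, inv_one]
    rintro ⟨y, hy⟩
    apply h
    exact ⟨y, by rw [← hy, star_star, add_comm]⟩

theorem psi_inv' (z : D) : psi H χ z⁻¹ = (psi H χ z)⁻¹ := by
  by_cases hz : z = 0
  · subst hz
    rw [_root_.inv_zero, eq_inv_iff_mul_eq_one]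
    have h0 : (0 : D) + star 0 = H.h (0 : V) 0 := by simp
    rw [psi_eq h0, ← map_mul]
    have : (⟨H.qr 0 0 h0, H.qr_mem _ _ _⟩ : H.isom) = 1 := by
      apply Subtype.ext
      ext v
      rw [H.qr_apply]
      simp
    rw [this, mul_one, map_one]
  · rw [← psi_conj' χ z⁻¹ hz, mul_inv_cancel₀ hz, one_mul, psi_star']

/-- Symmetric parameters. -/
theorem psi_sq' {z : D} (hz : star z = z) : psi H χ z * psi H χ z = 1 := by
  have h := psi_star' χ z
  rw [hz] at h
  nth_rewrite 1 [h]
  rw [inv_mul_cancel]

end psi

section line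

variable {D V : Type} [DivisionRing D] [StarRing D] [AddCommGroup V] [Module D V]
  {H : AForm D V}

/-- The isometry which multiplies a vector of length one by `t`. -/
def lin (H : AForm D V) (e : V) (he : H.h e e = 1) (t r : D) (htr : t * r = 1) (hrt : r * t = 1) :
    V ≃ₗ[D] V where
  toFun v := v + (H.h v e * (t - 1)) • e
  invFun v := v + (H.h v e * (r - 1)) • e
  map_add' v w := by rw [H.add_left, add_mul, add_smul]; abel
  map_smul' c v := by
    simp only [RingHom.id_apply]
    rw [H.smul_left, smul_add, smul_smul, mul_assoc]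
  left_inv v := by
    change v + (H.h v e * (t - 1)) • e + (H.h (v + (H.h v e * (t - 1)) • e) e * (r - 1)) • e = v
    rw [H.add_left, H.smul_left, he, add_assoc, ← add_smul]
    have : H.h v e * (t - 1) + (H.h v e + H.h v e * (t - 1) * 1) * (r - 1) = 0 := by
      calc _ = H.h v e * (t * r - 1) := by noncomm_ring
        _ = 0 := by rw [htr, sub_self, mul_zero]
    rw [this, zero_smul, add_zero]
  right_inv v := by
    change v + (H.h v e * (r - 1)) • e + (H.h (v + (H.h v e * (r - 1)) • e) e * (t - 1)) • e = v
    rw [H.add_left, H.smul_left, he, add_assoc, ← add_smul]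
    have : H.h v e * (r - 1) + (H.h v e + H.h v e * (r - 1) * 1) * (t - 1) = 0 := by
      calc _ = H.h v e * (r * t - 1) := by noncomm_ring
        _ = 0 := by rw [hrt, sub_self, mul_zero]
    rw [this, zero_smul, add_zero]

theorem lin_apply (e : V) (he : H.h e e = 1) (t r : D) (htr : t * r = 1) (hrt : r * t = 1)
    (v : V) : lin H e he t r htr hrt v = v + (H.h v e * (t - 1)) • e := rfl

theorem lin_self (e : V) (he : H.h e e = 1) (t r : D) (htr : t * r = 1) (hrt : r * t = 1) :
    lin H e he t r htr hrt e = t • e := by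
  rw [lin_apply, he, one_mul, sub_smul, one_smul]
  abel

theorem lin_orth (e : V) (he : H.h e e = 1) (t r : D) (htr : t * r = 1) (hrt : r * t = 1) {v : V}
    (hv : H.h v e = 0) : lin H e he t r htr hrt v = v := by
  rw [lin_apply, hv, zero_mul, zero_smul, add_zero]

theorem star_mul_of {t : D} (ht : t * star t = 1) : star t * t = 1 := by
  have h0 : t ≠ 0 := by
    rintro rfl
    rw [zero_mul] at ht
    exact zero_ne_one ht
  have h1 : star t = t⁻¹ := eq_inv_of_mul_eq_one_right ht
  rw [h1, inv_mul_cancel₀ h0]

theorem lin_mem (e : V) (he : H.h e e = 1) {t : D} (ht : t * star t = 1) :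
    lin H e he t (star t) ht (star_mul_of ht) ∈ H.isom := by
  intro v w
  rw [lin_apply, lin_apply, H.add_left, H.add_right, H.add_right, H.smul_left, H.smul_left,
    H.smul_right, H.smul_right, he, star_mul, H.star_h, star_sub, star_one]
  have e1 : H.h v w + H.h v e * ((star t - 1) * H.h e w) +
      (H.h v e * (t - 1) * H.h e w + H.h v e * (t - 1) * (1 * ((star t - 1) * H.h e w))) =
      H.h v w + H.h v e * (t * star t - 1) * H.h e w := by noncomm_ring
  rw [e1, ht, sub_self, mul_zero, zero_mul, add_zero]

variable {A : Type} [CommGroup A] (χ : H.isom →* A)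

/-- The value of the character at the isometry which multiplies `e` by `t`. -/
noncomputable def chi1 (e : V) (he : H.h e e = 1) (t : D) : A := by
  classical
  exact if ht : t * star t = 1 then χ ⟨lin H e he t (star t) ht (star_mul_of ht), lin_mem e he ht⟩
    else 1

theorem chi1_eq (e : V) (he : H.h e e = 1) {t : D} (ht : t * star t = 1) :
    chi1 χ e he t = χ ⟨lin H e he t (star t) ht (star_mul_of ht), lin_mem e he ht⟩ := by
  rw [chi1, dif_pos ht]

theorem chi1_mul (e : V) (he : H.h e e = 1) {t r : D} (ht : t * star t = 1)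
    (hr : r * star r = 1) : chi1 χ e he (t * r) = chi1 χ e he t * chi1 χ e he r := by
  have htr : (t * r) * star (t * r) = 1 := by
    rw [star_mul]
    calc t * r * (star r * star t) = t * (r * star r) * star t := by simp only [mul_assoc]
      _ = 1 := by rw [hr, mul_one, ht]
  rw [chi1_eq χ e he ht, chi1_eq χ e he hr, chi1_eq χ e he htr, mul_comm, ← map_mul]
  congr 1
  apply Subtype.ext
  ext v
  change v + (H.h v e * (t * r - 1)) • e = (v + (H.h v e * (t - 1)) • e) +
    (H.h (v + (H.h v e * (t - 1)) • e) e * (r - 1)) • e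
  rw [H.add_left, H.smul_left, he, add_assoc, ← add_smul]
  congr 2
  noncomm_ring

theorem chi1_one (e : V) (he : H.h e e = 1) : chi1 χ e he 1 = 1 := by
  have h1 : (1 : D) * star (1 : D) = 1 := by rw [star_one, one_mul]
  have h := chi1_mul χ e he h1 h1
  rw [mul_one] at h
  exact left_eq_mul.mp h

/-- The quasi-reflections along a vector of length one. -/
theorem psi_lin (e : V) (he : H.h e e = 1) {t : D} (ht : t * star t = 1) (ht1 : 1 + t ≠ 0) :
    psi H χ (1 + t)⁻¹ = chi1 χ e he (-t) := by
  have hs : 1 + star t ≠ 0 := by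
    intro h
    apply ht1
    have := congrArg star h
    rwa [star_add, star_one, star_star, star_zero] at this
  have hz : (1 + t)⁻¹ + star (1 + t)⁻¹ = H.h e e := by
    rw [he, star_inv₀, star_add, star_one]
    apply mul_left_cancel₀ ht1
    apply mul_right_cancel₀ hs
    have e1 : (1 + t) * ((1 + t)⁻¹ + (1 + star t)⁻¹) * (1 + star t) =
        (1 + t) * (1 + t)⁻¹ * (1 + star t) + (1 + t) * ((1 + star t)⁻¹ * (1 + star t)) := by
      noncomm_ring
    rw [e1, mul_inv_cancel₀ ht1, inv_mul_cancel₀ hs, mul_one, one_mul]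
    calc 1 + star t + (1 + t) = 1 + t + star t + 1 := by abel
      _ = 1 + t + star t + t * star t := by rw [ht]
      _ = _ := by noncomm_ring
  have hn : (-t) * star (-t) = 1 := by rw [star_neg, neg_mul_neg, ht]
  rw [psi_eq hz, chi1_eq χ e he hn]
  congr 1
  apply Subtype.ext
  ext v
  rw [H.qr_apply, inv_inv]
  change v - (H.h v e * (1 + t)) • e = v + (H.h v e * (-t - 1)) • e
  rw [sub_eq_add_neg, ← neg_smul]
  congr 2
  noncomm_ring

end line

end Vale.Agent.P011.Three
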