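import Vale.Agent.P011.Three.Psi
import Vale.Agent.P011.RP.Choice

/-!
The quotient of the classes of `z * r` and `z` does not depend on `z`, as long as `z` and `z * r`
are positive at the real places.
-/

open Module Matrix
open scoped ComplexOrder

set_option linter.unusedSectionVars false

namespace Vale.Agent.P011.Three

open Vale.Agent.P011S Vale.Agent.P011.RP

/-- A function on the rational points of the unit interval which is constant near each real point
is constant. -/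
theorem const_of_local {A : Type*} (g : ℚ → A)
    (h : ∀ s₀ : ℝ, 0 ≤ s₀ → s₀ ≤ 1 → ∃ η : ℝ, 0 < η ∧ ∀ s s' : ℚ, 0 ≤ s → s ≤ 1 → 0 ≤ s' →
      s' ≤ 1 → |(s : ℝ) - s₀| < η → |(s' : ℝ) - s₀| < η → g s = g s') : g 0 = g 1 := by
  choose! η hη hg using h
  obtain ⟨δ, hδ, H⟩ := lebesgue_number_lemma_of_metric (s := Set.Icc (0 : ℝ) 1)
    (c := fun s₀ : Set.Icc (0 : ℝ) 1 => Metric.ball (s₀ : ℝ) (η s₀)) isCompact_Icc
    (fun _ => Metric.isOpen_ball) (fun x hx => Set.mem_iUnion.mpr ⟨⟨x, hx⟩,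
      Metric.mem_ball_self (hη x hx.1 hx.2)⟩)
  obtain ⟨N, hN⟩ := exists_nat_gt (1 / δ)
  have hN0 : (0 : ℝ) < N := lt_trans (by positivity) hN
  have hN1 : (N : ℚ) ≠ 0 := by
    intro h0
    have : (N : ℝ) = 0 := by exact_mod_cast h0
    linarith
  have hN2 : (0 : ℚ) < N := lt_of_le_of_ne (Nat.cast_nonneg N) (Ne.symm hN1)
  have key : ∀ j : ℕ, j ≤ N → g 0 = g ((j : ℚ) / N) := by
    intro j
    induction j with
    | zero => intro _; simp
    | succ j ih =>
      intro hj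
      rw [ih (by omega)]
      have hjN : ((j : ℚ) + 1) ≤ N := by exact_mod_cast hj
      have h1 : (0 : ℚ) ≤ (j : ℚ) / N := by positivity
      have h2 : (j : ℚ) / N ≤ 1 := by
        rw [div_le_one hN2]; linarith
      have h3 : (0 : ℚ) ≤ ((j + 1 : ℕ) : ℚ) / N := by positivity
      have h4 : ((j + 1 : ℕ) : ℚ) / N ≤ 1 := by
        rw [div_le_one hN2]; push_cast; linarith
      obtain ⟨s₀, hs₀⟩ := H (((j : ℚ) / N : ℚ) : ℝ) ⟨by exact_mod_cast h1, by exact_mod_cast h2⟩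
      have h5 := hs₀ (Metric.mem_ball_self hδ)
      have h6 : ((((j + 1 : ℕ) : ℚ) / N : ℚ) : ℝ) ∈ Metric.ball (((j : ℚ) / N : ℚ) : ℝ) δ := by
        rw [Metric.mem_ball, Real.dist_eq]
        push_cast
        rw [add_div, add_sub_cancel_left, abs_of_pos (by positivity)]
        rw [div_lt_iff₀ hN0]
        rw [div_lt_iff₀ hδ] at hN
        linarith
      have h7 := hs₀ h6
      rw [Metric.mem_ball, Real.dist_eq] at h5 h7
      exact hg s₀ s₀.2.1 s₀.2.2 _ _ h1 h2 h3 h4 h5 h7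
  have := key N le_rfl
  rwa [div_self hN1] at this

section matrix

variable {n : ℕ}

/-- The Schur complement in the variables of the segment. -/
noncomputable def Mf (A Z W S G : Matrix (Fin n) (Fin n) ℂ) (p : ℝ × ℝ × ℂ) :
    Matrix (Fin n) (Fin n) ℂ :=
  (((Z + (p.2.1 : ℂ) • W) * S) * A + A * ((Z + (p.2.1 : ℂ) • W) * S)ᴴ) -
    ((p.2.2 • (1 : Matrix (Fin n) (Fin n) ℂ) + ((p.2.1 - p.1 : ℝ) : ℂ) • G) * A)ᴴ *
      ((Z + (p.2.1 : ℂ) • W) * A + A * (Z + (p.2.1 : ℂ) • W)ᴴ)⁻¹ *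
      ((p.2.2 • (1 : Matrix (Fin n) (Fin n) ℂ) + ((p.2.1 - p.1 : ℝ) : ℂ) • G) * A)

theorem Mf_continuousAt (A Z W S G : Matrix (Fin n) (Fin n) ℂ) {s₀ : ℝ} {t : ℂ}
    (h : ((Z + (s₀ : ℂ) • W) * A + A * (Z + (s₀ : ℂ) • W)ᴴ).PosDef) :
    ContinuousAt (Mf A Z W S G) (s₀, s₀, t) := by
  have c1 : Continuous fun p : ℝ × ℝ × ℂ => Z + (p.2.1 : ℂ) • W := by fun_prop
  have c2 : Continuous fun p : ℝ × ℝ × ℂ =>
      (Z + (p.2.1 : ℂ) • W) * A + A * (Z + (p.2.1 : ℂ) • W)ᴴ :=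
    (c1.matrix_mul continuous_const).add (continuous_const.matrix_mul c1.matrix_conjTranspose)
  have c3 : Continuous fun p : ℝ × ℝ × ℂ =>
      ((Z + (p.2.1 : ℂ) • W) * S) * A + A * ((Z + (p.2.1 : ℂ) • W) * S)ᴴ :=
    ((c1.matrix_mul continuous_const).matrix_mul continuous_const).add
      (continuous_const.matrix_mul (c1.matrix_mul continuous_const).matrix_conjTranspose)
  have c4 : Continuous fun p : ℝ × ℝ × ℂ =>
      (p.2.2 • (1 : Matrix (Fin n) (Fin n) ℂ) + ((p.2.1 - p.1 : ℝ) : ℂ) • G) * A := by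
    apply Continuous.matrix_mul _ continuous_const
    fun_prop
  have c5 : ContinuousAt (fun p : ℝ × ℝ × ℂ =>
      ((Z + (p.2.1 : ℂ) • W) * A + A * (Z + (p.2.1 : ℂ) • W)ᴴ)⁻¹) (s₀, s₀, t) := by
    refine ContinuousAt.comp (g := Inv.inv) (f := fun p : ℝ × ℝ × ℂ =>
      (Z + (p.2.1 : ℂ) • W) * A + A * (Z + (p.2.1 : ℂ) • W)ᴴ) ?_ c2.continuousAt
    apply continuousAt_matrix_inv
    rw [Ring.inverse_eq_inv']
    apply continuousAt_inv₀
    exact h.det_pos.ne'
  exact c3.continuousAt.sub (((c4.matrix_conjTranspose.continuousAt).mul c5).mul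
    c4.continuousAt)

theorem near_gen {F : ℝ × ℝ × ℂ → Matrix (Fin n) (Fin n) ℂ} {s₀ : ℝ} {t : ℂ}
    (h : ContinuousAt F (s₀, s₀, t)) {ε : ℝ} (hε : 0 < ε) :
    ∃ η : ℝ, 0 < η ∧ ∀ (s s' : ℝ) (τ : ℂ), |s - s₀| < η → |s' - s₀| < η → ‖τ - t‖ < η →
      ∀ a b, ‖F (s, s', τ) a b - F (s₀, s₀, t) a b‖ < ε := by
  have h1 : ∀ᶠ p in nhds (s₀, s₀, t), ∀ a b, ‖F p a b - F (s₀, s₀, t) a b‖ < ε := by
    rw [Filter.eventually_all]
    intro a
    rw [Filter.eventually_all]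
    intro b
    have h2 : ContinuousAt (fun p => F p a b) (s₀, s₀, t) :=
      (continuous_apply_apply a b).continuousAt.comp h
    have h3 := Metric.continuousAt_iff'.mp h2 ε hε
    filter_upwards [h3] with p hp
    rwa [dist_eq_norm] at hp
  obtain ⟨η, hη, H⟩ := Metric.eventually_nhds_iff.mp h1
  refine ⟨η, hη, fun s s' τ hs hs' hτ => H ?_⟩
  rw [Prod.dist_eq, Prod.dist_eq, max_lt_iff, max_lt_iff]
  exact ⟨by rwa [Real.dist_eq], by rwa [Real.dist_eq], by rwa [dist_eq_norm]⟩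

/-- At a place with room for a definite plane. -/
theorem near_big {A Z W S G : Matrix (Fin n) (Fin n) ℂ} {s₀ : ℝ}
    (hα : ((Z + (s₀ : ℂ) • W) * A + A * (Z + (s₀ : ℂ) • W)ᴴ).PosDef)
    (hβ : (((Z + (s₀ : ℂ) • W) * S) * A + A * ((Z + (s₀ : ℂ) • W) * S)ᴴ).PosDef) :
    ∃ (t η : ℝ), 0 < η ∧ ∀ (s s' : ℝ) (τ : ℂ), |s - s₀| < η → |s' - s₀| < η → ‖τ - t‖ < η →
      (Mf A Z W S G (s, s', τ)).IsHermitian → (Mf A Z W S G (s, s', τ)).PosDef := by
  have e0 : Mf A Z W S G (s₀, s₀, ((0 : ℝ) : ℂ)) =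
      ((Z + (s₀ : ℂ) • W) * S) * A + A * ((Z + (s₀ : ℂ) • W) * S)ᴴ := by
    simp [Mf]
  rw [← e0] at hβ
  obtain ⟨ε, hε, H⟩ := posDef_near hβ
  obtain ⟨η, hη, H'⟩ := near_gen (Mf_continuousAt A Z W S G (t := ((0 : ℝ) : ℂ)) hα) hε
  exact ⟨0, η, hη, fun s s' τ hs hs' hτ hM => H _ hM (H' s s' τ hs hs' hτ)⟩

/-- At a place without room for a definite plane. -/
theorem near_small {A Z W S G : Matrix (Fin n) (Fin n) ℂ} (hA : A.PosDef) {s₀ : ℝ}
    (hα : ((Z + (s₀ : ℂ) • W) * A + A * (Z + (s₀ : ℂ) • W)ᴴ).PosDef) :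
    ∃ (t η : ℝ), 0 < η ∧ ∀ (s s' : ℝ) (τ : ℂ), |s - s₀| < η → |s' - s₀| < η → ‖τ - t‖ < η →
      (-(Mf A Z W S G (s, s', τ))).IsHermitian → (-(Mf A Z W S G (s, s', τ))).PosDef := by
  obtain ⟨α, hαd⟩ : ∃ α, α = (Z + (s₀ : ℂ) • W) * A + A * (Z + (s₀ : ℂ) • W)ᴴ := ⟨_, rfl⟩
  obtain ⟨β, hβd⟩ : ∃ β, β = ((Z + (s₀ : ℂ) • W) * S) * A + A * ((Z + (s₀ : ℂ) • W) * S)ᴴ :=
    ⟨_, rfl⟩
  have hβh : β.IsHermitian := by
    rw [hβd, Matrix.IsHermitian, Matrix.conjTranspose_add, Matrix.conjTranspose_mul _ A,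
      Matrix.conjTranspose_mul A, Matrix.conjTranspose_conjTranspose, hA.1, add_comm]
  have hP : (A * α⁻¹ * A).PosDef := by
    have h1 := hα.inv
    rw [← hαd] at h1
    have h2 := h1.mul_mul_conjTranspose_same (B := A)
      (Matrix.vecMul_injective_of_isUnit hA.isUnit)
    rwa [hA.1] at h2
  obtain ⟨ε, hε, H⟩ := posDef_near hP
  -- a bound for the entries of `β`
  obtain ⟨C, hC0, hC⟩ : ∃ C : ℝ, 0 < C ∧ ∀ a b, ‖β a b‖ ≤ C := by
    refine ⟨∑ a, ∑ b, ‖β a b‖ + 1, by positivity, fun a b => ?_⟩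
    have h1 : ‖β a b‖ ≤ ∑ b, ‖β a b‖ :=
      Finset.single_le_sum (f := fun b => ‖β a b‖) (fun _ _ => norm_nonneg _) (Finset.mem_univ b)
    have h2 : ∑ b, ‖β a b‖ ≤ ∑ a, ∑ b, ‖β a b‖ :=
      Finset.single_le_sum (f := fun a => ∑ b, ‖β a b‖)
        (fun _ _ => Finset.sum_nonneg fun _ _ => norm_nonneg _) (Finset.mem_univ a)
    linarith
  obtain ⟨t, ht0, ht⟩ : ∃ t : ℝ, 0 < t ∧ C < ε * t ^ 2 := by
    refine ⟨1 + C / ε, by positivity, ?_⟩
    have h1 : C = ε * (C / ε) := by field_simp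
    have h2 : (0 : ℝ) < C / ε := by positivity
    nlinarith
  have hQ : (A * α⁻¹ * A - ((t ^ 2 : ℝ) : ℂ)⁻¹ • β).PosDef := by
    apply H
    · have h1 : (((t ^ 2 : ℝ) : ℂ)⁻¹ • β).IsHermitian := by
        rw [Matrix.IsHermitian, Matrix.conjTranspose_smul, hβh, star_inv₀]
        congr 2
        exact Complex.conj_ofReal _
      exact hP.1.sub h1
    · intro a b
      rw [Matrix.sub_apply, sub_sub_cancel_left, norm_neg, Matrix.smul_apply, smul_eq_mul,
        norm_mul, norm_inv, Complex.norm_real, Real.norm_eq_abs, abs_of_pos (by positivity)]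
      rw [inv_mul_lt_iff₀ (by positivity)]
      have := hC a b
      linarith
  have e0 : -(Mf A Z W S G (s₀, s₀, ((t : ℝ) : ℂ))) =
      ((t ^ 2 : ℝ) : ℂ) • (A * α⁻¹ * A - ((t ^ 2 : ℝ) : ℂ)⁻¹ • β) := by
    have ht2 : ((t ^ 2 : ℝ) : ℂ) ≠ 0 := by
      exact_mod_cast (pow_pos ht0 2).ne'
    rw [smul_sub, smul_smul, mul_inv_cancel₀ ht2, one_smul]
    simp only [Mf, sub_self, Complex.ofReal_zero, zero_smul, add_zero, ← hαd, ← hβd]
    rw [smul_mul_assoc, one_mul, Matrix.conjTranspose_smul, hA.1, neg_sub]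
    congr 1
    rw [smul_mul_assoc, smul_mul_assoc, mul_smul_comm, smul_smul]
    congr 1
    rw [show star ((t : ℝ) : ℂ) = ((t : ℝ) : ℂ) from Complex.conj_ofReal t]
    push_cast
    ring
  have hN : (-(Mf A Z W S G (s₀, s₀, ((t : ℝ) : ℂ)))).PosDef := by
    rw [e0]
    apply hQ.smul
    have : (0 : ℝ) < t ^ 2 := by positivity
    exact_mod_cast this
  obtain ⟨ε', hε', H'⟩ := posDef_near hN
  obtain ⟨η, hη, H''⟩ := near_gen (Mf_continuousAt A Z W S G (t := ((t : ℝ) : ℂ)) hα) hε'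
  refine ⟨t, η, hη, fun s s' τ hs hs' hτ hM => H' _ hM fun a b => ?_⟩
  have := H'' s s' τ hs hs' hτ a b
  rwa [Matrix.neg_apply, Matrix.neg_apply, neg_sub_neg, norm_sub_rev]

theorem seg_pos {P Q : Matrix (Fin n) (Fin n) ℂ} (hP : P.PosDef) (hQ : Q.PosDef) {s : ℝ}
    (h0 : 0 ≤ s) (h1 : s ≤ 1) : (P + (s : ℂ) • (Q - P)).PosDef := by
  rcases h1.lt_or_eq with h1 | h1
  · have e1 : P + (s : ℂ) • (Q - P) = ((1 - s : ℝ) : ℂ) • P + ((s : ℝ) : ℂ) • Q := by
      push_cast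
      module
    rw [e1]
    have h2 : (0 : ℂ) < ((1 - s : ℝ) : ℂ) := by
      rw [Complex.zero_lt_real]; linarith
    refine (hP.smul h2).add_posSemidef (hQ.posSemidef.smul ?_)
    exact_mod_cast h0
  · rw [h1]
    have e1 : P + ((1 : ℝ) : ℂ) • (Q - P) = Q := by
      rw [Complex.ofReal_one, one_smul]; abel
    rwa [e1]

end matrix

section main

variable {K D : Type} [Field K] [StarRing K] [DivisionRing D] [StarRing D] [Algebra K D]
  {n : ℕ} {ι : Type}

/-- The cone of the elements with positive real part. -/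
def XX (R : ι → RData K D n) (z : D) : Prop := ∀ i, (R i).PosAt (z + star z)

/-- The form represents the hermitian forms of rank two with a positive first entry which are
positive at the places in `big` and of signature `(n, n)` at the others. -/
def EmbOK (R : ι → RData K D n) {V : Type} [AddCommGroup V] [Module D V] (H : AForm D V)
    (big : ι → Prop) : Prop :=
  ∀ a b e : D, star a = a → star b = b → (∀ i, (R i).PosAt a) →
    (∀ i, big i → (R i).PosAt (b - star e * a⁻¹ * e)) →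
    (∀ i, ¬ big i → (R i).PosAt (-(b - star e * a⁻¹ * e))) →
    ∃ y w : V, H.h y y = a ∧ H.h w w = b ∧ H.h y w = e

/-- Density of the symmetric elements of the centre. -/
def ScalDense (R : ι → RData K D n) : Prop :=
  ∀ (t : ι → ℝ) (ε : ℝ), 0 < ε → ∃ q : K, star q = q ∧ ∀ i, ‖(R i).s q - t i‖ < ε

/-- The points of the segment. -/
def zz (K : Type) {D : Type} [Field K] [DivisionRing D] [Algebra K D] (z z' : D) (s : ℚ) : D :=
  z + algebraMap K D (s : K) * (z' - z)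

theorem f_zz [CharZero K] (R : RData K D n) (z z' : D) (s : ℚ) :
    R.f (zz K z z' s) = R.f z + ((s : ℝ) : ℂ) • (R.f z' - R.f z) := by
  rw [zz, map_add, map_mul, R.hf, map_ratCast, map_sub, Matrix.scalar_apply,
    ← Matrix.smul_eq_diagonal_mul]
  simp

theorem f_herm (R : RData K D n) {e : D} (he : star e = e) : (R.f e * R.A).IsHermitian := by
  rw [Matrix.IsHermitian, Matrix.conjTranspose_mul, R.hA, ← R.star_f, he]

theorem f_re (R : RData K D n) (z : D) :
    R.f (z + star z) * R.A = R.f z * R.A + R.A * (R.f z)ᴴ := by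
  rw [map_add, add_mul, R.star_f]

theorem pos_seg {R : RData K D n} {z z' : D} (h : R.PosAt (z + star z))
    (h' : R.PosAt (z' + star z')) {s : ℝ} (h0 : 0 ≤ s) (h1 : s ≤ 1) :
    ((R.f z + (s : ℂ) • (R.f z' - R.f z)) * R.A +
      R.A * (R.f z + (s : ℂ) • (R.f z' - R.f z))ᴴ).PosDef := by
  rw [RData.PosAt, f_re] at h h'
  have := seg_pos h h' h0 h1
  convert this using 1
  have e1 : (R.f z + (s : ℂ) • (R.f z' - R.f z))ᴴ =
      (R.f z)ᴴ + (s : ℂ) • ((R.f z')ᴴ - (R.f z)ᴴ) := by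
    rw [Matrix.conjTranspose_add, Matrix.conjTranspose_smul, Matrix.conjTranspose_sub,
      show star (s : ℂ) = (s : ℂ) from Complex.conj_ofReal s]
  rw [e1, add_mul, mul_add, smul_mul_assoc, mul_smul_comm, sub_mul, mul_sub]
  module

theorem XX_zz [CharZero K] {R : ι → RData K D n} {z z' : D} (h : XX R z) (h' : XX R z') {s : ℚ}
    (h0 : 0 ≤ s) (h1 : s ≤ 1) : XX R (zz K z z' s) := by
  intro i
  have := pos_seg (h i) (h' i) (s := s) (by exact_mod_cast h0) (by exact_mod_cast h1)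
  rwa [RData.PosAt, f_re, f_zz]

theorem zz_mul (z z' r : D) (s : ℚ) : zz K z z' s * r = zz K (z * r) (z' * r) s := by
  rw [zz, zz, add_mul, mul_assoc, sub_mul]

/-- The Schur complement at a place. -/
theorem f_schur (hn : 0 < n) (R : RData K D n) {z r e : D} (hz : R.PosAt (z + star z)) {Z E : Matrix (Fin n) (Fin n) ℂ}
    (hZ : R.f z = Z) (hE : R.f e = E) :
    R.f ((z * r + star (z * r)) - star e * (z + star z)⁻¹ * e) * R.A =
      ((Z * R.f r) * R.A + R.A * (Z * R.f r)ᴴ) -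
        (E * R.A)ᴴ * (Z * R.A + R.A * Zᴴ)⁻¹ * (E * R.A) := by
  have h0 : z + star z ≠ 0 := by
    intro h
    rw [RData.PosAt, h, map_zero, zero_mul] at hz
    have : Nonempty (Fin n) := ⟨⟨0, hn⟩⟩
    have h1 := hz.diag_pos (i := ⟨0, hn⟩)
    simp at h1
  obtain ⟨α, hα⟩ : ∃ α, α = Z * R.A + R.A * Zᴴ := ⟨_, rfl⟩
  have hfα : R.f (z + star z) * R.A = α := by rw [f_re, hZ, hα]
  have h1 : IsUnit α := by
    rw [← hfα]
    exact hz.isUnit
  have h2 : R.f (z + star z)⁻¹ = R.A * α⁻¹ := by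
    have h3 : R.f (z + star z)⁻¹ * α = R.A := by
      rw [← hfα, ← mul_assoc, ← map_mul, inv_mul_cancel₀ h0, map_one, one_mul]
    calc R.f (z + star z)⁻¹ = R.f (z + star z)⁻¹ * (α * α⁻¹) := by
          rw [Matrix.mul_nonsing_inv _ ((Matrix.isUnit_iff_isUnit_det _).mp h1), mul_one]
      _ = _ := by rw [← mul_assoc, h3]
  have h4 : (E * R.A)ᴴ = R.f (star e) * R.A := by
    rw [Matrix.conjTranspose_mul, R.hA, ← hE, ← R.star_f]
  have h5 : R.f (z * r) = Z * R.f r := by rw [map_mul, hZ]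
  rw [map_sub, sub_mul, f_re, h5, map_mul, map_mul, h2, h4, hE, ← hα]
  simp only [Matrix.mul_assoc]

variable {V A : Type} [AddCommGroup V] [Module D V] [CommGroup A]

/-- **Lemma B, locally.** -/
theorem lemB_local [CharZero K] [StarModule K D] [Fintype ι] [Nonempty ι] (hn : 0 < n)
    {R : ι → RData K D n} (hA : ∀ i, (R i).A.PosDef) (hS : ScalDense R) {H : AForm D V}
    {big : ι → Prop} (hE : EmbOK R H big) (χ : H.isom →* A) {z z' r : D} (hr1 : r ≠ 1)
    (hz : XX R z) (hz' : XX R z') (hzr : XX R (z * r)) (hzr' : XX R (z' * r)) {s₀ : ℝ}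
    (h0 : 0 ≤ s₀) (h1 : s₀ ≤ 1) :
    ∃ η : ℝ, 0 < η ∧ ∀ s s' : ℚ, 0 ≤ s → s ≤ 1 → 0 ≤ s' → s' ≤ 1 →
      |(s : ℝ) - s₀| < η → |(s' : ℝ) - s₀| < η →
      psi H χ (zz K z z' s * r) * (psi H χ (zz K z z' s))⁻¹ =
        psi H χ (zz K z z' s' * r) * (psi H χ (zz K z z' s'))⁻¹ := by
  classical
  -- the choice at each place
  have hloc : ∀ i, ∃ (t η : ℝ), 0 < η ∧ ∀ (s s' : ℝ) (τ : ℂ), |s - s₀| < η → |s' - s₀| < η →
      ‖τ - t‖ < η →
      (big i → (Mf (R i).A ((R i).f z) ((R i).f z' - (R i).f z) ((R i).f r)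
          ((R i).f (star (z' - z) + (z' - z) * r)) (s, s', τ)).IsHermitian →
        (Mf (R i).A ((R i).f z) ((R i).f z' - (R i).f z) ((R i).f r)
          ((R i).f (star (z' - z) + (z' - z) * r)) (s, s', τ)).PosDef) ∧
      (¬ big i → (-(Mf (R i).A ((R i).f z) ((R i).f z' - (R i).f z) ((R i).f r)
          ((R i).f (star (z' - z) + (z' - z) * r)) (s, s', τ))).IsHermitian →
        (-(Mf (R i).A ((R i).f z) ((R i).f z' - (R i).f z) ((R i).f r)
          ((R i).f (star (z' - z) + (z' - z) * r)) (s, s', τ))).PosDef) := by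
    intro i
    have hα := pos_seg (hz i) (hz' i) h0 h1
    by_cases hb : big i
    · have hβ := pos_seg (hzr i) (hzr' i) h0 h1
      have e1 : (R i).f (z * r) + (s₀ : ℂ) • ((R i).f (z' * r) - (R i).f (z * r)) =
          ((R i).f z + (s₀ : ℂ) • ((R i).f z' - (R i).f z)) * (R i).f r := by
        rw [map_mul, map_mul, ← sub_mul, add_mul, smul_mul_assoc]
      rw [e1] at hβ
      obtain ⟨t, η, hη, H'⟩ := near_big (G := (R i).f (star (z' - z) + (z' - z) * r)) hα hβ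
      exact ⟨t, η, hη, fun s s' τ a b c => ⟨fun _ => H' s s' τ a b c, fun h => absurd hb h⟩⟩
    · obtain ⟨t, η, hη, H'⟩ := near_small (S := (R i).f r)
        (G := (R i).f (star (z' - z) + (z' - z) * r)) (hA i) hα
      exact ⟨t, η, hη, fun s s' τ a b c => ⟨fun h => absurd h hb, fun _ => H' s s' τ a b c⟩⟩
  choose t η hη hloc using hloc
  obtain ⟨i₀, hi₀⟩ := Finite.exists_min η
  obtain ⟨q, hq, hqt⟩ := hS t (η i₀) (hη i₀)
  refine ⟨η i₀, hη i₀, fun s s' hs0 hs1 hs0' hs1' hs hs' => ?_⟩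
  -- the second parameter
  obtain ⟨z₂, hz₂⟩ : ∃ z₂, z₂ = star (zz K z z' s) + zz K z z' s * r - algebraMap K D q :=
    ⟨_, rfl⟩
  have key : ∀ σ : ℚ, 0 ≤ σ → σ ≤ 1 → |(σ : ℝ) - s₀| < η i₀ →
      psi H χ (zz K z z' σ) * psi H χ z₂ =
        psi H χ (zz K z z' σ * r) * psi H χ (star r * z₂) := by
    intro σ hσ0 hσ1 hσ
    obtain ⟨Z, hZ⟩ : ∃ Z, Z = zz K z z' σ := ⟨_, rfl⟩
    obtain ⟨e, he⟩ : ∃ e, e = star Z + Z * r - z₂ := ⟨_, rfl⟩
    have hXZ : XX R Z := by rw [hZ]; exact XX_zz hz hz' hσ0 hσ1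
    have he' : e = algebraMap K D q + algebraMap K D ((σ - s : ℚ) : K) *
        (star (z' - z) + (z' - z) * r) := by
      have h2 : ∀ x : ℚ, star (algebraMap K D (x : K)) = algebraMap K D (x : K) := by
        intro x
        rw [← algebraMap_star_comm, star_ratCast]
      have h3 : Z - zz K z z' s = algebraMap K D ((σ - s : ℚ) : K) * (z' - z) := by
        rw [hZ, zz, zz, Rat.cast_sub, map_sub, sub_mul]
        abel
      have h4 : star Z - star (zz K z z' s) =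
          algebraMap K D ((σ - s : ℚ) : K) * star (z' - z) := by
        rw [← star_sub, h3, star_mul, h2, Algebra.commutes]
      have h5 : e = algebraMap K D q + (star Z - star (zz K z z' s)) +
          (Z - zz K z z' s) * r := by
        rw [he, hz₂, sub_mul]
        abel
      rw [h5, h4, h3, mul_add, mul_assoc, add_assoc]
    have hfe : ∀ i, (R i).f e = (R i).s q • (1 : Matrix (Fin n) (Fin n) ℂ) +
        (((σ : ℝ) - (s : ℝ) : ℝ) : ℂ) • (R i).f (star (z' - z) + (z' - z) * r) := by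
      intro i
      rw [he', map_add, (R i).hf, map_mul, (R i).hf, map_ratCast, Matrix.scalar_apply,
        Matrix.scalar_apply, ← Matrix.smul_eq_diagonal_mul, ← Matrix.smul_one_eq_diagonal]
      push_cast
      rfl
    have hb : ∀ i, (R i).f ((Z * r + star (Z * r)) - star e * (Z + star Z)⁻¹ * e) * (R i).A =
        Mf (R i).A ((R i).f z) ((R i).f z' - (R i).f z) ((R i).f r)
          ((R i).f (star (z' - z) + (z' - z) * r)) ((s : ℝ), (σ : ℝ), (R i).s q) := by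
      intro i
      rw [f_schur (Z := (R i).f z + (((σ : ℚ) : ℝ) : ℂ) • ((R i).f z' - (R i).f z)) hn (R i)
        (hXZ i) (by rw [hZ]; exact f_zz (R i) z z' σ) (hfe i)]
      rfl
    have hsym : star ((Z * r + star (Z * r)) - star e * (Z + star Z)⁻¹ * e) =
        (Z * r + star (Z * r)) - star e * (Z + star Z)⁻¹ * e := by
      rw [star_sub, star_add, star_star, star_mul (star e * _), star_mul (star e), star_star,
        star_inv₀, star_add, star_star, add_comm (star Z) Z, add_comm (star (Z * r)), mul_assoc]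
    obtain ⟨y, w, hy, hw, hyw⟩ := hE (Z + star Z) (Z * r + star (Z * r)) e
      (by rw [star_add, star_star, add_comm]) (by rw [star_add, star_star, add_comm])
      hXZ (fun i hi => by
        rw [RData.PosAt, hb i]
        refine (hloc i _ _ _ (lt_of_lt_of_le hs (hi₀ i)) (lt_of_lt_of_le hσ (hi₀ i))
          (lt_of_lt_of_le (hqt i) (hi₀ i))).1 hi ?_
        rw [← hb i]
        exact f_herm (R i) hsym) (fun i hi => by
        rw [RData.PosAt, map_neg, neg_mul, hb i]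
        refine (hloc i _ _ _ (lt_of_lt_of_le hs (hi₀ i)) (lt_of_lt_of_le hσ (hi₀ i))
          (lt_of_lt_of_le (hqt i) (hi₀ i))).2 hi ?_
        rw [← hb i]
        exact (f_herm (R i) hsym).neg)
    have hZ0 : Z ≠ 0 := by
      rintro rfl
      obtain ⟨i⟩ := (inferInstance : Nonempty ι)
      have h2 := hXZ i
      rw [star_zero, add_zero, RData.PosAt, map_zero, zero_mul] at h2
      have : Nonempty (Fin n) := ⟨⟨0, hn⟩⟩
      have h3 := h2.diag_pos (i := ⟨0, hn⟩)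
      simp at h3
    have hr0 : r ≠ 0 := by
      rintro rfl
      obtain ⟨i⟩ := (inferInstance : Nonempty ι)
      have h2 := hzr i
      rw [mul_zero, star_zero, add_zero, RData.PosAt, map_zero, zero_mul] at h2
      have : Nonempty (Fin n) := ⟨⟨0, hn⟩⟩
      have h3 := h2.diag_pos (i := ⟨0, hn⟩)
      simp at h3
    have hz₂0 : z₂ ≠ 0 := by
      intro h2
      have h3 : H.h (w - y) (w - y) = z₂ + star z₂ := by
        have h4 : H.h w y = star e := by rw [← H.star_h, hyw]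
        rw [H.sub_left, H.sub_right, H.sub_right, hy, hw, hyw, h4, he, star_sub, star_add,
          star_star]
        abel
      rw [h2, star_zero, add_zero] at h3
      have h5 : w = y := sub_eq_zero.mp (H.anis h3)
      rw [h5, hy, he, h2, sub_zero, add_comm, add_left_cancel_iff] at hyw
      exact hr1 (mul_left_cancel₀ hZ0 (by rw [mul_one]; exact hyw.symm))
    rw [← hZ]
    exact psi_rel hy.symm hw.symm (by rw [hyw, he]) hZ0 hr0 hz₂0
  have k1 := key s hs0 hs1 hs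
  have k2 := key s' hs0' hs1' hs'
  have k3 : ∀ a b c d : A, a * c = b * d → b * a⁻¹ = c * d⁻¹ := by
    intro a b c d h
    rw [mul_inv_eq_iff_eq_mul, mul_assoc, mul_comm d⁻¹, ← mul_assoc, eq_mul_inv_iff_mul_eq,
      ← h, mul_comm]
  rw [k3 _ _ _ _ k1, k3 _ _ _ _ k2]

/-- **Lemma B.** The quotient of the classes of `z * r` and `z` does not depend on `z`. -/
theorem lemB [CharZero K] [StarModule K D] [Fintype ι] [Nonempty ι] (hn : 0 < n)
    {R : ι → RData K D n} (hA : ∀ i, (R i).A.PosDef) (hS : ScalDense R) {H : AForm D V}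
    {big : ι → Prop} (hE : EmbOK R H big) (χ : H.isom →* A) {z z' r : D}
    (hz : XX R z) (hz' : XX R z') (hzr : XX R (z * r)) (hzr' : XX R (z' * r)) :
    psi H χ (z * r) * (psi H χ z)⁻¹ = psi H χ (z' * r) * (psi H χ z')⁻¹ := by
  by_cases hr1 : r = 1
  · rw [hr1, mul_one, mul_one, mul_inv_cancel, mul_inv_cancel]
  have h := const_of_local (fun s => psi H χ (zz K z z' s * r) * (psi H χ (zz K z z' s))⁻¹)
    fun s₀ h0 h1 => lemB_local hn hA hS hE χ hr1 hz hz' hzr hzr' h0 h1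
  simpa [zz] using h

end main

end Vale.Agent.P011.Three
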