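import Vale.Agent.P011.Three.Defs
import Vale.Agent.P011.Three.LemB
import Vale.Agent.P011.Three.Scal

/-!
The relation of Lemma B for anisotropic forms of rank at least three.
-/

open Module Matrix
open scoped ComplexOrder

set_option linter.unusedSectionVars false

namespace Vale.Agent.P011.Three

open Vale.Agent.P011S Vale.Agent.P011.RP Vale.Agent.P011.Two.Hi

variable {K D : Type} [Field K] [NumberField K] [StarRing K] [DivisionRing D] [StarRing D]
  [Algebra K D] [StarModule K D] [FiniteDimensional K D] [Algebra.IsCentral K D] {n m : ℕ}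

theorem embOK (hn : 0 < n) (hdeg : finrank K D = n ^ 2) (hR2 : HasR2 K D n) {ι : Type}
    [Fintype ι] {R : ι → RData K D n} (hc : Complete R) (hd : Dense R) (hm : 3 ≤ m)
    {H : Matrix (Fin m) (Fin m) D} (hH : IsAnisotropicForm H)
    (hH1 : ∀ i, PosDim (R i) H n) :
    EmbOK R (rowA H hH) (fun i => PosDim (R i) H (2 * n)) := by
  intro a b e ha hb hapos hp hq
  obtain ⟨x, y, h1, h2, h3⟩ := exists_gram hn hdeg hR2 hc hd hm hH hH1 (e := e) ha hb hapos hp
    (fun i hi => by
      have h := hq i hi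
      rwa [RData.PosAt, map_neg, neg_mul] at h)
  exact ⟨x, y, h1, h3, h2⟩

/-- Lemma B. -/
theorem lemB_rank_three (hK : ∃ k : K, star k ≠ k) (hn : 0 < n) (hdeg : finrank K D = n ^ 2)
    {ι : Type} [Fintype ι] {R : ι → RData K D n} (hc : Complete R) (hd : Dense R)
    (hA : ∀ i, (R i).A.PosDef) (hm : 3 ≤ m) {H : Matrix (Fin m) (Fin m) D}
    (hH : IsAnisotropicForm H) (hH1 : ∀ i, PosDim (R i) H n) {A : Type} [CommGroup A]
    (χ : (rowA H hH).isom →* A) {z z' r : D} (hz : XX R z) (hz' : XX R z')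
    (hzr : XX R (z * r)) (hzr' : XX R (z' * r)) :
    psi (rowA H hH) χ (z * r) * (psi (rowA H hH) χ z)⁻¹ =
      psi (rowA H hH) χ (z' * r) * (psi (rowA H hH) χ z')⁻¹ := by
  have hR2 : HasR2 K D n := Vale.Agent.P011.Even.hasR2 hK hn hdeg
  have hne : Nonempty ι := nonempty_of_anis hn hdeg hc hR2 hm hH
  exact lemB hn hA (scalDense hn hdeg hd) (embOK hn hdeg hR2 hc hd hm hH hH1) χ hz hz' hzr hzr'

end Vale.Agent.P011.Three
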