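import Vale.Agent.P011.Three.Core

/-!
A normal subgroup of finite index of the special unitary group is the whole group as soon as it
contains the isometries of reduced norm one supported on a line.
-/

open NumberField IsDedekindDomain Module

set_option linter.unusedSectionVars false

namespace Vale.Agent.P011.Three

open Vale.Agent.P011S Vale.Agent.P011.Arith Vale.Agent.P011.Even Vale.Agent.P011.MPQ
open Vale.Agent.P011.Two Vale.Agent.P011.Two.Hi
open Vale.Agent.P011.RP (rowH rowF)

section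

variable {D V : Type} [DivisionRing D] [StarRing D] [AddCommGroup V] [Module D V]
  {H : AForm D V}

/-- A plane with an orthogonal basis which starts with a given vector. -/
theorem exists_plane_at [FiniteDimensional D V] (hV : 2 ≤ finrank D V) {y z : V} (hy : y ≠ 0) :
    ∃ Y : V, Pl H y Y ∧ ∀ v, H.h v y = 0 → H.h v Y = 0 → H.h v z = 0 := by
  obtain ⟨w, hw⟩ : ∃ w, w = z - (H.h z y * (H.h y y)⁻¹) • y := ⟨_, rfl⟩
  by_cases hw0 : w = 0
  · obtain ⟨Y, hY0, hY⟩ := exists_perp (toHF H) hV y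
    refine ⟨Y, ⟨hy, hY0, H.orth_symm hY⟩, fun v h1 _ => ?_⟩
    have hz : z = (H.h z y * (H.h y y)⁻¹) • y := by
      rw [hw, sub_eq_zero] at hw0
      exact hw0
    rw [hz, H.smul_right, h1, zero_mul]
  · have hwy : H.h w y = 0 := by
      rw [hw, H.sub_left, H.smul_left, mul_assoc, inv_mul_cancel₀ (H.self_ne_zero hy), mul_one,
        sub_self]
    refine ⟨w, ⟨hy, hw0, H.orth_symm hwy⟩, fun v h1 h2 => ?_⟩
    have hz : z = w + (H.h z y * (H.h y y)⁻¹) • y := by
      rw [hw, sub_add_cancel]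
    rw [hz, H.add_right, H.smul_right, h1, h2, zero_mul, add_zero]

theorem ex_dgD {X Y : V} (h : Pl H X Y) (hX : H.h X X = 1) {t : Dˣ}
    (ht : (t : D) * star (t : D) = 1) :
    ex h (dgD t 1) = lin H X hX (t : D) (star (t : D)) ht (star_mul_of ht) := by
  ext v
  rw [ex_apply, lin_apply, crd_apply, dgD_apply, Hi.vec_apply, Hi.vec_apply]
  simp only [hX, inv_one, mul_one, Units.val_one]
  rw [mul_sub, mul_one, sub_smul]
  abel

end

section main

variable {k K D Ω : Type} [Field k] [NumberField k] [Field K] [StarRing K]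
  [DivisionRing D] [StarRing D] [Algebra k K] [Algebra k D] [Algebra K D] [IsScalarTower k K D]
  [Field Ω] [Algebra K Ω] {d : kˣ} {s : K} {n : ℕ} (f : D →ₐ[K] Matrix (Fin n) (Fin n) Ω)
  {m : ℕ} {H : Matrix (Fin m) (Fin m) D} {hH : IsAnisotropicForm H}

/-- Modulo the subgroup, every isometry is supported on a line. -/
theorem exists_chi1 (hS : Setting k K D d s) (hn : 2 ≤ n) (hdeg : finrank K D = n ^ 2)
    (hm : 2 ≤ m) (N : Subgroup (SU f H)) [N.Normal] (hN : N.index ≠ 0) {e : Fin m → D}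
    (he : (rowA H hH).h e e = 1) {A : Type} [CommGroup A] (χ : (rowA H hH).isom →* A)
    (hχ : ∀ g (hg : g ∈ (rowA H hH).isom), g ∈ NN f N → χ ⟨g, hg⟩ = 1)
    (g : (rowA H hH).isom) : ∃ t : D, t * star t = 1 ∧ χ g = chi1 χ e he t := by
  have he0 : e ≠ 0 := by
    rintro rfl
    rw [(rowA H hH).zero_left] at he
    exact zero_ne_one he
  have h1 : ∀ x (hx : x ∈ Subgroup.closure (qrs (rowA H hH))) (hx' : x ∈ (rowA H hH).isom),
      ∃ t : D, t * star t = 1 ∧ χ ⟨x, hx'⟩ = chi1 χ e he t := by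
    intro x hx
    induction hx using Subgroup.closure_induction with
    | mem x hx =>
      intro hx'
      obtain ⟨y, z, hz, rfl⟩ := hx
      obtain ⟨Y, hP, hY⟩ := exists_plane_at (H := rowA H hH) (z := y)
        (by rw [Module.finrank_fin_fun]; exact hm) he0
      obtain ⟨u, hu, hua⟩ := ex_surj hP hx' fun v h1 h2 => qr_fix (hY v h1 h2)
      obtain ⟨N₀, hN₀, -, -, -, -, -, h7⟩ := plane_core f hS hn hdeg N hN hP he
      obtain ⟨t, ht, hmem⟩ := h7 u ((mem_Uh_unit hP he u).mpr hu)
      refine ⟨t, ht, ?_⟩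
      rw [chi1_eq χ e he ht]
      have h8 := hN₀ _ hmem
      rw [map_mul, map_inv, ex_dgD hP he ht, hua] at h8
      have hl := lin_mem (H := rowA H hH) e he ht
      have h9 := hχ _ (mul_mem (inv_mem hl) hx') h8
      have h10 : (⟨_, mul_mem (inv_mem hl) hx'⟩ : (rowA H hH).isom) =
          (⟨_, hl⟩ : (rowA H hH).isom)⁻¹ * ⟨_, hx'⟩ := rfl
      rw [h10, map_mul, map_inv] at h9
      exact (inv_mul_eq_one.mp h9).symm
    | one =>
      intro hx'
      refine ⟨1, by rw [star_one, mul_one], ?_⟩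
      rw [chi1_one]
      exact map_one χ
    | mul x y hx hy ihx ihy =>
      intro hx'
      have hxi : x ∈ (rowA H hH).isom := by rw [isom_eq_closure]; exact hx
      have hyi : y ∈ (rowA H hH).isom := by rw [isom_eq_closure]; exact hy
      obtain ⟨t, ht, h1⟩ := ihx hxi
      obtain ⟨r, hr, h2⟩ := ihy hyi
      refine ⟨t * r, ?_, ?_⟩
      · rw [star_mul]
        calc t * r * (star r * star t) = t * (r * star r) * star t := by simp only [mul_assoc]
          _ = 1 := by rw [hr, mul_one, ht]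
      · rw [chi1_mul χ e he ht hr, ← h1, ← h2, ← map_mul]
        rfl
    | inv x hx ih =>
      intro hx'
      have hxi : x ∈ (rowA H hH).isom := by rw [isom_eq_closure]; exact hx
      obtain ⟨t, ht, h1⟩ := ih hxi
      have ht' : star t * star (star t) = 1 := by rw [star_star]; exact star_mul_of ht
      refine ⟨star t, ht', ?_⟩
      have h2 := chi1_mul χ e he ht ht'
      rw [ht, chi1_one, ← h1] at h2
      have h3 : (⟨x⁻¹, hx'⟩ : (rowA H hH).isom) = (⟨x, hxi⟩ : (rowA H hH).isom)⁻¹ := rfl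
      rw [h3, map_inv]
      exact (eq_inv_of_mul_eq_one_right h2.symm).symm
  exact h1 g (by rw [← isom_eq_closure]; exact g.2) g.2

theorem redNorm_lin (hm : 2 ≤ m) {e : Fin m → D} (he : (rowA H hH).h e e = 1) {t : D}
    (ht : t * star t = 1) : redNorm f (Fin m)
      (rm (lin (rowA H hH) e he t (star t) ht (star_mul_of ht) : (Fin m → D) →ₗ[D] (Fin m → D))) =
      (f t).det := by
  have he0 : e ≠ 0 := by
    rintro rfl
    rw [(rowA H hH).zero_left] at he
    exact zero_ne_one he
  obtain ⟨Y, hP, -⟩ := exists_plane_at (H := rowA H hH) (z := e)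
    (by rw [Module.finrank_fin_fun]; exact hm) he0
  have ht0 : t ≠ 0 := left_ne_zero_of_mul_eq_one ht
  have h1 := ex_dgD hP he (t := Units.mk0 t ht0) ht
  have h2 : lin (rowA H hH) e he t (star t) ht (star_mul_of ht) =
      ex hP (dgD (Units.mk0 t ht0) 1) := h1.symm
  rw [h2, redNorm_ex]
  have h3 : m2 (dgD (Units.mk0 t ht0) 1) = Matrix.diagonal ![t, 1] := by
    ext i j
    fin_cases i <;> fin_cases j <;> simp [m2, dgD_apply]
  have h4 : Matrix.diagonal ![t, 1] =
      (Matrix.diagonal ![(Polynomial.X : Polynomial K), 1]).map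
        ((Polynomial.aeval t : Polynomial K →ₐ[K] D) : Polynomial K →+* D) := by
    ext i j
    fin_cases i <;> fin_cases j <;> simp
  rw [h3, h4, redNorm_map, Matrix.det_diagonal]
  simp

/-- The normal subgroup is the whole group if the characters of the isometry group which are
trivial on it kill the isometries of reduced norm one supported on a line. -/
theorem top_of_kill (hS : Setting k K D d s) (hn : 2 ≤ n) (hdeg : finrank K D = n ^ 2)
    (hm : 2 ≤ m) (N : Subgroup (SU f H)) [N.Normal] (hN : N.index ≠ 0) {e : Fin m → D}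
    (he : (rowA H hH).h e e = 1)
    (hkill : ∀ (A : Type) [CommGroup A] (χ : (rowA H hH).isom →* A),
      (∀ g (hg : g ∈ (rowA H hH).isom), g ∈ NN f N → χ ⟨g, hg⟩ = 1) →
      ∀ t : D, t * star t = 1 → (f t).det = 1 → chi1 χ e he t = 1) : N = ⊤ := by
  have hcc := contains_commutators f mpqStatement transStmt matchedStmt hS hn hdeg hm hH N hN
  have hcomm : ∀ x ∈ (rowA H hH).isom, ∀ y ∈ (rowA H hH).isom, x * y * x⁻¹ * y⁻¹ ∈ NN f N := by
    intro x hx y hy
    obtain ⟨a, rfl⟩ := rp_surj x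
    obtain ⟨b, rfl⟩ := rp_surj y
    obtain ⟨c, hc, hcab⟩ := hcc a ((rp_mem hH).mp hx) b ((rp_mem hH).mp hy)
    refine ⟨_, ⟨c, hc, rfl⟩, ?_⟩
    rw [← map_mul, ← map_inv, ← map_mul, ← map_inv, ← map_mul, ← hcab]
    rfl
  obtain ⟨M, hM⟩ : ∃ M, M = (NN f N).subgroupOf (rowA H hH).isom := ⟨_, rfl⟩
  have hMn : M.Normal := by
    refine ⟨fun x hx g => ?_⟩
    rw [hM, Subgroup.mem_subgroupOf] at hx ⊢
    have h1 := mul_mem (hcomm g g.2 x x.2) hx
    rw [inv_mul_cancel_right] at h1
    exact h1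
  let _ : CommGroup ((rowA H hH).isom ⧸ M) :=
    { (inferInstance : Group ((rowA H hH).isom ⧸ M)) with
      mul_comm := by
        intro a b
        induction a using QuotientGroup.induction_on with | _ a
        induction b using QuotientGroup.induction_on with | _ b
        change ((a * b : (rowA H hH).isom) : (rowA H hH).isom ⧸ M) =
          ((b * a : (rowA H hH).isom) : (rowA H hH).isom ⧸ M)
        rw [QuotientGroup.eq, hM, Subgroup.mem_subgroupOf]
        have h1 := hcomm _ (inv_mem b.2) _ (inv_mem a.2)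
        rw [inv_inv, inv_inv] at h1
        have h2 : (((a * b)⁻¹ * (b * a) : (rowA H hH).isom) :
            (Fin m → D) ≃ₗ[D] (Fin m → D)) = (b : (Fin m → D) ≃ₗ[D] (Fin m → D))⁻¹ *
              (a : (Fin m → D) ≃ₗ[D] (Fin m → D))⁻¹ * b * a := by
          push_cast
          group
        rw [h2]
        exact h1 }
  have hχ : ∀ g (hg : g ∈ (rowA H hH).isom), g ∈ NN f N →
      QuotientGroup.mk' M ⟨g, hg⟩ = 1 := by
    intro g hg h
    rw [QuotientGroup.mk'_apply, QuotientGroup.eq_one_iff, hM, Subgroup.mem_subgroupOf]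
    exact h
  have hk := hkill ((rowA H hH).isom ⧸ M) (QuotientGroup.mk' M) hχ
  rw [eq_top_iff]
  intro g _
  have hgi : rp (g : (Matrix (Fin m) (Fin m) D)ˣ) ∈ (rowA H hH).isom := (rp_mem hH).mpr g.2.1
  obtain ⟨t, ht, hgt⟩ := exists_chi1 f hS hn hdeg hm N hN he (QuotientGroup.mk' M) hχ ⟨_, hgi⟩
  have hl := lin_mem (H := rowA H hH) e he ht
  have h1 : (lin (rowA H hH) e he t (star t) ht (star_mul_of ht))⁻¹ *
      rp (g : (Matrix (Fin m) (Fin m) D)ˣ) ∈ NN f N := by
    rw [chi1_eq _ e he ht, QuotientGroup.mk'_apply, QuotientGroup.mk'_apply, eq_comm,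
      QuotientGroup.eq, hM, Subgroup.mem_subgroupOf] at hgt
    exact hgt
  have hlG : lin (rowA H hH) e he t (star t) ht (star_mul_of ht) ∈ GG f H := by
    have h2 : rp (g : (Matrix (Fin m) (Fin m) D)ˣ) ∈ GG f H := ⟨_, g.2, rfl⟩
    have h3 := mul_mem h2 (inv_mem (NN_le f N h1))
    rwa [mul_inv_rev, inv_inv, mul_inv_cancel_left] at h3
  have hdet : (f t).det = 1 := by
    obtain ⟨x, hx, hxl⟩ := hlG
    rw [← redNorm_lin f hm he ht, ← hxl, rm_rp, redNorm_conj f hH hx.1]
    exact hx.2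
  rw [hk t ht hdet, QuotientGroup.mk'_apply, QuotientGroup.eq_one_iff, hM,
    Subgroup.mem_subgroupOf] at hgt
  obtain ⟨_, ⟨c, hc, rfl⟩, hcg⟩ := hgt
  have h4 := rp_injective hcg
  have h5 : c = g := Subtype.ext h4
  rwa [← h5]

end main

end Vale.Agent.P011.Three
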