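import Vale.Agent.P011.W.Quasi

/-!
A character of the unitary elements which is the restriction of a homomorphism trivial on the
symmetric elements (through the Cayley parametrisation) kills the elements of reduced norm one.
-/

open Module Matrix

set_option linter.unusedSectionVars false

namespace Vale.Agent.P011.Three

open Vale.Agent.P011S

variable {K D F : Type} [Field K] [NumberField K] [StarRing K] [DivisionRing D] [StarRing D]
  [Algebra K D] [StarModule K D] [FiniteDimensional K D] [Algebra.IsCentral K D] [Field F]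
  [Algebra K F] {n : ℕ}

theorem inv_of_unit {t : D} (ht : t * star t = 1) : star t = t⁻¹ := eq_inv_of_mul_eq_one_right ht

theorem kill_of_F0 (hK : ∃ k : K, star k ≠ k) (hdeg : finrank K D = n ^ 2)
    (f : D →ₐ[K] Matrix (Fin n) (Fin n) F) {A : Type} [CommGroup A] (F0 : D → A)
    (hmul : ∀ a b : D, a ≠ 0 → b ≠ 0 → F0 (a * b) = F0 a * F0 b)
    (hsym : ∀ s : D, s ≠ 0 → star s = s → F0 s = 1) (chi : D → A)
    (hcm : ∀ t r : D, t * star t = 1 → r * star r = 1 → chi (t * r) = chi t * chi r)
    (hchi : ∀ t : D, t * star t = 1 → 1 + t ≠ 0 → F0 (1 + t)⁻¹ = chi t) {t : D}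
    (ht : t * star t = 1) (hdet : (f t).det = 1) : chi t = 1 := by
  have hchar : CharZero D := charZero_of_injective_algebraMap (algebraMap K D).injective
  have hfin : FiniteDimensional ℚ D := FiniteDimensional.trans ℚ K D
  have h11 : (1 : D) * star (1 : D) = 1 := by rw [star_one, mul_one]
  have hc1 : chi 1 = 1 := by
    have h := hcm 1 1 h11 h11
    rw [mul_one] at h
    exact left_eq_mul.mp h
  -- elements with the same reduced norm
  have key : ∀ s r : D, s * star s = 1 → r * star r = 1 → 1 + s ≠ 0 → 1 + r ≠ 0 →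
      (f s).det = (f r).det → chi s = chi r := by
    intro s r hs hr hs1 hr1 hsr
    obtain ⟨Z, hZ⟩ : ∃ Z, Z = (1 + s)⁻¹ * (1 + r) := ⟨_, rfl⟩
    have hZ0 : Z ≠ 0 := by rw [hZ]; exact mul_ne_zero (inv_ne_zero hs1) hr1
    have hnz : ∀ x : D, x ≠ 0 → (f x).det ≠ 0 := fun x hx =>
      (((Matrix.isUnit_iff_isUnit_det _).mp ((isUnit_iff_ne_zero.mpr hx).map f))).ne_zero
    have hs0 : s ≠ 0 := left_ne_zero_of_mul_eq_one hs
    have hr0 : r ≠ 0 := left_ne_zero_of_mul_eq_one hr
    have hstar : ∀ x : D, x * star x = 1 → x ≠ 0 → (f (1 + star x)).det =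
        (f x).det⁻¹ * (f (1 + x)).det := by
      intro x hx hx0
      have h1 : 1 + x = x * (1 + star x) := by rw [mul_add, mul_one, hx, add_comm]
      rw [h1, map_mul, Matrix.det_mul, inv_mul_cancel_left₀ (hnz x hx0)]
    have h1 : (f (star Z)).det = (f Z).det := by
      have h2 : star Z * (1 + star s) = 1 + star r := by
        rw [hZ, star_mul, star_inv₀, star_add, star_add, star_one, mul_assoc, inv_mul_cancel₀,
          mul_one]
        intro h0
        apply hs1
        have := congrArg star h0
        rwa [star_add, star_one, star_star, star_zero] at this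
      have h3 : (1 + s) * Z = 1 + r := by rw [hZ, mul_inv_cancel_left₀ hs1]
      have h4 := congrArg (fun x => (f x).det) h2
      have h5 := congrArg (fun x => (f x).det) h3
      simp only [map_mul, Matrix.det_mul] at h4 h5
      rw [hstar s hs hs0, hstar r hr hr0, ← h5, hsr] at h4
      apply mul_right_cancel₀ (mul_ne_zero (inv_ne_zero (hnz r hr0)) (hnz _ hs1))
      rw [h4]
      ring
    have h2 := Vale.Agent.P011.W.suk_all (K := K) F0 hmul hsym hdeg hK f hZ0 h1
    rw [hZ, hmul _ _ (inv_ne_zero hs1) hr1, hchi s hs hs1] at h2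
    have h3 := hmul _ _ (inv_ne_zero hr1) hr1
    rw [inv_mul_cancel₀ hr1, hchi r hr hr1, hsym 1 one_ne_zero (star_one D)] at h3
    exact mul_right_cancel (h2.trans h3)
  by_cases ht1 : 1 + t ≠ 0
  · rw [key t 1 ht h11 ht1 (by norm_num) (by rw [hdet, map_one, Matrix.det_one]), hc1]
  · push Not at ht1
    have ht' : t = -1 := (neg_eq_of_add_eq_zero_right ht1).symm
    obtain ⟨θ, hθ0, hθ, hθs⟩ := Vale.Agent.P011.W.exists_skew (D := D) hK
    have hp : 1 + θ ≠ 0 := by
      intro h0
      have h1 := congrArg star h0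
      rw [star_add, star_one, star_zero, hθs] at h1
      have h2 : (2 : D) = 0 := by
        calc (2 : D) = (1 + θ) + (1 + -θ) := by rw [add_add_add_comm, add_neg_cancel, add_zero]; norm_num
          _ = 0 := by rw [h0, h1, add_zero]
      exact two_ne_zero h2
    have hm : 1 - θ ≠ 0 := by
      intro h0
      apply hp
      have h1 := congrArg star h0
      rwa [star_sub, star_one, star_zero, hθs, sub_neg_eq_add] at h1
    have hcomm : (1 + θ) * (1 - θ)⁻¹ = (1 - θ)⁻¹ * (1 + θ) := by
      have h1 : Commute (1 + θ) (1 - θ) := by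
        change (1 + θ) * (1 - θ) = (1 - θ) * (1 + θ)
        noncomm_ring
      exact h1.inv_right₀.eq
    obtain ⟨u, hu⟩ : ∃ u, u = (1 + θ) * (1 - θ)⁻¹ := ⟨_, rfl⟩
    have huu : u * star u = 1 := by
      rw [hu, star_mul, star_inv₀, star_sub, star_add, star_one, hθs, sub_neg_eq_add,
        ← sub_eq_add_neg, hcomm]
      calc (1 - θ)⁻¹ * (1 + θ) * ((1 + θ)⁻¹ * (1 - θ))
          = (1 - θ)⁻¹ * ((1 + θ) * (1 + θ)⁻¹) * (1 - θ) := by simp only [mul_assoc]
        _ = 1 := by rw [mul_inv_cancel₀ hp, mul_one, inv_mul_cancel₀ hm]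
    have hu0 : u ≠ 0 := left_ne_zero_of_mul_eq_one huu
    have hu1 : 1 + u ≠ 0 := by
      intro h0
      have h1 : (1 + u) * (1 - θ) = 2 := by
        rw [hu, add_mul, mul_assoc, inv_mul_cancel₀ hm]
        norm_num
      rw [h0, zero_mul] at h1
      exact two_ne_zero h1.symm
    have hu2 : u ≠ 1 := by
      intro h0
      have h1 : u * (1 - θ) = 1 + θ := by rw [hu, mul_assoc, inv_mul_cancel₀ hm, mul_one]
      rw [h0, one_mul] at h1
      apply hθ0
      have h2 : (2 : D) * θ = 0 := by
        calc (2 : D) * θ = (1 + θ) - (1 - θ) := by noncomm_ring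
          _ = 0 := by rw [h1, sub_self]
      exact (mul_eq_zero.mp h2).resolve_left two_ne_zero
    have hsu : star u * star (star u) = 1 := by
      rw [star_star, inv_of_unit huu, inv_mul_cancel₀ hu0]
    have hnsu : (-star u) * star (-star u) = 1 := by
      rw [star_neg, neg_mul_neg, hsu]
    have hsu1 : 1 + star u ≠ 0 := by
      intro h0
      apply hu1
      have := congrArg star h0
      rwa [star_add, star_one, star_star, star_zero] at this
    have hnsu1 : 1 + -star u ≠ 0 := by
      intro h0
      apply hu2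
      have h1 := congrArg star h0
      rw [star_add, star_one, star_neg, star_star, star_zero, ← sub_eq_add_neg, sub_eq_zero] at h1
      exact h1.symm
    have hdn : (f (-star u)).det = (f (star u)).det := by
      have h1 : -star u = t * star u := by rw [ht', neg_one_mul]
      rw [h1, map_mul, Matrix.det_mul, hdet, one_mul]
    have e1 : t = u * (-star u) := by rw [ht', mul_neg, huu]
    rw [e1, hcm _ _ huu hnsu, key _ _ hnsu hsu hnsu1 hsu1 hdn, ← hcm _ _ huu hsu, huu, hc1]

end Vale.Agent.P011.Three
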