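import Vale.Agent.P011.Three.Sig
import Vale.Agent.P011.RP.Final2

/-!
Normalisation: after a change of the involution, the involution is positive at all real places
and the form has at least `n` positive directions at each of them.
-/

open Module Matrix
open scoped ComplexOrder

set_option linter.unusedSectionVars false

namespace Vale.Agent.P011.Three

open Vale.Agent.P011S Vale.Agent.P011.RP Vale.Agent.P011.T2

/-- The theorem for normalised forms. -/
def NormTop : Prop :=
  ∀ (K D : Type) [Field K] [NumberField K] [StarRing K] [DivisionRing D] [StarRing D]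
    [Algebra K D] [StarModule K D] [FiniteDimensional K D] [Algebra.IsCentral K D]
    (_ : ∃ k : K, star k ≠ k) (n : ℕ) (_ : 2 ≤ n) (_ : finrank K D = n ^ 2)
    (F : Type) [Field F] [Algebra K F] (f : D →ₐ[K] Matrix (Fin n) (Fin n) F)
    (m : ℕ) (_ : 3 ≤ m) (H : Matrix (Fin m) (Fin m) D) (_ : IsAnisotropicForm H)
    (ι : Type) [Fintype ι] (R : ι → RData K D n) (_ : Complete R) (_ : Dense R)
    (_ : ∀ i, (R i).A.PosDef) (_ : ∀ i, PosDim (R i) H n) (N : Subgroup (SU f H)) [N.Normal]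
    (_ : N.index ≠ 0), N = ⊤

theorem tw_congr {X : Type} [Group X] {G G' : Subgroup X} (hG : G' = G)
    (h : ∀ N : Subgroup G', N.Normal → N.index ≠ 0 → N = ⊤) (N : Subgroup G) (hN : N.Normal)
    (hi : N.index ≠ 0) : N = ⊤ := by
  subst hG
  exact h N hN hi

/-- Reduction to normalised forms. -/
theorem of_norm (h : NormTop) {K D : Type} [Field K] [NumberField K] [StarRing K]
    [DivisionRing D] [StarRing D] [Algebra K D] [StarModule K D] [FiniteDimensional K D]
    [Algebra.IsCentral K D] (hK : ∃ k : K, star k ≠ k) {n : ℕ} (hn : 2 ≤ n)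
    (hdeg : finrank K D = n ^ 2) {F : Type} [Field F] [Algebra K F]
    (f : D →ₐ[K] Matrix (Fin n) (Fin n) F) {m : ℕ} (hm : 3 ≤ m)
    (H : Matrix (Fin m) (Fin m) D) (hH : IsAnisotropicForm H) (N : Subgroup (SU f H)) [N.Normal]
    (hN : N.index ≠ 0) : N = ⊤ := by
  classical
  have hn0 : 0 < n := by omega
  have hchar : CharZero D := charZero_of_injective_algebraMap (algebraMap K D).injective
  obtain ⟨ι, _, R, hc, hd⟩ := exists_family (D := D) hK hn0 hdeg
  have hHu : IsUnit H := isUnit_of_anis hH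
  obtain ⟨ε, u, hu⟩ := exists_plane (q := 1) R hd (by omega) hH.1 hHu
  obtain ⟨a, ha, ha0, haP⟩ : ∃ a : D, star a = a ∧ a ≠ 0 ∧
      ∀ i, ((((ε i : ℤˣ) : ℤ) : ℂ) • ((R i).f a * (R i).A)).PosDef := by
    rcases isEmpty_or_nonempty ι with hι | ⟨⟨i0⟩⟩
    · exact ⟨1, star_one D, one_ne_zero, fun i => (hι.false i).elim⟩
    · obtain ⟨a, ha, haP⟩ := exists_definite R hd ε
      refine ⟨a, ha, ?_, haP⟩
      rintro rfl
      have h1 := (haP i0).diag_pos (i := ⟨0, hn0⟩)
      rw [map_zero, zero_mul, smul_zero, Matrix.zero_apply] at h1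
      exact lt_irrefl _ h1
  refine tw_congr (SU_twist a ha0 ha f H) (fun N hN hi => ?_) N ‹_› hN
  refine @h K D _ _ _ _ (twist a ha0 ha) _ (twist_module a ha0 ha) _ _ hK n hn hdeg F _ _ f m hm
    (Vale.Agent.P011.T2.tw a H) (anis_twist a ha0 ha hH) ι _
    (fun i => (R i).tw a ha0 ha (ε i)) hc hd haP (fun i => ?_) N hN hi
  obtain ⟨u', hu'⟩ : ∃ u' : Fin m → D, u' = fun b => u 0 b * a⁻¹ := ⟨_, rfl⟩
  have h1 := @U1_gram K D _ _ _ (twist a ha0 ha) _ n m (twist_module a ha0 ha) _ _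
    ((R i).tw a ha0 ha (ε i)) (Vale.Agent.P011.T2.tw a H) u' u'
  refine ⟨@U1 K D _ _ _ (twist a ha0 ha) _ n m ((R i).tw a ha0 ha (ε i)) u', ?_⟩
  rw [h1, hu', rowH_tw]
  have h2 := hu i (fun _ => 1) (fun h => one_ne_zero (congrFun h 0))
  have e1 : (fun b => ∑ c : Fin 1, (1 : D) * u c b) = u 0 := by
    funext b
    simp
  rw [e1] at h2
  change ((R i).f (rowH H (u 0) (u 0) * a⁻¹) *
    ((((ε i : ℤˣ) : ℤ) : ℂ) • ((R i).f a * (R i).A))).PosDef
  rw [mul_smul_comm, ← mul_assoc, ← map_mul, mul_assoc, inv_mul_cancel₀ ha0, mul_one]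
  exact h2

end Vale.Agent.P011.Three
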