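import Vale.Agent.P011.Three.End
import Vale.Agent.P011.Three.Emb
import Vale.Agent.P011.Three.Norm
import Vale.Agent.P011.Three.Kill

/-!
The last step: a normal subgroup of finite index is the whole group as soon as the classes of
quasi-reflections extend to homomorphisms which are trivial on the symmetric elements.
-/

open Module Matrix
open scoped ComplexOrder

set_option linter.unusedSectionVars false

namespace Vale.Agent.P011.Three

open Vale.Agent.P011S Vale.Agent.P011.RP Vale.Agent.P011.Two.Hi Vale.Agent.P011.Even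
open Vale.Agent.P011.Arith

/-- The extension property of a character of the isometry group. -/
def HasF0 {D V A : Type} [DivisionRing D] [StarRing D] [AddCommGroup V] [Module D V]
    [CommGroup A] {H : AForm D V} (χ : H.isom →* A) : Prop :=
  ∃ F0 : D → A, (∀ a b : D, a ≠ 0 → b ≠ 0 → F0 (a * b) = F0 a * F0 b) ∧
    (∀ s : D, s ≠ 0 → star s = s → F0 s = 1) ∧
    (∀ t : D, t * star t = 1 → 1 + t ≠ 0 →
      F0 (1 + t)⁻¹ = psi H χ (1 + t)⁻¹ * (psi H χ 1)⁻¹) ∧
    psi H χ (1 + 1)⁻¹ = psi H χ 1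

variable {K D : Type} [Field K] [NumberField K] [StarRing K] [DivisionRing D] [StarRing D]
  [Algebra K D] [StarModule K D] [FiniteDimensional K D] [Algebra.IsCentral K D] {n m : ℕ}

theorem top_of_F0 (hK : ∃ k : K, star k ≠ k) (hn : 2 ≤ n) (hdeg : finrank K D = n ^ 2)
    {F : Type} [Field F] [Algebra K F] (f : D →ₐ[K] Matrix (Fin n) (Fin n) F) (hm : 2 ≤ m)
    (H : Matrix (Fin m) (Fin m) D) (hH : IsAnisotropicForm H) (N : Subgroup (SU f H)) [N.Normal]
    (hN : N.index ≠ 0) {e : Fin m → D} (he : (rowA H hH).h e e = 1)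
    (hF : ∀ (A : Type) [CommGroup A] (χ : (rowA H hH).isom →* A),
      (∀ g (hg : g ∈ (rowA H hH).isom), g ∈ NN f N → χ ⟨g, hg⟩ = 1) → HasF0 χ) : N = ⊤ := by
  have hK' := hK
  obtain ⟨k0, hk0⟩ := hK
  have hθ0 : k0 - star k0 ≠ 0 := sub_ne_zero.mpr (Ne.symm hk0)
  have hθ : star (k0 - star k0) = -(k0 - star k0) := by rw [star_sub, star_star, neg_sub]
  let _ := algFK (K := K) (D := D)
  have _ : IsScalarTower (FK K) K D := IsScalarTower.of_algebraMap_eq fun _ => rfl
  have hS : Setting (FK K) K D (sqU hθ0 hθ) (k0 - star k0) := setting hθ0 hθ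
  refine top_of_kill f hS hn hdeg hm N hN he fun A _ χ hχ t ht hdet => ?_
  obtain ⟨F0, hmul, hsym, hF1, hF2⟩ := hF A χ hχ
  have h11 : (1 : D) * star (1 : D) = 1 := by rw [star_one, mul_one]
  have hneg : (-1 : D) * star (-1 : D) = 1 := by rw [star_neg, neg_mul_neg, h11]
  have hchar : CharZero D := charZero_of_injective_algebraMap (algebraMap K D).injective
  have h2 : (1 : D) + 1 ≠ 0 := by rw [one_add_one_eq_two]; exact two_ne_zero
  refine kill_of_F0 hK' hdeg f F0 hmul hsym (chi1 χ e he)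
    (fun t r ht hr => chi1_mul χ e he ht hr) (fun t ht ht1 => ?_) ht hdet
  have h3 := psi_lin χ e he ht ht1
  have h4 := psi_lin χ e he h11 h2
  have h5 : -t = (-1) * t := (neg_one_mul t).symm
  rw [hF1 t ht ht1, h3, ← hF2, h4, h5, chi1_mul χ e he hneg ht, mul_comm (chi1 χ e he (-1)),
    mul_inv_cancel_right]

/-- The data of a normalised form represent one. -/
theorem exists_unit (hK : ∃ k : K, star k ≠ k) (hn : 0 < n) (hdeg : finrank K D = n ^ 2)
    {ι : Type} [Fintype ι] {R : ι → RData K D n} (hc : Complete R) (hd : Dense R) (hm : 2 ≤ m)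
    (hA : ∀ i, (R i).A.PosDef) {H : Matrix (Fin m) (Fin m) D} (hH : IsAnisotropicForm H)
    (hH1 : ∀ i, PosDim (R i) H n) : ∃ e : Fin m → D, (rowA H hH).h e e = 1 :=
  exists_len hn hdeg (Vale.Agent.P011.Even.hasR2 hK hn hdeg) hc hd hm hH hH1 (star_one D)
    one_ne_zero fun i => by rw [map_one, one_mul]; exact hA i

end Vale.Agent.P011.Three
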