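import Vale.Agent.P011.Three.SymOf
import Vale.Agent.P011.Three.Eps

/-!
Rank at least three: a normal subgroup of finite index is the whole group.
-/

open Module Matrix
open scoped ComplexOrder

set_option linter.unusedSectionVars false

namespace Vale.Agent.P011.Three

open Vale.Agent.P011S Vale.Agent.P011.RP Vale.Agent.P011.Two.Hi Vale.Agent.P011.Even
open Vale.Agent.P011.Arith

/-- The theorem for normalised forms, from Lemma B. -/
theorem top_of_B {K D : Type} [Field K] [NumberField K] [StarRing K] [DivisionRing D]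
    [StarRing D] [Algebra K D] [StarModule K D] [FiniteDimensional K D] [Algebra.IsCentral K D]
    {n m : ℕ} (hK : ∃ k : K, star k ≠ k) (hn : 2 ≤ n) (hdeg : finrank K D = n ^ 2)
    {F : Type} [Field F] [Algebra K F] (f : D →ₐ[K] Matrix (Fin n) (Fin n) F) (hm : 2 ≤ m)
    (H : Matrix (Fin m) (Fin m) D) (hH : IsAnisotropicForm H) {ι : Type} [Fintype ι]
    {R : ι → RData K D n} (hc : Complete R) (hd : Dense R) (hA : ∀ i, (R i).A.PosDef)
    (hH1 : ∀ i, PosDim (R i) H n) (N : Subgroup (SU f H)) [N.Normal] (hN : N.index ≠ 0)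
    (hB : ∀ (A : Type) [CommGroup A] (χ : (rowA H hH).isom →* A),
      (∀ g (hg : g ∈ (rowA H hH).isom), g ∈ NN f N → χ ⟨g, hg⟩ = 1) →
      BOn R (psi (rowA H hH) χ)) : N = ⊤ :=
  top_of_B_D hK hn hdeg f hm H hH hc hd hA hH1 N hN hB fun A _ χ hχ =>
    sym_of_B hK hA χ (fun _ ha ha0 hap => exists_len (by omega) hdeg
      (Vale.Agent.P011.Even.hasR2 hK (by omega) hdeg) hc hd hm hH hH1 ha ha0 hap) (hB A χ hχ)

/-- Normalised forms of rank at least three. -/
theorem normTop : NormTop := by
  intro K D _ _ _ _ _ _ _ _ _ hK n hn hdeg F _ _ f m hm H hH ι _ R hc hd hA hH1 N _ hN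
  refine top_of_B hK hn hdeg f (by omega) H hH hc hd hA hH1 N hN ?_
  intro A _ χ _ z z' r hz hz' hzr hzr'
  exact lemB_rank_three hK (by omega) hdeg hc hd hA hm hH hH1 χ hz.2 hz'.2 hzr.2 hzr'.2

/-- **Rank at least three.** A normal subgroup of finite index of the special unitary group of an
anisotropic hermitian form of rank at least three over a division algebra of degree at least two
is the whole group. -/
theorem top_of_rank_three {K D : Type} [Field K] [NumberField K] [StarRing K]
    [DivisionRing D] [StarRing D] [Algebra K D] [StarModule K D] [FiniteDimensional K D]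
    [Algebra.IsCentral K D] (hK : ∃ k : K, star k ≠ k) {n : ℕ} (hn : 2 ≤ n)
    (hdeg : finrank K D = n ^ 2) {F : Type} [Field F] [Algebra K F]
    (f : D →ₐ[K] Matrix (Fin n) (Fin n) F) {m : ℕ} (hm : 3 ≤ m)
    (H : Matrix (Fin m) (Fin m) D) (hH : IsAnisotropicForm H) (N : Subgroup (SU f H)) [N.Normal]
    (hN : N.index ≠ 0) : N = ⊤ :=
  of_norm normTop hK hn hdeg f hm H hH N hN

end Vale.Agent.P011.Three
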