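import Vale.Agent.P011.Three.LemB
import Vale.Agent.P011.Three.Defs

/-!
The classes of quasi-reflections with symmetric parameters, from Lemma B: the class of a symmetric
positive element is the class of one.
-/

open Module Matrix
open scoped ComplexOrder

set_option linter.unusedSectionVars false

namespace Vale.Agent.P011.Three

open Vale.Agent.P011S Vale.Agent.P011.RP

variable {K D V A ι : Type} [Field K] [StarRing K] [DivisionRing D] [StarRing D] [Algebra K D]
  [StarModule K D] [AddCommGroup V] [Module D V] [CommGroup A] {n : ℕ}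

theorem posAt_half [CharZero D] {R : RData K D n} {f : D} (h : R.PosAt (f + f)) : R.PosAt f := by
  have e : R.f f * R.A = ((1 / 2 : ℝ) : ℂ) • (R.f (f + f) * R.A) := by
    rw [map_add, ← two_smul ℂ (R.f f), smul_mul_assoc, smul_smul]
    norm_num
  rw [RData.PosAt, e]
  exact h.smul (by
    rw [Complex.zero_lt_real]
    norm_num)

/-- The class of a symmetric positive element, given Lemma B. -/
theorem psi_sym_of_B [CharZero K] (hK : ∃ k : K, star k ≠ k) (R : ι → RData K D n)
    (hA : ∀ i, (R i).A.PosDef) {H : AForm D V} (χ : H.isom →* A)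
    (hB : ∀ z z' r : D, XX R z → XX R z' → XX R (z * r) → XX R (z' * r) →
      psi H χ (z * r) * (psi H χ z)⁻¹ = psi H χ (z' * r) * (psi H χ z')⁻¹)
    (hlen : ∀ a : D, star a = a → a ≠ 0 → (∀ i, (R i).PosAt a) → ∃ y, H.h y y = a)
    {f : D} (hf : star f = f) (hf0 : f ≠ 0) (hfX : XX R f) : psi H χ f = psi H χ 1 := by
  have hcD : CharZero D := charZero_of_injective_algebraMap (algebraMap K D).injective
  obtain ⟨k, hk⟩ := hK
  obtain ⟨κ, hκ⟩ : ∃ κ, κ = k - star k := ⟨_, rfl⟩
  have hκ0 : κ ≠ 0 := by rw [hκ]; exact sub_ne_zero.mpr (Ne.symm hk)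
  have hκs : star κ = -κ := by rw [hκ, star_sub, star_star, neg_sub]
  have h20 : (2 : K) ≠ 0 := two_ne_zero
  obtain ⟨b, hb⟩ : ∃ b, b = 2⁻¹ + κ := ⟨_, rfl⟩
  have hbs : b + star b = 1 := by
    rw [hb, star_add, star_inv₀, star_ofNat, hκs]
    field_simp
    ring
  have hb0 : b ≠ 0 := by
    intro h0
    have h1 := hbs
    rw [h0, star_zero, add_zero] at h1
    exact zero_ne_one h1
  obtain ⟨c, hc⟩ : ∃ c, c = b * b * (2 * κ)⁻¹ := ⟨_, rfl⟩
  have hsb : star b = 1 - b := by linear_combination hbs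
  have h2κ : 2 * κ ≠ 0 := mul_ne_zero h20 hκ0
  have hcs : c + star c = 1 := by
    rw [hc, star_mul, star_mul, star_inv₀, star_mul, star_ofNat, hκs, hsb, hb]
    field_simp
    ring
  have hc0 : c ≠ 0 := by
    rw [hc]
    exact mul_ne_zero (mul_ne_zero hb0 hb0) (inv_ne_zero h2κ)
  have hinv : b⁻¹ + b⁻¹ - b⁻¹ * b⁻¹ = c⁻¹ := by
    rw [hc]
    field_simp
    rw [hb]
    field_simp
    ring
  -- the relation on a line
  have line : ∀ g : D, star g = g → g ≠ 0 → (∀ i, (R i).PosAt g) →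
      psi H χ (b • g) * psi H χ (b • g) = psi H χ (c • g) := by
    intro g hg hg0 hgp
    obtain ⟨y, hy⟩ := hlen g hg hg0 hgp
    have hre : ∀ a : K, a + star a = 1 → a • g + star (a • g) = H.h y y := by
      intro a ha
      rw [star_smul, hg, ← add_smul, ha, one_smul, hy]
    refine psi_line (hre b hbs) (hre b hbs) (hre c hcs) ?_
    rw [hy, smul_inv₀, smul_inv₀, ← hinv, smul_mul_assoc, inv_mul_cancel₀ hg0,
      smul_mul_smul_comm, one_mul, sub_smul, add_smul]
  have hX : ∀ (a : K) (g : D), a + star a = 1 → star g = g → (∀ i, (R i).PosAt g) →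
      XX R (g * algebraMap K D a) := by
    intro a g ha hg hgp i
    have e : g * algebraMap K D a + star (g * algebraMap K D a) = g := by
      rw [← Algebra.commutes, ← Algebra.smul_def, star_smul, hg, ← add_smul, ha, one_smul]
    rw [e]
    exact hgp i
  have hfp : ∀ i, (R i).PosAt f := by
    intro i
    have h1 := hfX i
    rw [hf] at h1
    exact posAt_half h1
  have h1p : ∀ i, (R i).PosAt (1 : D) := by
    intro i
    rw [RData.PosAt, map_one, one_mul]
    exact hA i
  have h1X : XX R (1 : D) := by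
    intro i
    rw [star_one]
    have e : ((2 : ℝ) : ℂ) • ((R i).f (1 : D) * (R i).A) = (R i).f (1 + 1) * (R i).A := by
      rw [map_add, ← two_smul ℂ ((R i).f 1), smul_mul_assoc]
      norm_num
    rw [RData.PosAt, ← e]
    exact (h1p i).smul (by
      rw [Complex.zero_lt_real]
      norm_num)
  have hmul : ∀ (a : K), a + star a = 1 →
      psi H χ (a • f) * (psi H χ f)⁻¹ = psi H χ (a • (1 : D)) * (psi H χ 1)⁻¹ := by
    intro a ha
    have h1 := hB f 1 (algebraMap K D a) hfX h1X (hX a f ha hf hfp)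
      (hX a 1 ha (star_one D) h1p)
    rwa [← Algebra.commutes, ← Algebra.smul_def, ← Algebra.commutes, ← Algebra.smul_def] at h1
  have e1 := line f hf hf0 hfp
  have e2 := line 1 (star_one D) one_ne_zero h1p
  have e3 := mul_inv_eq_iff_eq_mul.mp (hmul b hbs)
  have e4 := mul_inv_eq_iff_eq_mul.mp (hmul c hcs)
  rw [e3, e4, ← e2] at e1
  obtain ⟨u, hu⟩ : ∃ u, u = psi H χ f := ⟨_, rfl⟩
  obtain ⟨u₁, hu₁⟩ : ∃ u, u = psi H χ 1 := ⟨_, rfl⟩
  obtain ⟨B, hBd⟩ : ∃ B, B = psi H χ (b • (1 : D)) := ⟨_, rfl⟩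
  rw [← hu, ← hu₁, ← hBd] at e1
  rw [← hu, ← hu₁]
  obtain ⟨q, hq⟩ : ∃ q, q = u₁⁻¹ * u := ⟨_, rfl⟩
  have e5 : B * B * q * q = B * B * q := by
    have h1 : B * u₁⁻¹ * u = B * q := by rw [hq, mul_assoc]
    have h2 : B * B * u₁⁻¹ * u = B * B * q := by rw [hq, mul_assoc]
    rw [h1, h2, mul_mul_mul_comm, ← mul_assoc] at e1
    exact e1
  have e6 : q = 1 := mul_eq_left.mp e5
  rw [hq] at e6
  exact (inv_mul_eq_one.mp e6).symm

end Vale.Agent.P011.Three
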