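import Vale.Agent.P011.Three.Comb

/-!
The relation for symmetric elements is a consequence of Lemma B.
-/

open Module Matrix
open scoped ComplexOrder

set_option linter.unusedSectionVars false

namespace Vale.Agent.P011.Three

open Vale.Agent.P011S Vale.Agent.P011.RP Vale.Agent.P011.Two.Hi Vale.Agent.P011.Even
open Vale.Agent.P011.Arith

variable {K D : Type} [Field K] [NumberField K] [StarRing K] [DivisionRing D] [StarRing D]
  [Algebra K D] [StarModule K D] [FiniteDimensional K D] [Algebra.IsCentral K D] {n m : ℕ}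

theorem pos_of_double {R : RData K D n} {s : D} (h : (R.f (s + s) * R.A).PosDef) :
    (R.f s * R.A).PosDef := by
  have h1 : R.f s * R.A = ((1 / 2 : ℝ) : ℂ) • (R.f (s + s) * R.A) := by
    rw [map_add, add_mul, ← two_smul ℂ (R.f s * R.A), smul_smul]
    norm_num
  rw [h1]
  exact h.smul (Complex.zero_lt_real.mpr (by norm_num))

/-- The symmetric elements, from Lemma B. -/
theorem sym_of_B (hK : ∃ k : K, star k ≠ k) {ι : Type} {R : ι → RData K D n}
    (hA : ∀ i, (R i).A.PosDef) {V A : Type} [AddCommGroup V] [Module D V] [CommGroup A]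
    {H : AForm D V} (χ : H.isom →* A)
    (hlen : ∀ a : D, star a = a → a ≠ 0 → (∀ i, ((R i).f a * (R i).A).PosDef) →
      ∃ y : V, H.h y y = a) (hB : BOn R (psi H χ)) : SymOn R (psi H χ) := by
  obtain ⟨k0, hk0⟩ := hK
  have hchar : CharZero K := inferInstance
  have hcharD : CharZero D := charZero_of_injective_algebraMap (algebraMap K D).injective
  set θ : K := k0 - star k0 with hθdef
  have hθ0 : θ ≠ 0 := sub_ne_zero.mpr (Ne.symm hk0)
  have hθ : star θ = -θ := by rw [hθdef, star_sub, star_star, neg_sub]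
  have hs2 : star (2 : K) = 2 := by
    rw [← one_add_one_eq_two, star_add, star_one]
  have hs4 : star (4 : K) = 4 := by
    have : (4 : K) = 2 + 2 := by norm_num
    rw [this, star_add, hs2]
  have h2 : (2 : K) ≠ 0 := two_ne_zero
  have h4 : (4 : K) ≠ 0 := by norm_num
  -- the three parameters
  obtain ⟨a, ha⟩ : ∃ a : K, a = 2⁻¹ + θ := ⟨_, rfl⟩
  obtain ⟨c, hc⟩ : ∃ c : K, c = 2⁻¹ + (4 * θ)⁻¹ := ⟨_, rfl⟩
  have ha1 : a + star a = 1 := by
    rw [ha, star_add, star_inv₀, hs2, hθ]
    field_simp
    ring
  have hc1 : c + star c = 1 := by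
    rw [hc, star_add, star_inv₀, star_inv₀, star_mul, hs2, hs4, hθ]
    field_simp
    ring
  have hh1 : (2⁻¹ : K) + star (2⁻¹ : K) = 1 := by
    rw [star_inv₀, hs2]
    norm_num
  have ha0 : a ≠ 0 := by
    rintro h
    rw [h, star_zero, add_zero] at ha1
    exact zero_ne_one ha1
  have hc0 : c ≠ 0 := by
    rintro h
    rw [h, star_zero, add_zero] at hc1
    exact zero_ne_one hc1
  have hac : a⁻¹ + 2 - 2 * a⁻¹ = c⁻¹ := by
    have e1 : (c * (4 * θ)) = 2 * θ + 1 := by
      rw [hc]
      field_simp
      ring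
    have e2 : a * 2 = 1 + 2 * θ := by
      rw [ha]
      field_simp
    have e3 : c * (2 * θ) = a := by
      apply mul_right_cancel₀ h2
      rw [e2]
      linear_combination e1
    have e4 : a⁻¹ + 2 - 2 * a⁻¹ = (2 * a - 1) * a⁻¹ := by
      field_simp
      ring
    have e5 : 2 * a - 1 = 2 * θ := by linear_combination e2
    rw [e4, e5, ← e3]
    field_simp
  -- the cone
  have hpos1 : Xc R (1 : D) := by
    refine ⟨?_, fun i => ?_⟩
    · rw [star_one, one_add_one_eq_two]
      exact two_ne_zero
    · have h := hA i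
      have e : (R i).f (1 + star (1 : D)) * (R i).A = ((2 : ℝ) : ℂ) • (R i).A := by
        rw [star_one, map_add, map_one, add_mul, one_mul, ← two_smul ℂ]
        norm_num
      show ((R i).f (1 + star (1 : D)) * (R i).A).PosDef
      rw [e]
      exact h.smul (Complex.zero_lt_real.mpr (by norm_num))
  have hre : ∀ (s : D) (b : K), star s = s → b + star b = 1 →
      s * algebraMap K D b + star (s * algebraMap K D b) = s := by
    intro s b hs hb
    rw [star_mul, hs, ← algebraMap_star_comm, Algebra.commutes (star b) s, ← mul_add,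
      ← map_add, hb, map_one, mul_one]
  intro s hs hsX
  have hs0 : s ≠ 0 := by
    rintro rfl
    exact hsX.1 (by rw [star_zero, add_zero])
  have hsp : ∀ i, ((R i).f s * (R i).A).PosDef := by
    intro i
    have h := hsX.2 i
    rw [hs] at h
    exact pos_of_double h
  have hX : ∀ b : K, b + star b = 1 → Xc R (s * algebraMap K D b) := by
    intro b hb
    refine ⟨by rw [hre s b hs hb]; exact hs0, fun i => ?_⟩
    rw [hre s b hs hb]
    exact hsp i
  have hX1 : ∀ b : K, b + star b = 1 → Xc R (algebraMap K D b) := by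
    intro b hb
    have h := hre 1 b (star_one D) hb
    rw [one_mul] at h
    refine ⟨by rw [h]; exact one_ne_zero, fun i => ?_⟩
    rw [h]
    show ((R i).f 1 * (R i).A).PosDef
    rw [map_one, one_mul]
    exact hA i
  -- the value on the products
  have hval : ∀ b : K, b + star b = 1 → psi H χ (s * algebraMap K D b) =
      psi H χ s * (psi H χ 1)⁻¹ * psi H χ (algebraMap K D b) := by
    intro b hb
    have h := hB s 1 (algebraMap K D b) hsX hpos1 (hX b hb) (by rw [one_mul]; exact hX1 b hb)
    rw [one_mul, mul_inv_eq_iff_eq_mul] at h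
    rw [h, mul_comm (psi H χ s * _), mul_comm (psi H χ s) (psi H χ 1)⁻¹, mul_assoc]
  -- the relation on the lines
  have hline : ∀ t : D, star t = t → t ≠ 0 → (∀ i, ((R i).f t * (R i).A).PosDef) →
      psi H χ (t * algebraMap K D a) * psi H χ (t * algebraMap K D 2⁻¹) =
        psi H χ (t * algebraMap K D c) := by
    intro t ht ht0 htp
    obtain ⟨y, hy⟩ := hlen t ht ht0 htp
    refine psi_line (y := y) (by rw [hre t a ht ha1, hy]) (by rw [hre t _ ht hh1, hy])
      (by rw [hre t c ht hc1, hy]) ?_
    rw [hy, _root_.mul_inv_rev, _root_.mul_inv_rev, _root_.mul_inv_rev, ← map_inv₀, ← map_inv₀,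
      ← map_inv₀, inv_inv, ← hac, map_sub, map_add, map_mul]
    have e : algebraMap K D 2 * t⁻¹ * t * (algebraMap K D a⁻¹ * t⁻¹) =
        algebraMap K D 2 * algebraMap K D a⁻¹ * t⁻¹ := by
      rw [mul_assoc (algebraMap K D 2) t⁻¹ t, inv_mul_cancel₀ ht0, mul_one, mul_assoc]
    rw [e, sub_mul, add_mul]
  have h3 := hline s hs hs0 hsp
  have h4 := hline 1 (star_one D) one_ne_zero fun i => by rw [map_one, one_mul]; exact hA i
  rw [one_mul, one_mul, one_mul] at h4
  rw [hval a ha1, hval _ hh1, hval c hc1, ← h4] at h3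
  have h5 : psi H χ s * (psi H χ 1)⁻¹ = 1 := by
    have h6 : ∀ q x y : A, q * x * (q * y) = q * (x * y) → q = 1 := by
      intro q x y h
      have h7 : q * (q * (x * y)) = q * (x * y) := by
        calc q * (q * (x * y)) = q * x * (q * y) := by rw [mul_mul_mul_comm q x q y, mul_assoc]
          _ = q * (x * y) := h
      exact mul_eq_right.mp (mul_left_cancel h7)
    exact h6 _ _ _ h3
  exact mul_inv_eq_one.mp h5

end Vale.Agent.P011.Three
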