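import Vale.Agent.P011.Three.DPlane
import Vale.Agent.P011.Three.DPos
import Vale.Agent.P011.Even.GFinish

/-!
# P011, rank three, block D

For a normal subgroup `N` of finite index of the special unitary group of an anisotropic form
which contains planes `⟨1, μ⟩` for all scalars `μ` of given signs, the product of two reflections
in vectors of totally positive length lies in `N`.
-/

open NumberField IsDedekindDomain Module Matrix
open scoped ComplexOrder

set_option linter.unusedSectionVars false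

namespace Vale.Agent.P011.Three

open Vale.Agent.P011S Vale.Agent.P011.Arith Vale.Agent.P011.Even Vale.Agent.P011.MPQ
open Vale.Agent.P011.Two Vale.Agent.P011.Two.Hi
open Vale.Agent.P011.RP (RData Complete)

section field

variable {k K D : Type} [Field k] [NumberField k] [Field K] [StarRing K]
  [DivisionRing D] [StarRing D] [Algebra k K] [Algebra k D] [Algebra K D] [IsScalarTower k K D]
  {d : kˣ} {s : K}

/-- The field generated by a symmetric element. -/
theorem exists_symF (hS : Setting k K D d s) {c : D} (hc : star c = c) :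
    ∃ (F : Type) (_ : Field F) (_ : NumberField F) (_ : Algebra k F) (ι : F →ₐ[k] D) (g : F),
      ι g = c ∧ ∀ x, star (ι x) = ι x := by
  have _ := hS.fin
  have hfinK : FiniteDimensional k K := Module.finite_of_finrank_pos (by rw [hS.rank]; norm_num)
  have hfinD : FiniteDimensional k D := FiniteDimensional.trans k K D
  obtain ⟨F, _, _, _, ι, g, hg, h⟩ := exists_gen (Module.finBasis k D) c
  refine ⟨F, inferInstance, inferInstance, inferInstance, ι, g, hg, fun x => ?_⟩
  obtain ⟨p, rfl⟩ := h x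
  have hsm : ∀ (a : k) (x : D), star (a • x) = a • star x := fun a x => (sig hS).map_smul a x
  have e1 : ι (Polynomial.aeval g p) = Polynomial.aeval c p := by
    rw [← hg]
    exact (Polynomial.aeval_algHom_apply ι g p).symm
  rw [e1, Polynomial.aeval_eq_sum_range, star_sum]
  refine Finset.sum_congr rfl fun i _ => ?_
  rw [hsm, star_pow, hc]

end field

variable {k K D Ω : Type} [Field k] [NumberField k] [Field K] [StarRing K]
  [DivisionRing D] [StarRing D] [Algebra k K] [Algebra k D] [Algebra K D] [IsScalarTower k K D]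
  [Field Ω] [Algebra K Ω] {d : kˣ} {s : K} {n : ℕ} (f : D →ₐ[K] Matrix (Fin n) (Fin n) Ω)
  {m : ℕ} {H : Matrix (Fin m) (Fin m) D} {hH : IsAnisotropicForm H}

/-- The form contains the planes `⟨1, μ⟩` for all scalars `μ` of the given signs. -/
def HasPlanes (hH : IsAnisotropicForm H) (ε : (k →+* ℝ) → ℤˣ) : Prop :=
  ∀ μ : kˣ, (∀ φ : k →+* ℝ, 0 < (((ε φ : ℤˣ) : ℤ) : ℝ) * φ μ) → ∃ X Y : Fin m → D,
    (rowA H hH).h X X = 1 ∧ (rowA H hH).h X Y = 0 ∧ (rowA H hH).h Y Y = algebraMap k D μ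

theorem exists_refl_mem [CharZero D] (hM : MPQStatement) (hS : Setting k K D d s) (hn : 0 < n)
    (N : Subgroup (SU f H)) [N.Normal] (hN : N.index ≠ 0) {ι' : Type} (R : ι' → RData K D n)
    (hR : Complete R) (hRA : ∀ i, (R i).A.PosDef) {ε : (k →+* ℝ) → ℤˣ}
    (hE : HasPlanes hH ε) {c : D} (hc : star c = c) (hc0 : c ≠ 0)
    (hcp : ∀ i, ((R i).f c * (R i).A).PosDef) :
    ∃ v X : Fin m → D, (rowA H hH).h v v = c ∧ (rowA H hH).h X X = 1 ∧
      (rowA H hH).refl v * (rowA H hH).refl X ∈ NN f N := by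
  obtain ⟨F, _, _, _, ι, g, hg, sym⟩ := exists_symF hS hc
  have hg0 : g ≠ 0 := by
    rintro rfl
    rw [map_zero] at hg
    exact hc0 hg.symm
  obtain ⟨c₀, hc₀⟩ : ∃ c₀ : Fˣ, (c₀ : F) = g := ⟨Units.mk0 g hg0, rfl⟩
  obtain ⟨μ, hμ1, hμ2⟩ := exists_mu d F c₀ ε
  obtain ⟨X, Y, hX, hXY, hY⟩ := hE μ hμ1
  have hιb : ι ((inc k F μ : Fˣ) : F) = algebraMap k D μ := ι.commutes _
  have hμD : algebraMap k D μ ≠ 0 := (map_ne_zero _).mpr μ.ne_zero
  have hP : Pl (rowA H hH) X Y := by
    refine ⟨?_, ?_, hXY⟩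
    · rintro rfl
      rw [(rowA H hH).zero_left] at hX
      exact zero_ne_one hX
    · rintro rfl
      rw [(rowA H hH).zero_left] at hY
      exact hμD hY.symm
  rw [← hιb] at hY
  have hhv : ∀ x y : D × D, hh (ι ((inc k F μ : Fˣ) : F)) x y =
      (rowA H hH).h (Hi.vec X Y x) (Hi.vec X Y y) := by
    intro x y
    rw [h_vec hP, hX, hY, mul_one]
    rfl
  have han : An (ι ((inc k F μ : Fˣ) : F)) := by
    intro x hx
    rw [hhv] at hx
    have h1 := (rowA H hH).anis hx
    have h2 := crd_vec hP x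
    rw [h1, map_zero] at h2
    exact h2.symm
  have hA : Aniso (inc k F d) (-(inc k F μ)) :=
    aniso_plane (y := ((1 : D), (0 : D))) (w := ((0 : D), (1 : D))) hS (sym _) han sym
      (by simp [hh]) (by simp [hh]) (by simp [hh])
  have hτ : ((N.index : F)) ^ 4 ≠ 0 := pow_ne_zero 4 (Nat.cast_ne_zero.mpr hN)
  obtain ⟨x₀, x₁, y₀, y₁, h1, h2⟩ := exists_repr (inc k F d) (-(inc k F μ)) c₀ hA (by
    intro φ hφ _
    obtain ⟨i, hi⟩ := exists_place (F := F) hS hR φ hφ
    rw [hc₀]
    exact pos_of_posDef hS hn (R i) (hRA i) ι sym φ hi (by rw [hg]; exact hcp i)) hμ2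
    ((N.index : F) ^ 4) hτ
  obtain ⟨v, hv, u, hu, hpe⟩ := refl_plane hS ι sym (inc k F μ) c₀ hP hX hY x₀ x₁ y₀ y₁ h1
  refine ⟨v, X, by rw [hv, hc₀, hg], hX, ?_⟩
  rw [← hu]
  refine near_mem f hM hS N hN ι sym (inc k F μ) hP hX hY hpe ?_
  intro ω hω
  have h3 := h2 ω hω
  have hc00 : (c₀ : F) ≠ 0 := c₀.ne_zero
  have e1 : (2 : F) - 2 * (2 * (x₀ ^ 2 - inc k F d * x₁ ^ 2) / c₀ - 1) =
      -(4 * ((-(inc k F μ) : Fˣ) * (y₀ ^ 2 - inc k F d * y₁ ^ 2) / c₀)) := by
    field_simp
    rw [h1]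
    ring
  rw [e1, Valuation.map_neg, map_mul, map_mul]
  refine mul_lt_mul_of_pos_left h3 (zero_lt_iff.mpr ((Valuation.ne_zero_iff _).mpr ?_))
  norm_num

/-- Commutators of isometries lie in a normal subgroup which contains the commutators. -/
theorem comm_mem (N : Subgroup (SU f H)) (hN : ContainsCommutators f H N)
    {a b : (Fin m → D) ≃ₗ[D] (Fin m → D)} (ha : a ∈ (rowA H hH).isom)
    (hb : b ∈ (rowA H hH).isom) : a * b * a⁻¹ * b⁻¹ ∈ NN f N := by
  obtain ⟨a', rfl⟩ := rp_surj a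
  obtain ⟨b', rfl⟩ := rp_surj b
  obtain ⟨x, hx, hxe⟩ := hN a' ((rp_mem hH).mp ha) b' ((rp_mem hH).mp hb)
  refine ⟨(x : (Matrix (Fin m) (Fin m) D)ˣ), ⟨x, hx, rfl⟩, ?_⟩
  rw [hxe]
  simp only [map_mul, map_inv]

/-- Reflections in vectors of the same length are congruent. -/
theorem refl_congr [CharZero D] (N : Subgroup (SU f H)) (hN : ContainsCommutators f H N)
    {v v' : Fin m → D} (h : (rowA H hH).h v v = (rowA H hH).h v' v') :
    (rowA H hH).refl v' * (rowA H hH).refl v ∈ NN f N := by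
  obtain ⟨g, hg, hgv, -⟩ := AForm.witt_one h
  have h1 := comm_mem (hH := hH) f N hN hg ((rowA H hH).refl_mem v)
  rwa [(rowA H hH).refl_conj hg, hgv, (rowA H hH).refl_inv] at h1

/-- The product of two reflections in vectors of totally positive length lies in `N`. -/
theorem refl_mul_refl_mem [CharZero D] (hM : MPQStatement) (hS : Setting k K D d s) (hn : 0 < n)
    (N : Subgroup (SU f H)) [N.Normal] (hN : N.index ≠ 0) (hNc : ContainsCommutators f H N)
    {ι' : Type} (R : ι' → RData K D n) (hR : Complete R) (hRA : ∀ i, (R i).A.PosDef)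
    {ε : (k →+* ℝ) → ℤˣ} (hE : HasPlanes hH ε) {v v' : Fin m → D} (hv0 : v ≠ 0) (hv0' : v' ≠ 0)
    (hv : ∀ i, ((R i).f ((rowA H hH).h v v) * (R i).A).PosDef)
    (hv' : ∀ i, ((R i).f ((rowA H hH).h v' v') * (R i).A).PosDef) :
    (rowA H hH).refl v * (rowA H hH).refl v' ∈ NN f N := by
  have key : ∀ {v : Fin m → D}, v ≠ 0 →
      (∀ i, ((R i).f ((rowA H hH).h v v) * (R i).A).PosDef) → ∃ X : Fin m → D,
      (rowA H hH).h X X = 1 ∧ (rowA H hH).refl v * (rowA H hH).refl X ∈ NN f N := by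
    intro v hv0 hv
    obtain ⟨v₁, X, h1, h2, h3⟩ := exists_refl_mem f hM hS hn N hN R hR hRA hE
      ((rowA H hH).star_h v v) ((rowA H hH).self_ne_zero hv0) hv
    refine ⟨X, h2, ?_⟩
    have h4 := mul_mem (refl_congr (hH := hH) f N hNc h1) h3
    rwa [mul_assoc, ← mul_assoc ((rowA H hH).refl v₁), (rowA H hH).refl_mul_self, one_mul] at h4
  obtain ⟨X, hX, h1⟩ := key hv0 hv
  obtain ⟨X', hX', h2⟩ := key hv0' hv'
  have h3 := refl_congr (hH := hH) f N hNc (hX'.trans hX.symm)
  have h4 := mul_mem (mul_mem h1 h3) (inv_mem h2)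
  rw [_root_.mul_inv_rev, (rowA H hH).refl_inv, (rowA H hH).refl_inv] at h4
  have e : (rowA H hH).refl v * (rowA H hH).refl X * ((rowA H hH).refl X *
      (rowA H hH).refl X') * ((rowA H hH).refl X' * (rowA H hH).refl v') =
      (rowA H hH).refl v * ((rowA H hH).refl X * (rowA H hH).refl X) *
      ((rowA H hH).refl X' * (rowA H hH).refl X') * (rowA H hH).refl v' := by
    simp only [mul_assoc]
  rw [e, (rowA H hH).refl_mul_self, (rowA H hH).refl_mul_self, mul_one, mul_one] at h4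
  exact h4

omit [NumberField k] [Algebra k K] [Algebra k D] [IsScalarTower k K D] [Field k] in
/-- A quasi-reflection with a symmetric coefficient is a reflection. -/
theorem qr_eq_refl {V : Type} [AddCommGroup V] [Module D V] [CharZero D] (A : AForm D V) (v : V)
    {z : D} (hz : star z = z) (h : z + star z = A.h v v) : A.qr v z h = A.refl v := by
  have e : z = A.h v v / 2 := by
    rw [← h, hz, add_self_div_two]
  unfold AForm.refl
  congr 1

end Vale.Agent.P011.Three
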