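import Vale.Agent.P011.Three.LemB

/-!
The class of the reflections does not depend on the length of the vector, as soon as the quotient
of the classes of `z * r` and `z` does not depend on `z`.
-/

namespace Vale.Agent.P011.Three

open Vale.Agent.P011S

variable {D V A : Type*} [DivisionRing D] [StarRing D] [CharZero D] [AddCommGroup V] [Module D V]
  [CommGroup A] {H : AForm D V} {χ : H.isom →* A}

/-- Two central Wall parameters on a line of length `f`. -/
theorem psi_central_line {y : V} {f θ : D} (hf0 : f ≠ 0) (hf : f = H.h y y) (hθ0 : θ ≠ 0)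
    (hθ : star θ = -θ) (hθc : ∀ x : D, x * θ = θ * x) :
    psi H χ ((2⁻¹ + θ) * f) * psi H χ (2⁻¹ * f) = psi H χ ((2⁻¹ + (4 * θ)⁻¹) * f) := by
  have h2 : (2 : D) ≠ 0 := two_ne_zero
  have h4 : (4 : D) ≠ 0 := by norm_num
  have hfs : star f = f := by rw [hf, H.star_h]
  have hs2 : star (2⁻¹ : D) = 2⁻¹ := by rw [star_inv₀, star_ofNat]
  have hc2 : ∀ x : D, x * 2⁻¹ = 2⁻¹ * x := fun x =>
    ((Nat.cast_commute 2 x).inv_left₀).eq.symm
  have hc4 : ∀ x : D, x * 4⁻¹ = 4⁻¹ * x := fun x =>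
    ((Nat.cast_commute 4 x).inv_left₀).eq.symm
  have hcθ : ∀ x : D, x * θ⁻¹ = θ⁻¹ * x := fun x =>
    (show Commute x θ from hθc x).inv_right₀.eq
  have hhalf : (2⁻¹ : D) + 2⁻¹ = 1 := by rw [← two_mul, mul_inv_cancel₀ h2]
  have e4 : (4 * θ)⁻¹ = 4⁻¹ * θ⁻¹ := by rw [mul_inv_rev, hc4]
  have hs4 : star ((4 * θ)⁻¹) = -(4 * θ)⁻¹ := by
    rw [star_inv₀, star_mul, hθ, star_ofNat, neg_mul, inv_neg, hθc]
  have hcen : ∀ t : D, star t = -t → (∀ x : D, x * t = t * x) →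
      (2⁻¹ + t) * f + star ((2⁻¹ + t) * f) = H.h y y := by
    intro t ht htc
    rw [star_mul, star_add, hs2, ht, hfs, ← hf, mul_add, mul_neg, hc2, htc, add_mul]
    calc 2⁻¹ * f + t * f + (2⁻¹ * f + -(t * f)) = (2⁻¹ + 2⁻¹) * f := by rw [add_mul]; abel
      _ = f := by rw [hhalf, one_mul]
  have hc4θ : ∀ x : D, x * (4 * θ)⁻¹ = (4 * θ)⁻¹ * x := by
    intro x
    rw [e4, ← mul_assoc, hc4, mul_assoc, hcθ, mul_assoc]
  have h1 := hcen θ hθ hθc
  have h3 := hcen _ hs4 hc4θ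
  have h5 : 2⁻¹ * f + star (2⁻¹ * f) = H.h y y := by
    have h6 := hcen 0 (by rw [star_zero, neg_zero]) (fun x => by rw [mul_zero, zero_mul])
    rwa [add_zero] at h6
  have hθ' : (2⁻¹ + θ : D) ≠ 0 := by
    intro h0
    have h6 := congrArg star h0
    rw [star_add, hs2, hθ, star_zero] at h6
    have h7 : (2⁻¹ : D) + 2⁻¹ = 0 := by
      calc (2⁻¹ : D) + 2⁻¹ = (2⁻¹ + θ) + (2⁻¹ + -θ) := by abel
        _ = 0 := by rw [h0, h6, add_zero]
    rw [hhalf] at h7
    exact one_ne_zero h7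
  refine psi_line h1 h5 h3 ?_
  rw [← hf, mul_inv_rev, mul_inv_rev, inv_inv, mul_inv_rev]
  -- the identity
  have k0 : (2⁻¹ + (4 * θ)⁻¹ : D) = (2⁻¹ + θ) * (2 * θ)⁻¹ := by
    have e1 : (2 * θ)⁻¹ = 2⁻¹ * θ⁻¹ := by rw [mul_inv_rev, ← hcθ]
    have e2 : (2⁻¹ : D) * 2⁻¹ = 4⁻¹ := by norm_num
    rw [e4, e1, add_mul, ← mul_assoc, e2, ← mul_assoc, hc2 θ, mul_assoc 2⁻¹ θ θ⁻¹,
      mul_inv_cancel₀ hθ0, mul_one, add_comm]
  have k1 : (2⁻¹ + (4 * θ)⁻¹ : D)⁻¹ = 2 - (2⁻¹ + θ)⁻¹ := by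
    symm
    apply eq_inv_of_mul_eq_one_left
    rw [k0, ← mul_assoc, sub_mul, inv_mul_cancel₀ hθ', mul_add, mul_inv_cancel₀ h2,
      add_sub_cancel_left, mul_inv_cancel₀ (mul_ne_zero h2 hθ0)]
  rw [k1]
  have hfi : f⁻¹ * 2 * f = 2 := by
    rw [mul_assoc, two_mul, mul_add, inv_mul_cancel₀ hf0]
    norm_num
  rw [hfi, mul_sub]
  have e5 : f⁻¹ * 2 = 2 * f⁻¹ := (Nat.cast_commute 2 (f⁻¹)).eq.symm
  rw [e5]
  noncomm_ring

/-- The classes of the symmetric parameters coincide, from Lemma B. -/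
theorem psi_sym_of_B {X : D → Prop} (hre : ∀ z z' : D, z + star z = z' + star z' → X z → X z')
    (hhalf : ∀ z : D, X z → X (2⁻¹ * z))
    (hB : ∀ z z' r : D, X z → X z' → X (z * r) → X (z' * r) →
      psi H χ (z * r) * (psi H χ z)⁻¹ = psi H χ (z' * r) * (psi H χ z')⁻¹)
    {θ : D} (hθ0 : θ ≠ 0) (hθ : star θ = -θ) (hθc : ∀ x : D, x * θ = θ * x)
    (h1 : X 1) {y₁ : V} (hy₁ : 1 = H.h y₁ y₁) {f : D} (hf0 : f ≠ 0) (hfX : X f) {y : V}
    (hf : f = H.h y y) : psi H χ f = psi H χ 1 := by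
  have hfs : star f = f := by rw [hf, H.star_h]
  have hs2 : star (2⁻¹ : D) = 2⁻¹ := by rw [star_inv₀, star_ofNat]
  have hc2 : ∀ x : D, x * 2⁻¹ = 2⁻¹ * x := fun x =>
    ((Nat.cast_commute 2 x).inv_left₀).eq.symm
  have hX : ∀ t g : D, star t = -t → (∀ x : D, x * t = t * x) → star g = g → X g →
      X ((2⁻¹ + t) * g) := by
    intro t g ht htc hg hgX
    refine hre _ _ ?_ (hhalf g hgX)
    rw [star_mul, star_mul, star_add, hs2, ht, hg, add_mul, mul_add, mul_neg, htc g]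
    abel
  have ht4 : star ((4 * θ)⁻¹) = -(4 * θ)⁻¹ := by
    rw [star_inv₀, star_mul, hθ, star_ofNat, neg_mul, inv_neg, hθc]
  have hc4 : ∀ x : D, x * (4 * θ)⁻¹ = (4 * θ)⁻¹ * x := by
    intro x
    have h : Commute x (4 * θ) := (Nat.commute_cast x 4).mul_right (hθc x)
    exact h.inv_right₀.eq
  -- Lemma B with `r = f`
  obtain ⟨l, hl⟩ : ∃ l, l = psi H χ f * (psi H χ 1)⁻¹ := ⟨_, rfl⟩
  have key : ∀ t : D, star t = -t → (∀ x : D, x * t = t * x) →
      psi H χ ((2⁻¹ + t) * f) = l * psi H χ (2⁻¹ + t) := by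
    intro t ht htc
    have h2 := hX t 1 ht htc (star_one D) h1
    rw [mul_one] at h2
    have h3 := hB (2⁻¹ + t) 1 f h2 h1 (hX t f ht htc hfs hfX) (by rwa [one_mul])
    rw [one_mul, ← hl, mul_inv_eq_iff_eq_mul] at h3
    exact h3
  have e1 := psi_central_line (χ := χ) hf0 hf hθ0 hθ hθc
  have e2 := psi_central_line (χ := χ) one_ne_zero hy₁ hθ0 hθ hθc
  have k0 := key 0 (by rw [star_zero, neg_zero]) (fun x => by rw [mul_zero, zero_mul])
  rw [add_zero] at k0
  rw [key θ hθ hθc, k0, key _ ht4 hc4] at e1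
  rw [mul_one, mul_one, mul_one] at e2
  have e3 : l = 1 := by
    rw [← e2] at e1
    have h4 : l * (l * (psi H χ (2⁻¹ + θ) * psi H χ 2⁻¹)) =
        l * (psi H χ (2⁻¹ + θ) * psi H χ 2⁻¹) := by
      calc l * (l * (psi H χ (2⁻¹ + θ) * psi H χ 2⁻¹))
          = l * psi H χ (2⁻¹ + θ) * (l * psi H χ 2⁻¹) := by
            simp only [mul_assoc, mul_left_comm]
        _ = _ := e1
    exact mul_eq_right.mp h4
  rw [hl, mul_inv_eq_one] at e3
  exact e3

section real

open Module Matrix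
open scoped ComplexOrder
open Vale.Agent.P011.RP

variable {K D V A : Type} [Field K] [CharZero K] [StarRing K] [DivisionRing D] [StarRing D]
  [Algebra K D] [StarModule K D] {n : ℕ} [AddCommGroup V] [Module D V] [CommGroup A]
  {ι : Type} {R : ι → RData K D n} {H : AForm D V} {χ : H.isom →* A}

/-- Block (D): the class of a positive symmetric parameter, from Lemma B on the cone of the
elements with positive real part. -/
theorem psi_sym_pos (hK : ∃ k : K, star k ≠ k) (hA : ∀ i, (R i).A.PosDef)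
    (hB : ∀ z z' r : D, XX R z → XX R z' → XX R (z * r) → XX R (z' * r) →
      psi H χ (z * r) * (psi H χ z)⁻¹ = psi H χ (z' * r) * (psi H χ z')⁻¹)
    {y₁ : V} (hy₁ : H.h y₁ y₁ = 1) {f : D} (hf0 : f ≠ 0) (hfp : ∀ i, (R i).PosAt f) {y : V}
    (hf : f = H.h y y) : psi H χ f = psi H χ 1 := by
  have hchar : CharZero D := charZero_of_injective_algebraMap (algebraMap K D).injective
  obtain ⟨k, hk⟩ := hK
  have hfs : star f = f := by rw [hf, H.star_h]
  have hp2 : ∀ (i : ι) (x : D), (R i).PosAt x → (R i).PosAt (2⁻¹ * x) := by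
    intro i x hx
    have h1 : (R i).f (2⁻¹ * x) * (R i).A = ((1 / 2 : ℝ) : ℂ) • ((R i).f x * (R i).A) := by
      have h2 : (R i).f x = (R i).f (2⁻¹ * x) + (R i).f (2⁻¹ * x) := by
        rw [← map_add, ← add_mul, ← two_mul, mul_inv_cancel₀ two_ne_zero, one_mul]
      rw [h2, add_mul, ← two_smul ℂ ((R i).f (2⁻¹ * x) * (R i).A), smul_smul]
      norm_num
    rw [RData.PosAt, h1]
    exact hx.smul (by rw [Complex.zero_lt_real]; norm_num)
  have hp3 : ∀ (i : ι) (x : D), (R i).PosAt x → (R i).PosAt (x + x) := by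
    intro i x hx
    rw [RData.PosAt, map_add, add_mul]
    exact Matrix.PosDef.add hx hx
  have hhalf : ∀ z : D, XX R z → XX R (2⁻¹ * z) := by
    intro z hz i
    have h2 : 2⁻¹ * z + star (2⁻¹ * z) = 2⁻¹ * (z + star z) := by
      have h3 : star z * 2⁻¹ = 2⁻¹ * star z :=
        ((Nat.cast_commute 2 (star z)).inv_left₀).eq.symm
      rw [star_mul, star_inv₀, star_ofNat, mul_add, h3]
    rw [h2]
    exact hp2 i _ (hz i)
  have hre : ∀ z z' : D, z + star z = z' + star z' → XX R z → XX R z' := by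
    intro z z' h hz i
    rw [← h]
    exact hz i
  have hX1 : XX R (1 : D) := by
    intro i
    rw [star_one]
    refine hp3 i 1 ?_
    rw [RData.PosAt, map_one, one_mul]
    exact hA i
  have hXf : XX R f := by
    intro i
    rw [hfs]
    exact hp3 i f (hfp i)
  have hθ0 : algebraMap K D (k - star k) ≠ 0 :=
    (_root_.map_ne_zero _).mpr (sub_ne_zero.mpr (Ne.symm hk))
  have hst : ∀ c : K, star (algebraMap K D c) = algebraMap K D (star c) := by
    intro c
    rw [Algebra.algebraMap_eq_smul_one, star_smul, star_one, Algebra.algebraMap_eq_smul_one]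
  refine psi_sym_of_B hre hhalf hB (θ := algebraMap K D (k - star k)) hθ0 ?_
    (fun x => (Algebra.commutes _ x).symm) hX1 hy₁.symm hf0 hXf hf
  rw [hst, star_sub, star_star, ← map_neg, neg_sub]

end real

end Vale.Agent.P011.Three
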